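import Vale.Agent.Lib.P322.TheoremA

/-!
# General Bellman lemma for the nested norm, and the small-set function
-/

namespace Vale.Agent.Lib.P322

open Finset Real

variable {n : ℕ}

/-- Two-point inequality for a function `G`. -/
def TPI (G : ℝ → ℝ) : Prop :=
  ∀ x y : ℝ, 0 ≤ y → y ≤ x → x ≤ 1 → 2 * G ((x + y) / 2) ≤ Nstar (G x) (x - y) + G y

/-- Loss estimate for the nested norm when the first argument decreases. -/
lemma Nstar_sub_le {A₀ A B P : ℝ} (hA₀ : 0 ≤ A₀) (hA : 0 ≤ A) (hB : 0 ≤ B) (hP : 0 ≤ P)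
    (h : A₀ - P ≤ A) : Nstar A₀ B - P ≤ Nstar A B := by
  obtain ⟨r, h0, h1, e⟩ := Nstar_eq_linear hA₀ hB
  have hl := Nstar_ge_linear hA hB h0 h1
  rw [e]
  have hr2 : r ^ 2 ≤ 1 := by nlinarith
  have hc0 : 0 ≤ 1 - r ^ 2 / 2 := by linarith
  have hc1 : 1 - r ^ 2 / 2 ≤ 1 := by nlinarith [sq_nonneg r]
  nlinarith

/-- Jensen for the nested norm on the cube. -/
lemma avg_Nstar_ge (A B : Cube n → ℝ) (hA : ∀ y, 0 ≤ A y) (hB : ∀ y, 0 ≤ B y) {s : ℝ}
    (hs0 : 0 ≤ s) (hs : s ≤ avg B) :
    Nstar (avg A) s ≤ avg (fun y => Nstar (A y) (B y)) := by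
  have hA0 : 0 ≤ avg A := avg_nonneg hA
  obtain ⟨r, h0, h1, e⟩ := Nstar_eq_linear hA0 hs0
  rw [e]
  have h2 : avg (fun y => (1 - r ^ 2 / 2) * A y + r * B y) ≤
      avg (fun y => Nstar (A y) (B y)) :=
    avg_mono (fun y => Nstar_ge_linear (hA y) (hB y) h0 h1)
  rw [avg_add, avg_const_mul, avg_const_mul] at h2
  have h3 := mul_le_mul_of_nonneg_left hs h0
  linarith

/-- Bellman induction. -/
theorem bellman {G : ℝ → ℝ} (hG : TPI G) (hG0 : ∀ r, 0 ≤ r → r ≤ 1 → 0 ≤ G r) :
    ∀ {n : ℕ} (w : Cube n → ℝ), (∀ y, 0 ≤ w y) → (∀ y, w y ≤ 1) →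
      G (avg w) - avg (fun y => G (w y)) ≤ avg (fun y => nest n (gradP w y)) := by
  intro n
  induction n with
  | zero =>
      intro w _ _
      have h : ∀ g : Cube 0 → ℝ, avg g = g (fun _ => false) := by
        intro g
        simp [avg, Finset.univ_unique]
        exact congrArg g (Subsingleton.elim _ _)
      rw [h w, h (fun y => G (w y)), h (fun y => nest 0 (gradP w y))]
      simp [nest]
  | succ n ih =>
      intro w h0 h1
      have ht0 : ∀ y, 0 ≤ restr true w y := fun y => h0 _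
      have ht1 : ∀ y, restr true w y ≤ 1 := fun y => h1 _
      have hf0 : ∀ y, 0 ≤ restr false w y := fun y => h0 _
      have hf1 : ∀ y, restr false w y ≤ 1 := fun y => h1 _
      have IHt := ih _ ht0 ht1
      have IHf := ih _ hf0 hf1
      have et : restr true (fun y => nest (n + 1) (gradP w y)) =
          fun y => Nstar (nest n (gradP (restr true w) y))
            (max (restr true w y - restr false w y) 0) := by
        funext y
        simp only [restr]
        rw [nest_gradP_cons]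
        simp [restr]
      have ef : restr false (fun y => nest (n + 1) (gradP w y)) =
          fun y => Nstar (nest n (gradP (restr false w) y))
            (max (restr false w y - restr true w y) 0) := by
        funext y
        simp only [restr]
        rw [nest_gradP_cons]
        simp [restr]
      have key : ∀ {u v : Cube n → ℝ}, (∀ y, 0 ≤ u y) → (∀ y, u y ≤ 1) → (∀ y, 0 ≤ v y) →
          (∀ y, v y ≤ 1) → avg v ≤ avg u →
          G (avg u) - avg (fun y => G (u y)) ≤ avg (fun y => nest n (gradP u y)) →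
          G (avg v) - avg (fun y => G (v y)) ≤ avg (fun y => nest n (gradP v y)) →
          2 * G ((avg u + avg v) / 2) - avg (fun y => G (u y)) - avg (fun y => G (v y)) ≤
            avg (fun y => Nstar (nest n (gradP u y)) (max (u y - v y) 0)) +
            avg (fun y => Nstar (nest n (gradP v y)) (max (v y - u y) 0)) := by
        intro u v hu0 hu1 hv0 hv1 huv IHu IHv
        have hau0 := avg_nonneg hu0
        have hav0 := avg_nonneg hv0
        have hau1 : avg u ≤ 1 := by
          have := avg_mono hu1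
          rwa [avg_const] at this
        have hav1 : avg v ≤ 1 := huv.trans hau1
        have hGu := hG0 _ hau0 hau1
        have hPu : 0 ≤ avg (fun y => G (u y)) := avg_nonneg (fun y => hG0 _ (hu0 y) (hu1 y))
        have hA0 : ∀ y, 0 ≤ nest n (gradP u y) := fun y => nest_nonneg _ _ (gradP_nonneg u y)
        have hB0 : ∀ y, 0 ≤ max (u y - v y) 0 := fun y => le_max_right _ _
        have hs0 : 0 ≤ avg u - avg v := by linarith
        have hs := avg_max_ge u v
        have j1 := avg_Nstar_ge _ _ hA0 hB0 hs0 hs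
        have j2 := Nstar_sub_le (B := avg u - avg v) hGu (avg_nonneg hA0) hs0 hPu (by linarith)
        have j3 : avg (fun y => nest n (gradP v y)) ≤
            avg (fun y => Nstar (nest n (gradP v y)) (max (v y - u y) 0)) := by
          refine avg_mono (fun y => ?_)
          have := Nstar_ge_linear (nest_nonneg _ _ (gradP_nonneg v y))
            (le_max_right (v y - u y) 0) (le_refl 0) (by norm_num : (0:ℝ) ≤ 1)
          simpa using this
        have j4 := hG _ _ hav0 huv hau1
        linarith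
      have eG : avg (fun y => G (w y)) =
          (avg (fun y => G (restr true w y)) + avg (fun y => G (restr false w y))) / 2 :=
        avg_succ _
      rw [avg_succ w, avg_succ (fun y => nest (n + 1) (gradP w y)), et, ef, eG]
      rcases le_total (avg (restr false w)) (avg (restr true w)) with hle | hle
      · have := key ht0 ht1 hf0 hf1 hle IHt IHf
        linarith
      · have := key hf0 hf1 ht0 ht1 hle IHf IHt
        rw [add_comm (avg (restr false w))] at this
        linarith

/-- The Gini function `2 r (1 - r)`. -/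
noncomputable def G0 (r : ℝ) : ℝ := 2 * r * (1 - r)

/-- The small-set part. -/
noncomputable def Gs (r : ℝ) : ℝ := 11 / 5 * r - 8 * r ^ 2

/-- The function used for small sets. -/
noncomputable def G3 (r : ℝ) : ℝ := max (G0 r) (Gs r)

lemma G0_TPI_aux {x y : ℝ} (hy : 0 ≤ y) (hxy : y ≤ x) (hx : x ≤ 1) :
    2 * G0 ((x + y) / 2) ≤ Nstar (G0 x) (x - y) + G0 y := by
  have hx0 : 0 ≤ x := hy.trans hxy
  have hV0 : 0 ≤ x * (1 - x) := mul_nonneg hx0 (by linarith)
  obtain ⟨r, h0, h1, hk⟩ := key_step (M := 1) (V := x * (1 - x)) (x := x) (y := y) one_pos hV0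
    (le_refl _) hy hxy hx
  have hGx : G0 x = 2 / 1 * (x * (1 - x)) := by unfold G0; ring
  have hn := Nstar_ge_linear (A := G0 x) (B := x - y) (by rw [hGx]; positivity) (by linarith) h0 h1
  rw [hGx] at hn ⊢
  unfold G0
  have e : (x - y) ^ 2 / 1 = (x - y) ^ 2 := by ring
  rw [e] at hk
  nlinarith

lemma G0_nonneg {r : ℝ} (h0 : 0 ≤ r) (h1 : r ≤ 1) : 0 ≤ G0 r := by
  unfold G0
  have : 0 ≤ 1 - r := by linarith
  positivity

lemma G3_nonneg {r : ℝ} (h0 : 0 ≤ r) (h1 : r ≤ 1) : 0 ≤ G3 r :=
  (G0_nonneg h0 h1).trans (le_max_left _ _)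

lemma Gs_TPI_aux {x y : ℝ} (hy : 0 ≤ y) (hxy : y ≤ x) (hr : (x + y) / 2 < 1 / 30) :
    2 * Gs ((x + y) / 2) ≤ Nstar (Gs x) (x - y) + Gs y := by
  have hx0 : 0 ≤ x := hy.trans hxy
  have hx : x ≤ 1 / 15 := by linarith
  set s := x - y with hs
  have hs0 : 0 ≤ s := by rw [hs]; linarith
  have hsx : s ≤ 1 / 15 := by rw [hs]; linarith
  have hA0 : 0 ≤ Gs x := by unfold Gs; nlinarith
  have hA1 : Gs x ≤ 1 / 8 := by unfold Gs; nlinarith
  have hdiff : Gs x + Gs y - 2 * Gs ((x + y) / 2) = -(4 * s ^ 2) := by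
    unfold Gs; rw [hs]; ring
  unfold Nstar
  split_ifs with h
  · rcases hA0.eq_or_lt with h0 | hApos
    · have hs00 : s = 0 := le_antisymm (by rw [← h0] at h; exact h) hs0
      have hq : 0 ≤ s ^ 2 / (2 * Gs x) := by positivity
      rw [hs00] at hdiff
      simp only [ne_eq, OfNat.ofNat_ne_zero, not_false_eq_true, zero_pow, mul_zero, neg_zero]
        at hdiff
      linarith
    · have : 4 * s ^ 2 ≤ s ^ 2 / (2 * Gs x) := by
        rw [le_div_iff₀ (by positivity)]
        have : 0 ≤ s ^ 2 := sq_nonneg s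
        nlinarith
      linarith
  · rw [not_le] at h
    have : 4 * s ^ 2 ≤ s - Gs x / 2 := by nlinarith
    linarith

lemma Gs_le_G0 {r : ℝ} (h : 1 / 30 ≤ r) : Gs r ≤ G0 r := by
  unfold Gs G0
  nlinarith

lemma G3_TPI : TPI G3 := by
  intro x y hy hxy hx
  have hx0 : 0 ≤ x := hy.trans hxy
  have hs0 : 0 ≤ x - y := by linarith
  have h0 : 2 * G0 ((x + y) / 2) ≤ Nstar (G3 x) (x - y) + G3 y := by
    have a := G0_TPI_aux hy hxy hx
    have b := Nstar_mono (G0_nonneg hx0 hx) hs0 (le_max_left (G0 x) (Gs x)) (le_refl (x - y))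
    have c : G0 y ≤ G3 y := le_max_left _ _
    unfold G3 at *
    linarith
  have hmax : G3 ((x + y) / 2) = G0 ((x + y) / 2) ∨
      ((x + y) / 2 < 1 / 30 ∧ G3 ((x + y) / 2) = Gs ((x + y) / 2)) := by
    rcases le_or_gt (1 / 30) ((x + y) / 2) with h | h
    · left; exact max_eq_left (Gs_le_G0 h)
    · rcases le_total (Gs ((x + y) / 2)) (G0 ((x + y) / 2)) with h' | h'
      · left; exact max_eq_left h'
      · right; exact ⟨h, max_eq_right h'⟩
  rcases hmax with e | ⟨hr, e⟩
  · rw [e]; exact h0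
  · rw [e]
    have a := Gs_TPI_aux hy hxy hr
    have hGs0 : 0 ≤ Gs x := by
      unfold Gs
      have : x ≤ 1 / 15 := by linarith
      nlinarith
    have b := Nstar_mono hGs0 hs0 (le_max_right (G0 x) (Gs x)) (le_refl (x - y))
    have c : Gs y ≤ G3 y := le_max_right _ _
    unfold G3 at *
    linarith

lemma G3_ge {r : ℝ} (h0 : 0 ≤ r) (h1 : r ≤ 1 / 80) : 21 / 10 * r ≤ G3 r := by
  refine le_trans ?_ (le_max_right _ _)
  unfold Gs
  nlinarith

lemma G3_le {r : ℝ} (h0 : 0 ≤ r) (h1 : r ≤ 1) : G3 r ≤ 11 / 5 * (1 - r) := by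
  unfold G3
  refine max_le ?_ ?_
  · unfold G0; nlinarith
  · unfold Gs
    rcases le_or_gt r (1 / 2) with h | h
    · nlinarith
    · nlinarith

lemma G3_zero : G3 0 = 0 := by
  simp [G3, G0, Gs]

end Vale.Agent.Lib.P322
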