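import Vale.Agent.Lib.P322.TheoremA

/-!
# From the entropy functional to the mutual information
-/

namespace Vale.Agent.Lib.P322

open Finset Real

variable {n : ℕ}

/-- Indicator of `f = true`. -/
noncomputable def indTrue (f : Cube n → Bool) (x : Cube n) : ℝ := if f x = true then 1 else 0

lemma indTrue_cases (f : Cube n → Bool) (x : Cube n) : indTrue f x = 0 ∨ indTrue f x = 1 := by
  unfold indTrue; split_ifs <;> simp

lemma probTrue_eq (f : Cube n → Bool) : probTrue f = avg (indTrue f) := rfl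

lemma jointPr_true (f : Cube n → Bool) (ε : ℝ) (y : Cube n) :
    jointPr f ε true y = (1 / 2 ^ n : ℝ) * noiseOp ε (indTrue f) y := by
  unfold jointPr noiseOp indTrue
  rw [mul_sum]
  refine sum_congr rfl (fun x _ => ?_)
  split_ifs <;> ring

lemma jointPr_false (f : Cube n → Bool) (ε : ℝ) (y : Cube n) :
    jointPr f ε false y = (1 / 2 ^ n : ℝ) * (1 - noiseOp ε (indTrue f) y) := by
  rw [← noiseOp_one_sub]
  unfold jointPr noiseOp indTrue
  rw [mul_sum]
  refine sum_congr rfl (fun x _ => ?_)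
  cases h : f x <;> simp [h]

lemma log_div_aux {x a : ℝ} (h : x ≠ 0 → a ≠ 0) : x * log (x / a) = x * log x - x * log a := by
  by_cases hx : x = 0
  · simp [hx]
  · rw [Real.log_div hx (h hx)]; ring

/-- Average of a nonnegative function vanishing. -/
lemma eq_zero_of_avg_eq_zero {u : Cube n → ℝ} (h : ∀ y, 0 ≤ u y) (ha : avg u = 0) (y : Cube n) :
    u y = 0 := by
  unfold avg at ha
  have hp : (2 : ℝ) ^ n ≠ 0 := by positivity
  rw [div_eq_zero_iff] at ha
  rcases ha with ha | ha
  · exact (sum_eq_zero_iff_of_nonneg (fun y _ => h y)).1 ha y (mem_univ y)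
  · exact absurd ha hp

/-- The mutual information formula. -/
theorem mutualInfo_eq (f : Cube n → Bool) {ε : ℝ} (h0 : 0 ≤ ε) (h1 : ε ≤ 1) :
    mutualInfoBits f ε * log 2 = binEntropy (probTrue f) - Hent (indTrue f) ε := by
  set u := noiseOp ε (indTrue f) with hu
  set a := probTrue f with ha
  have hu0 : ∀ y, 0 ≤ u y := fun y =>
    sum_nonneg (fun x _ => mul_nonneg (by unfold indTrue; split_ifs <;> norm_num)
      (noisePr_nonneg h0 h1 x y))
  have hu1 : ∀ y, 0 ≤ 1 - u y := fun y => by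
    rw [hu, ← noiseOp_one_sub]
    refine sum_nonneg (fun x _ => mul_nonneg ?_ (noisePr_nonneg h0 h1 x y))
    beta_reduce
    unfold indTrue; split_ifs <;> norm_num
  have havg : avg u = a := by
    rw [hu, avg_noiseOp, ha, probTrue_eq]
  have havg' : avg (fun y => 1 - u y) = 1 - a := by
    rw [avg_sub, avg_const, havg]
  have hp : (2 : ℝ) ^ n ≠ 0 := by positivity
  have hlog2 : log 2 ≠ 0 := by
    have := Real.log_pos (show (1:ℝ) < 2 by norm_num)
    exact this.ne'
  -- marginals
  have m1 : ∑ y', jointPr f ε true y' = a := by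
    simp_rw [jointPr_true, ← hu, ← mul_sum]
    rw [← havg]; unfold avg; field_simp
  have m2 : ∑ y', jointPr f ε false y' = 1 - a := by
    simp_rw [jointPr_false, ← hu, ← mul_sum]
    rw [← havg']; unfold avg; field_simp
  have m3 : ∀ y, ∑ b', jointPr f ε b' y = (1 / 2 ^ n : ℝ) := by
    intro y
    rw [Fintype.sum_bool, jointPr_true, jointPr_false, ← hu]
    ring
  -- the ratio
  have r1 : ∀ y, jointPr f ε true y / (a * (1 / 2 ^ n : ℝ)) = u y / a := by
    intro y
    rw [jointPr_true, ← hu]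
    by_cases ha0 : a = 0
    · simp [ha0]
    · field_simp
  have r2 : ∀ y, jointPr f ε false y / ((1 - a) * (1 / 2 ^ n : ℝ)) = (1 - u y) / (1 - a) := by
    intro y
    rw [jointPr_false, ← hu]
    by_cases ha0 : 1 - a = 0
    · simp [ha0]
    · field_simp
  -- nonvanishing implications
  have n1 : ∀ y, u y ≠ 0 → a ≠ 0 := by
    intro y hy ha0
    exact hy (eq_zero_of_avg_eq_zero hu0 (havg.trans ha0) y)
  have n2 : ∀ y, 1 - u y ≠ 0 → 1 - a ≠ 0 := by
    intro y hy ha0
    exact hy (eq_zero_of_avg_eq_zero hu1 (havg'.trans ha0) y)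
  unfold mutualInfoBits
  rw [Fintype.sum_bool, m1, m2]
  simp_rw [m3, r1, r2, jointPr_true, jointPr_false, ← hu]
  rw [add_mul, sum_mul, sum_mul]
  have t1 : ∀ y, (1 / 2 ^ n : ℝ) * u y * Real.logb 2 (u y / a) * log 2 =
      (1 / 2 ^ n : ℝ) * (u y * log (u y) - u y * log a) := by
    intro y
    rw [Real.logb, ← log_div_aux (n1 y)]
    field_simp
  have t2 : ∀ y, (1 / 2 ^ n : ℝ) * (1 - u y) * Real.logb 2 ((1 - u y) / (1 - a)) * log 2 =
      (1 / 2 ^ n : ℝ) * ((1 - u y) * log (1 - u y) - (1 - u y) * log (1 - a)) := by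
    intro y
    rw [Real.logb, ← log_div_aux (n2 y)]
    field_simp
  simp_rw [t1, t2]
  rw [← sum_add_distrib]
  have e : ∀ y, (1 / 2 ^ n : ℝ) * (u y * log (u y) - u y * log a) +
      (1 / 2 ^ n : ℝ) * ((1 - u y) * log (1 - u y) - (1 - u y) * log (1 - a)) =
      (1 / 2 ^ n : ℝ) * (-binEntropy (u y) - u y * log a - (1 - u y) * log (1 - a)) := by
    intro y
    simp only [binEntropy, Real.log_inv]
    ring
  simp_rw [e]
  rw [← mul_sum, sum_sub_distrib, sum_sub_distrib]
  have s1 : ∑ y, u y * log a = a * log a * 2 ^ n := by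
    rw [← sum_mul, ← havg]; unfold avg; field_simp
  have s2 : ∑ y, (1 - u y) * log (1 - a) = (1 - a) * log (1 - a) * 2 ^ n := by
    rw [← sum_mul, ← havg']; unfold avg; field_simp
  have s3 : ∑ y, -binEntropy (u y) = -(Hent (indTrue f) ε * 2 ^ n) := by
    unfold Hent avg
    rw [← hu, sum_neg_distrib]
    field_simp
  rw [s1, s2, s3]
  simp only [binEntropy, Real.log_inv]
  field_simp
  ring

/-- `h2` is `binEntropy` in the other base. -/
lemma h2_eq (p : ℝ) : h2 p = binEntropy p / log 2 := by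
  unfold h2 binEntropy
  simp only [Real.logb, Real.log_inv]
  ring

end Vale.Agent.Lib.P322
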