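import Vale.Agent.Lib.P322.Bridge

/-!
# The Dirichlet form of the entropy flow, the cube induction and the barrier

For `g` on the cube with values in `(-1,1)` put `E(g) = (1/4) ∑_j avg J(g, g^j)` with
`J(s,t) = (A s - A t)(s - t)`, `A` the inverse hyperbolic tangent.

* `ckE_induction`: a two point inequality plus a leaf condition gives `F(Eg, E h(g)) ≤ E(g)`
  on every cube.
* `balanced_ck_of_dirichlet`: the sharp bound of `E(g)` at mean zero gives the Courtade-Kumar
  inequality for balanced Boolean functions at every noise level.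
-/

namespace Vale.Agent.Lib.P322

open Finset Real

variable {n : ℕ}

/-- The inverse hyperbolic tangent written with logarithms. -/
noncomputable def ckA (s : ℝ) : ℝ := (1 / 2) * log ((1 + s) / (1 - s))

/-- The entropy in nats of a sign of mean `s`. -/
noncomputable def ckh (s : ℝ) : ℝ := binEntropy ((1 + s) / 2)

/-- The edge cost. -/
noncomputable def ckJ (s t : ℝ) : ℝ := (ckA s - ckA t) * (s - t)

/-- The Dirichlet form of the entropy flow. -/
noncomputable def ckE (g : Cube n → ℝ) : ℝ :=
  (1 / 4) * ∑ j, avg (fun y => ckJ (g y) (g (flip j y)))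

lemma ckJ_comm (s t : ℝ) : ckJ s t = ckJ t s := by
  unfold ckJ; ring

lemma ckA_two_mul_sub_one {p : ℝ} (h0 : 0 < p) (h1 : p < 1) :
    ckA (2 * p - 1) = -(1 / 2) * logitN p := by
  unfold ckA logitN
  have e : (1 + (2 * p - 1)) / (1 - (2 * p - 1)) = p / (1 - p) := by
    have : 0 < 1 - p := by linarith
    have h2 : (1 - (2 * p - 1)) = 2 * (1 - p) := by ring
    rw [h2]
    field_simp
    ring
  rw [e, Real.log_div h0.ne' (by linarith)]
  ring

lemma ckJ_logit {p q : ℝ} (hp0 : 0 < p) (hp1 : p < 1) (hq0 : 0 < q) (hq1 : q < 1) :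
    ckJ (2 * p - 1) (2 * q - 1) = logitN p * (q - p) + logitN q * (p - q) := by
  unfold ckJ
  rw [ckA_two_mul_sub_one hp0 hp1, ckA_two_mul_sub_one hq0 hq1]
  ring

/-- The flow derivative in terms of the Dirichlet form. -/
lemma avg_logit_eq_ckE (u : Cube n → ℝ) (h0 : ∀ y, 0 < u y) (h1 : ∀ y, u y < 1) :
    avg (fun y => logitN (u y) * ∑ j, (u (flip j y) - u y)) =
      2 * ckE (fun y => 2 * u y - 1) := by
  have key : ∀ j : Fin n, avg (fun y => logitN (u y) * (u (flip j y) - u y)) =
      (1 / 2) * avg (fun y => ckJ (2 * u y - 1) (2 * u (flip j y) - 1)) := by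
    intro j
    have e1 : avg (fun y => ckJ (2 * u y - 1) (2 * u (flip j y) - 1)) =
        avg (fun y => logitN (u y) * (u (flip j y) - u y)) +
          avg (fun y => logitN (u (flip j y)) * (u y - u (flip j y))) := by
      rw [← avg_add]
      congr 1
      funext y
      exact ckJ_logit (h0 y) (h1 y) (h0 _) (h1 _)
    have e2 : avg (fun y => logitN (u (flip j y)) * (u y - u (flip j y))) =
        avg (fun y => logitN (u y) * (u (flip j y) - u y)) := by
      have := avg_flip j (fun y => logitN (u y) * (u (flip j y) - u y))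
      simp only [flip_flip] at this
      exact this
    rw [e1, e2]
    ring
  have e3 : avg (fun y => logitN (u y) * ∑ j, (u (flip j y) - u y)) =
      ∑ j, avg (fun y => logitN (u y) * (u (flip j y) - u y)) := by
    unfold avg
    rw [← sum_div]
    congr 1
    simp only [mul_sum]
    rw [sum_comm]
  rw [e3]
  simp only [key]
  unfold ckE
  rw [← mul_sum]
  ring

/-! ### The cube induction -/

lemma ckE_zero (g : Cube 0 → ℝ) : ckE g = 0 := by
  simp [ckE]

lemma avg_cube_zero (g : Cube 0 → ℝ) : avg g = g default := by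
  unfold avg
  simp only [Fintype.sum_unique, pow_zero, div_one]
  exact congrArg g (Subsingleton.elim _ _)

lemma ckE_succ (g : Cube (n + 1) → ℝ) :
    ckE g = (1 / 2) * ckE (restr true g) + (1 / 2) * ckE (restr false g) +
      (1 / 4) * avg (fun y => ckJ (restr true g y) (restr false g y)) := by
  unfold ckE
  rw [Fin.sum_univ_succ]
  have h0 : avg (fun y => ckJ (g y) (g (flip 0 y))) =
      avg (fun y => ckJ (restr true g y) (restr false g y)) := by
    rw [avg_succ]
    have e1 : restr true (fun y => ckJ (g y) (g (flip 0 y))) =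
        fun y => ckJ (restr true g y) (restr false g y) := by
      funext y
      simp [restr, flip_cons_zero]
    have e2 : restr false (fun y => ckJ (g y) (g (flip 0 y))) =
        fun y => ckJ (restr true g y) (restr false g y) := by
      funext y
      simp [restr, flip_cons_zero, ckJ_comm]
    rw [e1, e2]
    ring
  have hs : ∀ i : Fin n, avg (fun y => ckJ (g y) (g (flip i.succ y))) =
      (avg (fun y => ckJ (restr true g y) (restr true g (flip i y))) +
        avg (fun y => ckJ (restr false g y) (restr false g (flip i y)))) / 2 := by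
    intro i
    rw [avg_succ]
    have e1 : ∀ b, restr b (fun y => ckJ (g y) (g (flip i.succ y))) =
        fun y => ckJ (restr b g y) (restr b g (flip i y)) := by
      intro b
      funext y
      simp [restr, flip_cons_succ]
    rw [e1, e1]
  rw [h0]
  simp only [hs]
  rw [← sum_div, sum_add_distrib]
  ring

/-- The cube induction: a leaf condition and a two point inequality propagate to all cubes. -/
theorem ckE_induction {I : Set ℝ} {F : ℝ → ℝ → ℝ}
    (leaf : ∀ a ∈ I, F a (ckh a) ≤ 0)
    (step : ∀ (m : ℕ) (p q : Cube m → ℝ), (∀ y, p y ∈ I) → (∀ y, q y ∈ I) →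
      F ((avg p + avg q) / 2)
          ((avg (fun y => ckh (p y)) + avg (fun y => ckh (q y))) / 2) ≤
        (1 / 2) * F (avg p) (avg (fun y => ckh (p y))) +
          (1 / 2) * F (avg q) (avg (fun y => ckh (q y))) +
          (1 / 4) * avg (fun y => ckJ (p y) (q y))) :
    ∀ (n : ℕ) (g : Cube n → ℝ), (∀ y, g y ∈ I) →
      F (avg g) (avg (fun y => ckh (g y))) ≤ ckE g := by
  intro n
  induction n with
  | zero =>
      intro g hg
      rw [ckE_zero, avg_cube_zero, avg_cube_zero]
      exact leaf _ (hg _)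
  | succ m ih =>
      intro g hg
      have hp : ∀ y, restr true g y ∈ I := fun y => hg _
      have hq : ∀ y, restr false g y ∈ I := fun y => hg _
      have h1 := ih _ hp
      have h2 := ih _ hq
      have h3 := step m _ _ hp hq
      have e1 : avg g = (avg (restr true g) + avg (restr false g)) / 2 := avg_succ g
      have e2 : avg (fun y => ckh (g y)) =
          (avg (fun y => ckh (restr true g y)) + avg (fun y => ckh (restr false g y))) / 2 := by
        rw [avg_succ]
        rfl
      rw [e1, e2, ckE_succ]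
      linarith

/-! ### The barrier -/

/-- A function vanishing (or nonnegative) at the left end, whose derivative is nonnegative wherever
the function is negative, stays nonnegative. -/
lemma nonneg_of_deriv_nonneg_on_neg {D D' : ℝ → ℝ} {b : ℝ}
    (hc : ContinuousOn D (Set.Icc 0 b)) (h0 : 0 ≤ D 0)
    (hd : ∀ x ∈ Set.Ioo 0 b, HasDerivAt D (D' x) x)
    (hpos : ∀ x ∈ Set.Ioo 0 b, D x < 0 → 0 ≤ D' x) :
    ∀ x ∈ Set.Icc 0 b, 0 ≤ D x := by
  intro x₁ hx₁
  by_contra hneg
  rw [not_le] at hneg
  have hx₁0 : 0 < x₁ := by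
    rcases lt_or_eq_of_le hx₁.1 with h | h
    · exact h
    · rw [← h] at hneg; linarith
  let S : Set ℝ := Set.Icc 0 x₁ ∩ {x | 0 ≤ D x}
  have hsub : Set.Icc 0 x₁ ⊆ Set.Icc 0 b := Set.Icc_subset_Icc_right hx₁.2
  have hS : IsClosed S := by
    have hc' : ContinuousOn D (Set.Icc 0 x₁) := hc.mono hsub
    have := hc'.preimage_isClosed_of_isClosed (isClosed_Icc) (isClosed_Ici (a := (0:ℝ)))
    have e : S = Set.Icc 0 x₁ ∩ D ⁻¹' (Set.Ici 0) := rfl
    rw [e]
    exact this
  have hSne : S.Nonempty := ⟨0, ⟨le_refl _, hx₁0.le⟩, h0⟩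
  have hSb : BddAbove S := ⟨x₁, fun x hx => hx.1.2⟩
  set x₀ := sSup S with hx₀
  have hx₀S : x₀ ∈ S := hS.csSup_mem hSne hSb
  have hlt : x₀ < x₁ := by
    rcases lt_or_eq_of_le hx₀S.1.2 with h | h
    · exact h
    · have h3 : (0:ℝ) ≤ D x₀ := hx₀S.2
      rw [h] at h3
      linarith
  have hcont : ContinuousOn D (Set.Icc x₀ x₁) :=
    hc.mono (fun x hx => ⟨hx₀S.1.1.trans hx.1, hx.2.trans hx₁.2⟩)
  obtain ⟨c, hc1, hc2⟩ := exists_hasDerivAt_eq_slope D D' hlt hcont (fun x hx =>
    hd x ⟨lt_of_le_of_lt hx₀S.1.1 hx.1, lt_of_lt_of_le hx.2 hx₁.2⟩)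
  have hcneg : D c < 0 := by
    by_contra hcon
    rw [not_lt] at hcon
    have hm : c ∈ S := ⟨⟨hx₀S.1.1.trans hc1.1.le, hc1.2.le⟩, hcon⟩
    have := le_csSup hSb hm
    rw [← hx₀] at this
    linarith [hc1.1]
  have hD' := hpos c ⟨lt_of_le_of_lt hx₀S.1.1 hc1.1, lt_of_lt_of_le hc1.2 hx₁.2⟩ hcneg
  rw [hc2] at hD'
  have h5 : 0 < x₁ - x₀ := by linarith
  have h6 : 0 ≤ D x₁ - D x₀ := by
    by_contra hcon
    rw [not_le] at hcon
    have := div_neg_of_neg_of_pos hcon h5
    linarith
  have h7 : 0 ≤ D x₀ := hx₀S.2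
  linarith

lemma ckh_one_sub_two_mul (ε : ℝ) : ckh (1 - 2 * ε) = binEntropy ε := by
  unfold ckh
  have e : (1 + (1 - 2 * ε)) / 2 = 1 - ε := by ring
  rw [e, binEntropy_one_sub]

lemma ckA_one_sub_two_mul {ε : ℝ} (h0 : 0 < ε) (h1 : ε < 1) :
    ckA (1 - 2 * ε) = (1 / 2) * (log (1 - ε) - log ε) := by
  unfold ckA
  have e : (1 + (1 - 2 * ε)) / (1 - (1 - 2 * ε)) = (1 - ε) / ε := by
    have : (1 + (1 - 2 * ε)) = 2 * (1 - ε) := by ring
    have h2 : (1 - (1 - 2 * ε)) = 2 * ε := by ring
    rw [this, h2]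
    field_simp
  rw [e, Real.log_div (by linarith) h0.ne']

lemma exists_true_false {f : Cube n → Bool} (hf : probTrue f = 1 / 2) :
    (∃ x, f x = true) ∧ (∃ x, f x = false) := by
  have hp : (2 : ℝ) ^ n ≠ 0 := by positivity
  constructor
  · by_contra hcon
    push Not at hcon
    have : probTrue f = 0 := by
      unfold probTrue
      rw [sum_eq_zero, zero_div]
      intro x _
      simp [hcon x]
    rw [this] at hf
    norm_num at hf
  · by_contra hcon
    push Not at hcon
    have : probTrue f = 1 := by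
      unfold probTrue
      have e : ∀ x, (if f x = true then (1:ℝ) else 0) = 1 := by
        intro x
        have := hcon x
        simp only [ne_eq, Bool.not_eq_false] at this
        simp [this]
      simp only [e]
      simp [Finset.card_univ, Fintype.card_pi]
    rw [this] at hf
    norm_num at hf

/-- The sharp Dirichlet bound at mean zero gives the Courtade-Kumar inequality for balanced
Boolean functions, at every noise level. -/
theorem balanced_ck_of_dirichlet
    (H : ∀ (n : ℕ) (g : Cube n → ℝ), (∀ y, -1 < g y ∧ g y < 1) → avg g = 0 →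
      ∀ τ, 0 < τ → τ < 1 → avg (fun y => ckh (g y)) ≤ ckh τ → τ * ckA τ ≤ ckE g)
    {n : ℕ} (f : Cube n → Bool) (hf : probTrue f = 1 / 2) {ε : ℝ} (h0 : 0 ≤ ε) (h1 : ε ≤ 1 / 2) :
    mutualInfoBits f ε ≤ 1 - h2 ε := by
  have hg := indTrue_cases f
  obtain ⟨⟨x₁, hx₁⟩, ⟨x₀, hx₀⟩⟩ := exists_true_false hf
  have hg0 : indTrue f x₀ = 0 := by simp [indTrue, hx₀]
  have hg1 : indTrue f x₁ = 1 := by simp [indTrue, hx₁]
  set g₀ := indTrue f with hg₀
  have hbds : ∀ e, 0 < e → e < 1 / 2 → ∀ y, 0 < noiseOp e g₀ y ∧ noiseOp e g₀ y < 1 :=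
    fun e h2 h3 y => noiseOp_bounds hg hg0 hg1 h2 (by linarith) y
  -- the function `D`
  let D : ℝ → ℝ := fun e => Hent g₀ e - binEntropy e
  let D' : ℝ → ℝ := fun e =>
    avg (fun y => logitN (noiseOp e g₀ y) *
        ((∑ j, (noiseOp e g₀ (flip j y) - noiseOp e g₀ y)) / (1 - 2 * e))) -
      (log (1 - e) - log e)
  have hcD : Continuous D := (continuous_Hent g₀).sub binEntropy_continuous
  have hD0 : 0 ≤ D 0 := by
    simp only [D]
    rw [Hent_zero hg, binEntropy_zero]
    simp
  have hd : ∀ e ∈ Set.Ioo (0:ℝ) (1 / 2), HasDerivAt D (D' e) e := by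
    intro e he
    have hρ : 1 - 2 * e ≠ 0 := by linarith [he.2]
    have h3 := hasDerivAt_Hent hρ g₀ (fun y => (hbds e he.1 he.2 y).1)
      (fun y => (hbds e he.1 he.2 y).2)
    have h4 : HasDerivAt binEntropy (log (1 - e) - log e) e :=
      hasDerivAt_binEntropy he.1.ne' (by linarith [he.2])
    exact h3.sub h4
  have hpos : ∀ e ∈ Set.Ioo (0:ℝ) (1 / 2), D e < 0 → 0 ≤ D' e := by
    intro e he hneg
    have he1 : e < 1 := by linarith [he.2]
    have hτ0 : 0 < 1 - 2 * e := by linarith [he.2]
    have hτ1 : 1 - 2 * e < 1 := by linarith [he.1]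
    set u := noiseOp e g₀ with hu
    set s : Cube n → ℝ := fun y => 2 * u y - 1 with hs
    have hs1 : ∀ y, -1 < s y ∧ s y < 1 := by
      intro y
      have := hbds e he.1 he.2 y
      constructor
      · simp only [hs]; linarith [this.1]
      · simp only [hs]; linarith [this.2]
    have hs0 : avg s = 0 := by
      have e1 : avg s = 2 * avg u - 1 := by
        have := avg_sub (fun y => 2 * u y) (fun _ => (1:ℝ))
        simp only [hs]
        rw [this, avg_const_mul, avg_const]
      rw [e1, hu, avg_noiseOp, ← probTrue_eq, hf]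
      norm_num
    have hs2 : avg (fun y => ckh (s y)) = Hent g₀ e := by
      unfold Hent
      congr 1
      funext y
      unfold ckh
      simp only [hs]
      congr 1
      ring
    have hle : avg (fun y => ckh (s y)) ≤ ckh (1 - 2 * e) := by
      rw [hs2, ckh_one_sub_two_mul]
      simp only [D] at hneg
      linarith
    have hE := H n s hs1 hs0 (1 - 2 * e) hτ0 hτ1 hle
    have hderiv : avg (fun y => logitN (u y) *
        ((∑ j, (u (flip j y) - u y)) / (1 - 2 * e))) =
        2 * ckE s / (1 - 2 * e) := by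
      have e2 := avg_logit_eq_ckE u (fun y => (hbds e he.1 he.2 y).1)
        (fun y => (hbds e he.1 he.2 y).2)
      rw [← e2, ← mul_one_div, mul_comm (avg _), ← avg_const_mul]
      congr 1
      funext y
      field_simp
    simp only [D']
    rw [hderiv]
    rw [ckA_one_sub_two_mul he.1 he1] at hE
    have h5 : (1 - 2 * e) * ((1 / 2) * (log (1 - e) - log e)) ≤ ckE s := hE
    have h6 : log (1 - e) - log e ≤ 2 * ckE s / (1 - 2 * e) := by
      rw [le_div_iff₀ hτ0]
      nlinarith
    linarith
  have hall := nonneg_of_deriv_nonneg_on_neg hcD.continuousOn hD0 hd hpos ε ⟨h0, h1⟩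
  simp only [D] at hall
  have hmi := mutualInfo_eq f h0 (by linarith)
  have hlog2 : 0 < log 2 := Real.log_pos (by norm_num)
  rw [hf, one_div, binEntropy_two_inv] at hmi
  have hI : mutualInfoBits f ε = (log 2 - Hent g₀ ε) / log 2 := by
    rw [← hmi]
    field_simp
  rw [hI, h2_eq]
  have e : 1 - binEntropy ε / log 2 = (log 2 - binEntropy ε) / log 2 := by
    field_simp
  rw [e]
  apply div_le_div_of_nonneg_right _ hlog2.le
  linarith

end Vale.Agent.Lib.P322
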