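import Mathlib

/-!
# The nested norm `Nstar` and its recursive version `nest`

Pure real analysis: no cube in this file.
-/

namespace Vale.Agent.Lib.P322

open Real

/-- The two-variable nested norm. -/
noncomputable def Nstar (A B : ℝ) : ℝ :=
  if B ≤ A then A + B ^ 2 / (2 * A) else B + A / 2

/-- Lower bound by linear functionals: for `r ∈ [0,1]`. -/
lemma Nstar_ge_linear {A B r : ℝ} (hA : 0 ≤ A) (hB : 0 ≤ B) (hr0 : 0 ≤ r) (hr1 : r ≤ 1) :
    (1 - r ^ 2 / 2) * A + r * B ≤ Nstar A B := by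
  unfold Nstar
  split_ifs with h
  · rcases hA.eq_or_lt with rfl | hApos
    · have : B = 0 := le_antisymm h hB
      subst this; simp
    · have h2 : 0 < 2 * A := by positivity
      have key : A + B ^ 2 / (2 * A) - ((1 - r ^ 2 / 2) * A + r * B) = (B - r * A) ^ 2 / (2 * A) := by
        field_simp; ring
      have : 0 ≤ (B - r * A) ^ 2 / (2 * A) := by positivity
      linarith
  · rw [not_le] at h
    have key : B + A / 2 - ((1 - r ^ 2 / 2) * A + r * B) = (1 - r) * (B - A * ((1 + r) / 2)) := by ring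
    have h1 : 0 ≤ 1 - r := by linarith
    have h3 : A * ((1 + r) / 2) ≤ A * 1 := by
      apply mul_le_mul_of_nonneg_left _ hA; linarith
    have h2 : 0 ≤ B - A * ((1 + r) / 2) := by linarith
    have := mul_nonneg h1 h2
    linarith

/-- The supremum is attained. -/
lemma Nstar_eq_linear {A B : ℝ} (hA : 0 ≤ A) (hB : 0 ≤ B) :
    ∃ r : ℝ, 0 ≤ r ∧ r ≤ 1 ∧ Nstar A B = (1 - r ^ 2 / 2) * A + r * B := by
  unfold Nstar
  split_ifs with h
  · rcases hA.eq_or_lt with rfl | hApos
    · have : B = 0 := le_antisymm h hB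
      subst this
      exact ⟨0, le_refl _, by norm_num, by simp⟩
    · refine ⟨B / A, by positivity, (div_le_one hApos).2 h, ?_⟩
      field_simp; ring
  · exact ⟨1, by norm_num, le_refl _, by ring⟩

lemma Nstar_nonneg {A B : ℝ} (hA : 0 ≤ A) (hB : 0 ≤ B) : 0 ≤ Nstar A B := by
  have := Nstar_ge_linear hA hB (le_refl 0) (by norm_num : (0:ℝ) ≤ 1)
  nlinarith

lemma Nstar_mono {A B A' B' : ℝ} (hA : 0 ≤ A) (hB : 0 ≤ B) (hAA : A ≤ A') (hBB : B ≤ B') :
    Nstar A B ≤ Nstar A' B' := by
  obtain ⟨r, h0, h1, e⟩ := Nstar_eq_linear hA hB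
  rw [e]
  have hr2 : r ^ 2 ≤ 1 := by nlinarith
  have h2 : (1 - r ^ 2 / 2) * A ≤ (1 - r ^ 2 / 2) * A' :=
    mul_le_mul_of_nonneg_left hAA (by linarith)
  have h3 : r * B ≤ r * B' := mul_le_mul_of_nonneg_left hBB h0
  have := Nstar_ge_linear (hA.trans hAA) (hB.trans hBB) h0 h1
  linarith

lemma Nstar_smul {c A B : ℝ} (hc : 0 < c) : Nstar (c * A) (c * B) = c * Nstar A B := by
  unfold Nstar
  have : c * B ≤ c * A ↔ B ≤ A := mul_le_mul_iff_right₀ hc
  by_cases h : B ≤ A
  · rw [if_pos h, if_pos (this.2 h)]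
    by_cases hA : A = 0
    · subst hA; simp
    · field_simp
  · rw [if_neg h, if_neg (fun h' => h (this.1 h'))]; ring

/-- Recursive nested norm of a vector. -/
noncomputable def nest : (n : ℕ) → (Fin n → ℝ) → ℝ
  | 0, _ => 0
  | n + 1, a => Nstar (nest n (fun i => a i.succ)) (a 0)

lemma nest_nonneg : ∀ (n : ℕ) (a : Fin n → ℝ), (∀ i, 0 ≤ a i) → 0 ≤ nest n a
  | 0, _, _ => le_refl _
  | n + 1, a, h => Nstar_nonneg (nest_nonneg n _ (fun i => h i.succ)) (h 0)

lemma nest_mono : ∀ (n : ℕ) (a b : Fin n → ℝ), (∀ i, 0 ≤ a i) → (∀ i, a i ≤ b i) →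
    nest n a ≤ nest n b
  | 0, _, _, _, _ => le_refl _
  | n + 1, a, b, h, hab =>
      Nstar_mono (nest_nonneg n _ (fun i => h i.succ)) (h 0)
        (nest_mono n _ _ (fun i => h i.succ) (fun i => hab i.succ)) (hab 0)

lemma nest_zero (n : ℕ) : nest n (fun _ => 0) = 0 := by
  induction n with
  | zero => rfl
  | succ n ih =>
      show Nstar (nest n (fun _ => 0)) 0 = 0
      rw [ih]; simp [Nstar]

lemma nest_smul {c : ℝ} (hc : 0 < c) : ∀ (n : ℕ) (a : Fin n → ℝ),
    nest n (fun i => c * a i) = c * nest n a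
  | 0, _ => by simp [nest]
  | n + 1, a => by
      show Nstar (nest n (fun i => c * a i.succ)) (c * a 0) = c * Nstar (nest n fun i => a i.succ) (a 0)
      rw [nest_smul hc n (fun i => a i.succ), Nstar_smul hc]

/-- The function `F(a,v) = a log(1+a/v)`. -/
noncomputable def Fent (a v : ℝ) : ℝ := a * log (1 + a / v)

lemma Fent_nonneg {a v : ℝ} (ha : 0 ≤ a) (hv : 0 < v) : 0 ≤ Fent a v := by
  unfold Fent
  have : 0 ≤ a / v := by positivity
  exact mul_nonneg ha (Real.log_nonneg (by linarith))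

/-- `φ₊(x) = max 0 (x log x - x)`. -/
noncomputable def phiP (x : ℝ) : ℝ := max 0 (x * log x - x)

lemma phiP_nonneg (x : ℝ) : 0 ≤ phiP x := le_max_left _ _

lemma phi_le_phiP (x : ℝ) : x * log x - x ≤ phiP x := le_max_right _ _

/-- Step inequality for `φ₊` in the case `β ≤ α`. -/
lemma phi_step_case1 {α β : ℝ} (hβ : 0 ≤ β) (hαβ : β ≤ α) :
    phiP (Nstar α β) ≤ phiP α + β * log (1 + β) := by
  have hα : 0 ≤ α := hβ.trans hαβ
  have hlog1 : 0 ≤ log (1 + β) := Real.log_nonneg (by linarith)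
  have hRHS : 0 ≤ phiP α + β * log (1 + β) := add_nonneg (phiP_nonneg _) (mul_nonneg hβ hlog1)
  rcases hα.eq_or_lt with h0 | hαpos
  · -- α = 0, so β = 0
    have hb : β = 0 := le_antisymm (by rw [← h0] at hαβ; exact hαβ) hβ
    subst hb
    rw [← h0]; simp [Nstar, phiP]
  have hN : Nstar α β = α + β ^ 2 / (2 * α) := by simp [Nstar, hαβ]
  set N := α + β ^ 2 / (2 * α) with hNdef
  rw [hN]
  show max 0 (N * log N - N) ≤ phiP α + β * log (1 + β)
  refine max_le hRHS ?_
  -- convexity of `x log x - x`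
  have hNpos : 0 < N := by positivity
  have hNα : α ≤ N := by
    have : 0 ≤ β ^ 2 / (2 * α) := by positivity
    linarith
  have hlogratio : log N - log α ≤ N / α - 1 := by
    have h := Real.log_le_sub_one_of_pos (div_pos hNpos hαpos)
    rwa [Real.log_div hNpos.ne' hαpos.ne'] at h
  have hconv : N * log N - N ≤ α * log α - α + (β ^ 2 / (2 * α)) * log N := by
    have hx : α * (log N - log α) ≤ α * (N / α - 1) := mul_le_mul_of_nonneg_left hlogratio hα
    have hy : α * (N / α - 1) = N - α := by field_simp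
    have hz : N - α = β ^ 2 / (2 * α) := by simp [hNdef]
    have : N * log N = α * log N + (β ^ 2 / (2 * α)) * log N := by
      rw [← hz]; ring
    nlinarith
  have hφ : α * log α - α ≤ phiP α := phi_le_phiP α
  -- main estimate
  suffices hmain : (β ^ 2 / (2 * α)) * log N ≤ β * log (1 + β) by linarith
  rcases hβ.eq_or_lt with h0 | hβpos
  · rw [← h0]; simp
  -- t = β / α ∈ (0,1]
  set t := β / α with htdef
  have ht0 : 0 < t := div_pos hβpos hαpos
  have ht1 : t ≤ 1 := (div_le_one hαpos).2 hαβ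
  have hβt : β = t * α := by simp [htdef]; field_simp
  -- log N ≤ 2 log (1 + α)
  have hlogN : log N ≤ 2 * log (1 + α) := by
    have h1 : N ≤ (1 + α) ^ 2 := by
      have : β ^ 2 / (2 * α) ≤ α / 2 := by
        rw [div_le_iff₀ (by positivity)]
        nlinarith
      nlinarith
    have h2 := Real.log_le_log hNpos h1
    rw [Real.log_pow] at h2
    simpa using h2
  -- t log (1+α) ≤ log (1 + t α)
  have hconc : t * log (1 + α) ≤ log (1 + t * α) := by
    have hc := strictConcaveOn_log_Ioi.concaveOn.2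
      (show (1 + α) ∈ Set.Ioi (0:ℝ) by simp; linarith) (show (1:ℝ) ∈ Set.Ioi (0:ℝ) by simp)
      ht0.le (by linarith : 0 ≤ 1 - t) (by ring)
    simp only [smul_eq_mul, Real.log_one, mul_zero, add_zero] at hc
    have e : t * (1 + α) + (1 - t) * 1 = 1 + t * α := by ring
    rwa [e] at hc
  have hcoef : β ^ 2 / (2 * α) = β * (t / 2) := by
    rw [htdef]; field_simp
  rw [hcoef, mul_assoc]
  apply mul_le_mul_of_nonneg_left _ hβpos.le
  rw [← hβt] at hconc
  nlinarith

/-- Step inequality for `φ₊` in the case `α < β`. -/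
lemma phi_step_case2 {α β : ℝ} (hα : 0 ≤ α) (hαβ : α < β) :
    phiP (Nstar α β) ≤ phiP α + β * log (1 + β) := by
  have hβ : 0 < β := lt_of_le_of_lt hα hαβ
  have hlog1 : 0 ≤ log (1 + β) := Real.log_nonneg (by linarith)
  have hRHS : 0 ≤ phiP α + β * log (1 + β) :=
    add_nonneg (phiP_nonneg _) (mul_nonneg hβ.le hlog1)
  have hN : Nstar α β = β + α / 2 := by simp [Nstar, not_le.2 hαβ]
  rw [hN]
  set N := β + α / 2 with hNdef
  show max 0 (N * log N - N) ≤ phiP α + β * log (1 + β)
  refine max_le hRHS ?_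
  have hNpos : 0 < N := by positivity
  have hlogβ : log β ≤ log (1 + β) := Real.log_le_log hβ (by linarith)
  have h1 : β * log β ≤ β * log (1 + β) := mul_le_mul_of_nonneg_left hlogβ hβ.le
  have hhalf : (α * log α - α) / 2 ≤ phiP α := by
    rcases le_total 0 (α * log α - α) with h | h
    · have : α * log α - α ≤ phiP α := phi_le_phiP α
      linarith
    · have : (0:ℝ) ≤ phiP α := phiP_nonneg α
      linarith
  suffices h : N * log N - N ≤ β * log β + (α * log α - α) / 2 by linarith
  rcases hα.eq_or_lt with h0 | hαpos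
  · rw [hNdef, ← h0]; simp
    linarith
  -- `log N ≤ log β + α / (2β)`
  have hlogN : log N ≤ log β + α / (2 * β) := by
    have h1 : N = β * (1 + α / (2 * β)) := by
      rw [hNdef]; field_simp
    have hpos : 0 < 1 + α / (2 * β) := by positivity
    rw [h1, Real.log_mul hβ.ne' hpos.ne']
    have := Real.log_le_sub_one_of_pos hpos
    linarith
  have hlogs : log β - log α ≤ β / α - 1 := by
    have h := Real.log_le_sub_one_of_pos (div_pos hβ hαpos)
    rwa [Real.log_div hβ.ne' hαpos.ne'] at h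
  have h2 : N * log N ≤ N * (log β + α / (2 * β)) := mul_le_mul_of_nonneg_left hlogN hNpos.le
  have h3 : N * (α / (2 * β)) = α / 2 + α ^ 2 / (4 * β) := by
    rw [hNdef]; field_simp; ring
  have h4 : (α / 2) * (log β - log α) ≤ (α / 2) * (β / α - 1) :=
    mul_le_mul_of_nonneg_left hlogs (by positivity)
  have h5 : (α / 2) * (β / α - 1) = β / 2 - α / 2 := by field_simp
  have h6 : α ^ 2 / (4 * β) ≤ α / 4 := by
    rw [div_le_iff₀ (by positivity)]
    nlinarith
  have h7 : N * log N = β * log β + (α / 2) * log β + N * (log N - log β) := by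
    rw [hNdef]; ring
  have h8 : N * (log N - log β) ≤ N * (α / (2 * β)) :=
    mul_le_mul_of_nonneg_left (by linarith) hNpos.le
  rw [hNdef] at *
  nlinarith

/-- Step inequality for `φ₊`. -/
lemma phi_step {α β : ℝ} (hα : 0 ≤ α) (hβ : 0 ≤ β) :
    phiP (Nstar α β) ≤ phiP α + β * log (1 + β) := by
  rcases le_or_gt β α with h | h
  · exact phi_step_case1 hβ h
  · exact phi_step_case2 hα h

/-- Young type bound for `φ₊`. -/
lemma young_phiP {x : ℝ} (hx : 0 ≤ x) (L : ℝ) : L * x - exp L ≤ phiP x := by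
  rcases hx.eq_or_lt with rfl | hxpos
  · have := Real.exp_pos L
    have h2 := phiP_nonneg 0
    linarith
  · refine le_trans ?_ (phi_le_phiP x)
    have h := Real.add_one_le_exp (L - log x)
    rw [Real.exp_sub, Real.exp_log hxpos] at h
    have h2 : exp L / x * x = exp L := by field_simp
    nlinarith [mul_le_mul_of_nonneg_right h hxpos.le]

/-- Domination of the sum of `F` by `φ₊` of the nested norm (normalized at `v`). -/
lemma phiP_nest_le {v : ℝ} (hv : 0 < v) : ∀ (n : ℕ) (a : Fin n → ℝ), (∀ i, 0 ≤ a i) →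
    v * phiP (nest n a / v) ≤ ∑ i, Fent (a i) v
  | 0, a, _ => by simp [nest, phiP]
  | n + 1, a, h => by
      have ih := phiP_nest_le hv n (fun i => a i.succ) (fun i => h i.succ)
      have h0 := nest_nonneg n (fun i => a i.succ) (fun i => h i.succ)
      rw [Fin.sum_univ_succ]
      have hsc : nest (n + 1) a / v =
          Nstar (nest n (fun i => a i.succ) / v) (a 0 / v) := by
        show Nstar (nest n (fun i => a i.succ)) (a 0) / v = _
        have := Nstar_smul (c := v⁻¹) (A := nest n (fun i => a i.succ)) (B := a 0)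
          (inv_pos.2 hv)
        simp only [div_eq_inv_mul] at *
        exact this.symm
      rw [hsc]
      have hstep := phi_step (α := nest n (fun i => a i.succ) / v) (β := a 0 / v)
        (div_nonneg h0 hv.le) (div_nonneg (h 0) hv.le)
      have h3 : v * phiP (Nstar (nest n (fun i => a i.succ) / v) (a 0 / v)) ≤
          v * (phiP (nest n (fun i => a i.succ) / v) + a 0 / v * log (1 + a 0 / v)) :=
        mul_le_mul_of_nonneg_left hstep hv.le
      have h4 : v * (a 0 / v * log (1 + a 0 / v)) = Fent (a 0) v := by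
        unfold Fent; field_simp
      nlinarith

/-- The main pointwise bound: for all real `L`. -/
lemma sum_Fent_ge (v : ℝ) (hv : 0 < v) (n : ℕ) (a : Fin n → ℝ) (ha : ∀ i, 0 ≤ a i) (L : ℝ) :
    L * nest n a - exp L * v ≤ ∑ i, Fent (a i) v := by
  have h1 := phiP_nest_le hv n a ha
  have h0 := nest_nonneg n a ha
  have h2 := young_phiP (x := nest n a / v) (div_nonneg h0 hv.le) L
  have h3 : v * (L * (nest n a / v) - exp L) ≤ v * phiP (nest n a / v) :=
    mul_le_mul_of_nonneg_left h2 hv.le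
  have h4 : v * (L * (nest n a / v) - exp L) = L * nest n a - exp L * v := by
    field_simp
  linarith

end Vale.Agent.Lib.P322
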