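import Vale.Agent.Lib.P322.Defs
import Vale.Agent.Lib.P322.Nest

/-!
# Flips, averages, restrictions on the cube
-/

namespace Vale.Agent.Lib.P322

open Finset

variable {n : ℕ}

/-- Flip the `j`-th coordinate. -/
def flip (j : Fin n) (y : Cube n) : Cube n := Function.update y j (!y j)

@[simp] lemma flip_same (j : Fin n) (y : Cube n) : flip j y j = !y j := by simp [flip]

lemma flip_ne {j i : Fin n} (h : i ≠ j) (y : Cube n) : flip j y i = y i := by
  simp [flip, Function.update_of_ne h]

@[simp] lemma flip_flip (j : Fin n) (y : Cube n) : flip j (flip j y) = y := by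
  funext i
  by_cases h : i = j
  · subst h; simp
  · rw [flip_ne h, flip_ne h]

/-- Flip as an involutive equivalence. -/
def flipEquiv (j : Fin n) : Cube n ≃ Cube n where
  toFun := flip j
  invFun := flip j
  left_inv := flip_flip j
  right_inv := flip_flip j

lemma sum_flip (j : Fin n) (g : Cube n → ℝ) : ∑ y, g (flip j y) = ∑ y, g y :=
  Equiv.sum_comp (flipEquiv j) g

/-- The average over the cube. -/
noncomputable def avg (g : Cube n → ℝ) : ℝ := (∑ y, g y) / 2 ^ n

lemma avg_add (g h : Cube n → ℝ) : avg (fun y => g y + h y) = avg g + avg h := by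
  simp [avg, sum_add_distrib, add_div]

lemma avg_sub (g h : Cube n → ℝ) : avg (fun y => g y - h y) = avg g - avg h := by
  simp [avg, sum_sub_distrib, sub_div]

lemma avg_const_mul (c : ℝ) (g : Cube n → ℝ) : avg (fun y => c * g y) = c * avg g := by
  simp [avg, ← mul_sum, mul_div_assoc]

lemma avg_const (c : ℝ) : avg (fun _ : Cube n => c) = c := by
  have h : (2 : ℝ) ^ n ≠ 0 := by positivity
  simp [avg, Finset.card_univ, Fintype.card_pi]

lemma avg_mono {g h : Cube n → ℝ} (H : ∀ y, g y ≤ h y) : avg g ≤ avg h := by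
  unfold avg
  apply div_le_div_of_nonneg_right (sum_le_sum (fun y _ => H y)) (by positivity)

lemma avg_nonneg {g : Cube n → ℝ} (H : ∀ y, 0 ≤ g y) : 0 ≤ avg g := by
  have := avg_mono (g := fun _ => 0) (h := g) H
  rwa [avg_const] at this

lemma avg_flip (j : Fin n) (g : Cube n → ℝ) : avg (fun y => g (flip j y)) = avg g := by
  unfold avg; rw [sum_flip]

/-- The variance. -/
noncomputable def var (w : Cube n → ℝ) : ℝ := avg (fun y => w y ^ 2) - avg w ^ 2

/-- The positive part of the discrete gradient. -/
noncomputable def gradP (w : Cube n → ℝ) (y : Cube n) (j : Fin n) : ℝ := max (w y - w (flip j y)) 0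

lemma gradP_nonneg (w : Cube n → ℝ) (y : Cube n) (j : Fin n) : 0 ≤ gradP w y j := le_max_right _ _

/-- Restriction of a function on `Cube (n+1)` along the first coordinate. -/
def restr (b : Bool) (w : Cube (n + 1) → ℝ) : Cube n → ℝ := fun y => w (Fin.cons b y)

lemma sum_cube_succ (g : Cube (n + 1) → ℝ) :
    ∑ y, g y = ∑ y, g (Fin.cons true y) + ∑ y, g (Fin.cons false y) := by
  have e := Equiv.sum_comp (Fin.consEquiv (fun _ => Bool) : Bool × Cube n ≃ Cube (n + 1)) g
  rw [← e, Fintype.sum_prod_type, Fintype.sum_bool]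
  rfl

lemma avg_succ (g : Cube (n + 1) → ℝ) :
    avg g = (avg (restr true g) + avg (restr false g)) / 2 := by
  unfold avg restr
  rw [sum_cube_succ, pow_succ]
  have h : (2 : ℝ) ^ n ≠ 0 := by positivity
  field_simp

lemma flip_cons_zero (b : Bool) (y : Cube n) :
    flip (0 : Fin (n + 1)) (Fin.cons b y : Cube (n + 1)) = Fin.cons (!b) y := by
  funext i
  refine Fin.cases ?_ (fun k => ?_) i
  · simp
  · rw [flip_ne (Fin.succ_ne_zero k)]; simp

lemma flip_cons_succ (j : Fin n) (b : Bool) (y : Cube n) :
    flip j.succ (Fin.cons b y : Cube (n + 1)) = Fin.cons b (flip j y) := by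
  funext i
  refine Fin.cases ?_ (fun k => ?_) i
  · rw [flip_ne (Fin.succ_ne_zero j).symm]; simp
  · by_cases h : k = j
    · subst h; simp
    · rw [flip_ne (fun h' => h (Fin.succ_injective _ h'))]
      simp [flip_ne h]

lemma gradP_cons_zero (w : Cube (n + 1) → ℝ) (b : Bool) (y : Cube n) :
    gradP w (Fin.cons b y) 0 = max (restr b w y - restr (!b) w y) 0 := by
  simp [gradP, flip_cons_zero, restr]

lemma gradP_cons_succ (w : Cube (n + 1) → ℝ) (b : Bool) (y : Cube n) (j : Fin n) :
    gradP w (Fin.cons b y) j.succ = gradP (restr b w) y j := by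
  simp [gradP, flip_cons_succ, restr]

lemma nest_gradP_cons (w : Cube (n + 1) → ℝ) (b : Bool) (y : Cube n) :
    nest (n + 1) (gradP w (Fin.cons b y)) =
      Nstar (nest n (gradP (restr b w) y)) (max (restr b w y - restr (!b) w y) 0) := by
  show Nstar (nest n (fun i => gradP w (Fin.cons b y) i.succ)) (gradP w (Fin.cons b y) 0) = _
  rw [gradP_cons_zero]
  congr 2
  funext i
  exact gradP_cons_succ w b y i

end Vale.Agent.Lib.P322
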