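import Mathlib

/-!
# Basic definitions for the Courtade-Kumar problem
-/

namespace Vale.Agent.Lib.P322

/-- The discrete cube `{false,true}^n`. -/
abbrev Cube (n : ℕ) := Fin n → Bool

/-- `noisePr ε x y` is the probability that `n` independent binary symmetric channels with
crossover probability `ε` map the input `x` to the output `y`. -/
noncomputable def noisePr {n : ℕ} (ε : ℝ) (x y : Cube n) : ℝ :=
  ∏ i, if x i = y i then 1 - ε else ε

/-- The joint law of `(f(X), Y)`, for `X` uniform on the cube and `Y` the channel output. -/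
noncomputable def jointPr {n : ℕ} (f : Cube n → Bool) (ε : ℝ) (b : Bool) (y : Cube n) : ℝ :=
  ∑ x, if f x = b then (1 / 2 ^ n : ℝ) * noisePr ε x y else 0

/-- The mutual information `I(f(X); Y)` in bits: the textbook sum over the joint law. -/
noncomputable def mutualInfoBits {n : ℕ} (f : Cube n → Bool) (ε : ℝ) : ℝ :=
  ∑ b, ∑ y, jointPr f ε b y *
    Real.logb 2 (jointPr f ε b y / ((∑ y', jointPr f ε b y') * (∑ b', jointPr f ε b' y)))

/-- The binary entropy function in bits. -/
noncomputable def h2 (p : ℝ) : ℝ := -p * Real.logb 2 p - (1 - p) * Real.logb 2 (1 - p)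

/-- The probability that `f(X)` is `true`, for `X` uniform on the cube. -/
noncomputable def probTrue {n : ℕ} (f : Cube n → Bool) : ℝ :=
  (∑ x, if f x = true then (1 : ℝ) else 0) / 2 ^ n

/-- The probability that `f(X)` differs from the `i`-th input bit `X i`, for `X` uniform. -/
noncomputable def disagreeCoord {n : ℕ} (f : Cube n → Bool) (i : Fin n) : ℝ :=
  (∑ x, if f x = x i then (0 : ℝ) else 1) / 2 ^ n

end Vale.Agent.Lib.P322
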