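import Vale.Agent.Lib.P322.Spectral

/-!
# Gradient bound for the noise semigroup, and the duality inequality
-/

namespace Vale.Agent.Lib.P322

open Finset Real

variable {n : ℕ}

/-- The logarithmic derivative of the channel kernel in one coordinate. -/
noncomputable def lam (s : ℝ) (a b : Bool) : ℝ :=
  if a = b then (1 - 2 * s) / (1 - s) else -(1 - 2 * s) / s

lemma noisePr_sub_flip {s : ℝ} (h0 : 0 < s) (h1 : s < 1) (x y : Cube n) (j : Fin n) :
    noisePr s x y - noisePr s x (flip j y) = noisePr s x y * lam s (x j) (y j) := by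
  have hs := noisePr_flip_sub s x y j
  have hP : noisePr s x y = (if x j = y j then 1 - s else s) *
      ∏ i ∈ univ.erase j, if x i = y i then 1 - s else s :=
    (mul_prod_erase univ _ (mem_univ j)).symm
  have h1s : 1 - s ≠ 0 := by linarith
  set Pr := ∏ i ∈ univ.erase j, if x i = y i then 1 - s else s
  have e : noisePr s x y - noisePr s x (flip j y) =
      -((1 - 2 * s) * (Pr * (if x j = y j then -1 else 1))) := by linarith
  rw [e, hP]
  unfold lam
  by_cases h : x j = y j
  · simp only [h, if_true]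
    field_simp
  · simp only [h, if_false]
    field_simp

/-- The linear statistic. -/
noncomputable def Lam (s : ℝ) (c : Fin n → ℝ) (x y : Cube n) : ℝ := ∑ j, c j * lam s (x j) (y j)

lemma Lam_cons (s : ℝ) (c : Fin (n + 1) → ℝ) (a b : Bool) (x y : Cube n) :
    Lam s c (Fin.cons a x) (Fin.cons b y) = c 0 * lam s a b + Lam s (fun j => c j.succ) x y := by
  unfold Lam
  rw [Fin.sum_univ_succ]
  simp

lemma sum_weight_lam {s : ℝ} (h0 : 0 < s) (h1 : s < 1) (b : Bool) :
    (if true = b then 1 - s else s) * lam s true b +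
      (if false = b then 1 - s else s) * lam s false b = 0 := by
  have h1s : 1 - s ≠ 0 := by linarith
  cases b <;> simp [lam] <;> field_simp <;> ring

lemma sum_weight_lam_sq {s : ℝ} (h0 : 0 < s) (h1 : s < 1) (b : Bool) :
    (if true = b then 1 - s else s) * lam s true b ^ 2 +
      (if false = b then 1 - s else s) * lam s false b ^ 2 = (1 - 2 * s) ^ 2 / (s * (1 - s)) := by
  have h1s : 1 - s ≠ 0 := by linarith
  cases b <;> simp [lam] <;> field_simp <;> ring

lemma sum_weight_one (s : ℝ) (b : Bool) :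
    (if true = b then 1 - s else s) + (if false = b then 1 - s else s) = 1 := by
  cases b <;> simp

lemma Lam_mean {s : ℝ} (h0 : 0 < s) (h1 : s < 1) : ∀ {n : ℕ} (c : Fin n → ℝ) (y : Cube n),
    ∑ x, noisePr s x y * Lam s c x y = 0 := by
  intro n
  induction n with
  | zero => intro c y; simp [Lam]
  | succ n ih =>
      intro c y
      rw [sum_cube_succ]
      have hy : y = Fin.cons (y 0) (Fin.tail y) := (Fin.cons_self_tail y).symm
      rw [hy]
      set b := y 0
      set y' := Fin.tail y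
      simp only [noisePr_cons, Lam_cons]
      have key : ∀ a : Bool, ∑ x, (if a = b then 1 - s else s) * noisePr s x y' *
          (c 0 * lam s a b + Lam s (fun j => c j.succ) x y') =
          (if a = b then 1 - s else s) * (c 0 * lam s a b) := by
        intro a
        have e : ∀ x, (if a = b then 1 - s else s) * noisePr s x y' *
            (c 0 * lam s a b + Lam s (fun j => c j.succ) x y') =
            (if a = b then 1 - s else s) * (c 0 * lam s a b) * noisePr s x y' +
            (if a = b then 1 - s else s) * (noisePr s x y' * Lam s (fun j => c j.succ) x y') := by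
          intro x; ring
        simp only [e, sum_add_distrib, ← mul_sum, ih, sum_noisePr_left]
        ring
      rw [key true, key false]
      have := sum_weight_lam h0 h1 b
      linear_combination (c 0) * this

lemma Lam_var {s : ℝ} (h0 : 0 < s) (h1 : s < 1) : ∀ {n : ℕ} (c : Fin n → ℝ) (y : Cube n),
    ∑ x, noisePr s x y * Lam s c x y ^ 2 = (∑ j, c j ^ 2) * ((1 - 2 * s) ^ 2 / (s * (1 - s))) := by
  intro n
  induction n with
  | zero => intro c y; simp [Lam]
  | succ n ih =>
      intro c y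
      rw [sum_cube_succ]
      have hy : y = Fin.cons (y 0) (Fin.tail y) := (Fin.cons_self_tail y).symm
      rw [hy]
      set b := y 0
      set y' := Fin.tail y
      simp only [noisePr_cons, Lam_cons]
      have key : ∀ a : Bool, ∑ x, (if a = b then 1 - s else s) * noisePr s x y' *
          (c 0 * lam s a b + Lam s (fun j => c j.succ) x y') ^ 2 =
          (if a = b then 1 - s else s) * (c 0 ^ 2 * lam s a b ^ 2) +
            (if a = b then 1 - s else s) *
              ((∑ j : Fin n, c j.succ ^ 2) * ((1 - 2 * s) ^ 2 / (s * (1 - s)))) := by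
        intro a
        have e : ∀ x, (if a = b then 1 - s else s) * noisePr s x y' *
            (c 0 * lam s a b + Lam s (fun j => c j.succ) x y') ^ 2 =
            (if a = b then 1 - s else s) * (c 0 ^ 2 * lam s a b ^ 2) * noisePr s x y' +
            (if a = b then 1 - s else s) * (2 * c 0 * lam s a b) *
              (noisePr s x y' * Lam s (fun j => c j.succ) x y') +
            (if a = b then 1 - s else s) *
              (noisePr s x y' * Lam s (fun j => c j.succ) x y' ^ 2) := by
          intro x; ring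
        simp only [e, sum_add_distrib, ← mul_sum, ih, sum_noisePr_left, Lam_mean h0 h1]
        ring
      rw [key true, key false, Fin.sum_univ_succ]
      have h2 := sum_weight_lam_sq h0 h1 b
      have h3 := sum_weight_one s b
      linear_combination (c 0 ^ 2) * h2 + ((∑ j : Fin n, c j.succ ^ 2) *
        ((1 - 2 * s) ^ 2 / (s * (1 - s)))) * h3

/-- The squared gradient of the noisy function is bounded, for a function with values in `[0,1]`. -/
theorem grad_bound {s : ℝ} (h0 : 0 < s) (h1 : s < 1 / 2) (w : Cube n → ℝ) (hw0 : ∀ y, 0 ≤ w y)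
    (hw1 : ∀ y, w y ≤ 1) (y : Cube n) :
    ∑ j, (noiseOp s w y - noiseOp s w (flip j y)) ^ 2 ≤
      (1 - 2 * s) ^ 2 / (s * (1 - s)) / 4 := by
  have hs1 : s < 1 := by linarith
  have h1s : 0 < 1 - s := by linarith
  have hρ : 0 < 1 - 2 * s := by linarith
  set V := (1 - 2 * s) ^ 2 / (s * (1 - s)) with hV
  have hVpos : 0 < V := by positivity
  set c : Fin n → ℝ := fun j => noiseOp s w y - noiseOp s w (flip j y) with hc
  have hgj : ∀ j, c j = ∑ x, w x * (noisePr s x y * lam s (x j) (y j)) := by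
    intro j
    simp only [hc, noiseOp]
    rw [← sum_sub_distrib]
    refine sum_congr rfl (fun x _ => ?_)
    rw [← noisePr_sub_flip h0 hs1]
    ring
  -- the quadratic form
  have hQ : ∑ j, c j ^ 2 = ∑ x, (w x - 1 / 2) * (noisePr s x y * Lam s c x y) := by
    have e1 : ∑ j, c j ^ 2 = ∑ x, w x * (noisePr s x y * Lam s c x y) := by
      unfold Lam
      simp only [mul_sum]
      rw [sum_comm]
      refine sum_congr rfl (fun j _ => ?_)
      rw [sq]
      nth_rewrite 2 [hgj j]
      rw [mul_sum]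
      exact sum_congr rfl (fun x _ => by ring)
    have e2 : ∑ x, (w x - 1 / 2) * (noisePr s x y * Lam s c x y) =
        ∑ x, w x * (noisePr s x y * Lam s c x y) -
          1 / 2 * ∑ x, noisePr s x y * Lam s c x y := by
      rw [mul_sum, ← sum_sub_distrib]
      exact sum_congr rfl (fun x _ => by ring)
    rw [e2, Lam_mean h0 hs1, e1]
    ring
  set Q := ∑ j, c j ^ 2 with hQdef
  -- pointwise AM-GM
  have hpt : ∀ x, (w x - 1 / 2) * (noisePr s x y * Lam s c x y) ≤
      noisePr s x y * (V / 8) + noisePr s x y * Lam s c x y ^ 2 * (1 / (2 * V)) := by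
    intro x
    have hP := noisePr_pos h0 hs1 x y
    have hq : (w x - 1 / 2) ^ 2 ≤ 1 / 4 := by
      nlinarith [hw0 x, hw1 x]
    set Λ := Lam s c x y
    have hk : (w x - 1 / 2) * Λ ≤ V / 8 + Λ ^ 2 * (1 / (2 * V)) := by
      have h5 : 0 ≤ (V / 2 - (w x - 1 / 2) * (2 * Λ)) ^ 2 := sq_nonneg _
      have h6 : (w x - 1 / 2) * Λ ≤ V / 8 + (w x - 1 / 2) ^ 2 * Λ ^ 2 * (2 / V) := by
        have e : V / 8 + (w x - 1 / 2) ^ 2 * Λ ^ 2 * (2 / V) - (w x - 1 / 2) * Λ =
            (V / 2 - (w x - 1 / 2) * (2 * Λ)) ^ 2 / (2 * V) := by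
          field_simp; ring
        have : 0 ≤ (V / 2 - (w x - 1 / 2) * (2 * Λ)) ^ 2 / (2 * V) := by positivity
        linarith
      have h7 : (w x - 1 / 2) ^ 2 * Λ ^ 2 * (2 / V) ≤ 1 / 4 * Λ ^ 2 * (2 / V) := by
        apply mul_le_mul_of_nonneg_right _ (by positivity)
        exact mul_le_mul_of_nonneg_right hq (sq_nonneg _)
      have e8 : 1 / 4 * Λ ^ 2 * (2 / V) = Λ ^ 2 * (1 / (2 * V)) := by field_simp; ring
      linarith
    have := mul_le_mul_of_nonneg_left hk hP.le
    nlinarith
  have hsum := sum_le_sum (fun x (_ : x ∈ (univ : Finset (Cube n))) => hpt x)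
  rw [← hQ, sum_add_distrib, ← sum_mul, ← sum_mul, sum_noisePr_left, Lam_var h0 hs1] at hsum
  rw [← hQdef, ← hV] at hsum
  have e : Q * V * (1 / (2 * V)) = Q / 2 := by field_simp
  rw [e] at hsum
  linarith

/-- The nested norm dominates the Euclidean norm. -/
lemma Nstar_sq_ge {A B : ℝ} (hA : 0 ≤ A) (hB : 0 ≤ B) : A ^ 2 + B ^ 2 ≤ Nstar A B ^ 2 := by
  unfold Nstar
  split_ifs with h
  · rcases hA.eq_or_lt with rfl | hApos
    · have : B = 0 := le_antisymm h hB
      subst this; simp
    · have e : (A + B ^ 2 / (2 * A)) ^ 2 = A ^ 2 + B ^ 2 + (B ^ 2 / (2 * A)) ^ 2 := by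
        field_simp; ring
      rw [e]
      have := sq_nonneg (B ^ 2 / (2 * A))
      linarith
  · rw [not_le] at h
    nlinarith

lemma nest_sq_ge : ∀ (n : ℕ) (a : Fin n → ℝ), (∀ i, 0 ≤ a i) → ∑ i, a i ^ 2 ≤ nest n a ^ 2
  | 0, _, _ => by simp [nest]
  | n + 1, a, h => by
      rw [Fin.sum_univ_succ]
      have ih := nest_sq_ge n (fun i => a i.succ) (fun i => h i.succ)
      have h0 := nest_nonneg n (fun i => a i.succ) (fun i => h i.succ)
      have := Nstar_sq_ge h0 (h 0)
      show a 0 ^ 2 + ∑ i : Fin n, a i.succ ^ 2 ≤ Nstar (nest n fun i => a i.succ) (a 0) ^ 2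
      linarith

lemma noiseOp_mem {s : ℝ} (h0 : 0 ≤ s) (h1 : s ≤ 1) (w : Cube n → ℝ) (hw0 : ∀ y, 0 ≤ w y)
    (hw1 : ∀ y, w y ≤ 1) (y : Cube n) : 0 ≤ noiseOp s w y ∧ noiseOp s w y ≤ 1 := by
  constructor
  · exact sum_nonneg (fun x _ => mul_nonneg (hw0 x) (noisePr_nonneg h0 h1 x y))
  · have e := noiseOp_one_sub s w y
    have : 0 ≤ noiseOp s (fun x => 1 - w x) y :=
      sum_nonneg (fun x _ => mul_nonneg (by linarith [hw1 x]) (noisePr_nonneg h0 h1 x y))
    linarith

/-- Symmetrization for the quadratic form of the noise flow. -/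
lemma symm_gradP (w G : Cube n → ℝ) (j : Fin n) :
    ∑ y, w y * (G (flip j y) - G y) = -∑ y, gradP w y j * (G y - G (flip j y)) := by
  have key : ∀ y, w y * (G (flip j y) - G y) +
      w (flip j y) * (G (flip j (flip j y)) - G (flip j y)) =
      -(gradP w y j * (G y - G (flip j y)) +
        gradP w (flip j y) j * (G (flip j y) - G (flip j (flip j y)))) := by
    intro y
    simp only [flip_flip, gradP]
    rcases le_total (w (flip j y)) (w y) with h | h
    · rw [max_eq_left (by linarith : 0 ≤ w y - w (flip j y)),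
        max_eq_right (by linarith : w (flip j y) - w y ≤ 0)]
      ring
    · rw [max_eq_right (by linarith : w y - w (flip j y) ≤ 0),
        max_eq_left (by linarith : 0 ≤ w (flip j y) - w y)]
      ring
  have hsum := sum_congr rfl (fun y (_ : y ∈ (univ : Finset (Cube n))) => key y)
  simp only [sum_add_distrib, sum_neg_distrib] at hsum
  have f1 := sum_flip j (fun y => w y * (G (flip j y) - G y))
  have f2 := sum_flip j (fun y => gradP w y j * (G y - G (flip j y)))
  beta_reduce at f1 f2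
  linarith

/-- Pointwise bound for the pairing of the gradient with the noisy gradient. -/
lemma pairing_bound {s : ℝ} (h0 : 0 < s) (h1 : s < 1 / 2) (w : Cube n → ℝ) (hw0 : ∀ y, 0 ≤ w y)
    (hw1 : ∀ y, w y ≤ 1) (a1 a2 : Fin n → ℝ) (ha1 : ∀ j, 0 ≤ a1 j) (ha2 : ∀ j, 0 ≤ a2 j)
    (y : Cube n) :
    ∑ j, (a1 j + a2 j) * (noiseOp s w y - noiseOp s w (flip j y)) ≤
      ∑ j, a1 j + nest n a2 * ((1 - 2 * s) / sqrt s) := by
  have hρ : 0 < 1 - 2 * s := by linarith
  have hsq : 0 < sqrt s := Real.sqrt_pos.2 h0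
  have hs1 : s ≤ 1 := by linarith
  simp only [add_mul, sum_add_distrib]
  refine add_le_add ?_ ?_
  · refine sum_le_sum (fun j _ => ?_)
    have a := noiseOp_mem h0.le hs1 w hw0 hw1 y
    have b := noiseOp_mem h0.le hs1 w hw0 hw1 (flip j y)
    have : noiseOp s w y - noiseOp s w (flip j y) ≤ 1 := by linarith [a.2, b.1]
    exact mul_le_of_le_one_right (ha1 j) this
  · have hC := Real.sum_mul_le_sqrt_mul_sqrt univ a2
      (fun j => noiseOp s w y - noiseOp s w (flip j y))
    refine hC.trans ?_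
    have hn0 := nest_nonneg n a2 ha2
    have h2 : sqrt (∑ j, a2 j ^ 2) ≤ nest n a2 :=
      Real.sqrt_le_iff.2 ⟨hn0, nest_sq_ge n a2 ha2⟩
    have hr : 0 ≤ (1 - 2 * s) / sqrt s := by positivity
    have h3 : sqrt (∑ j, (noiseOp s w y - noiseOp s w (flip j y)) ^ 2) ≤ (1 - 2 * s) / sqrt s := by
      refine Real.sqrt_le_iff.2 ⟨hr, ?_⟩
      refine (grad_bound h0 h1 w hw0 hw1 y).trans ?_
      rw [div_pow, Real.sq_sqrt h0.le, div_div]
      apply div_le_div_of_nonneg_left (sq_nonneg _) h0
      nlinarith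
    exact mul_le_mul h2 h3 (Real.sqrt_nonneg _) hn0

lemma continuous_bil (w : Cube n → ℝ) : Continuous (fun s => bil s w w) := by
  unfold bil avg
  refine Continuous.div_const ?_ _
  refine continuous_finsetSum _ (fun y _ => continuous_const.mul (continuous_noiseOp w y))

/-- The duality inequality. -/
theorem duality {σ : ℝ} (hσ0 : 0 < σ) (hσ1 : σ < 1 / 2) (w : Cube n → ℝ) (hw0 : ∀ y, 0 ≤ w y)
    (hw1 : ∀ y, w y ≤ 1) (a1 a2 : Cube n → Fin n → ℝ) (ha1 : ∀ y j, 0 ≤ a1 y j)
    (ha2 : ∀ y j, 0 ≤ a2 y j) (hsum : ∀ y j, a1 y j + a2 y j = gradP w y j) :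
    avg (fun y => w y ^ 2) - bil σ w w ≤
      avg (fun y => ∑ j, a1 y j) * (σ / (1 - 2 * σ)) +
        2 * avg (fun y => nest n (a2 y)) * sqrt σ := by
  set P₁ := avg (fun y => ∑ j, a1 y j) with hP₁
  set P₂ := avg (fun y => nest n (a2 y)) with hP₂
  have hP₁0 : 0 ≤ P₁ := avg_nonneg (fun y => sum_nonneg (fun j _ => ha1 y j))
  have hP₂0 : 0 ≤ P₂ := avg_nonneg (fun y => nest_nonneg n _ (ha2 y))
  have hρσ : 0 < 1 - 2 * σ := by linarith
  -- the derivative of the bilinear form
  let D : ℝ → ℝ := fun s =>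
    avg (fun y => w y * ((∑ j, (noiseOp s w (flip j y) - noiseOp s w y)) / (1 - 2 * s)))
  have hΦ : ∀ s ∈ Set.Ioo 0 σ, HasDerivAt (fun s => bil s w w) (D s) s := by
    intro s hs
    have hρ : 1 - 2 * s ≠ 0 := by linarith [hs.2]
    have each : ∀ y ∈ (univ : Finset (Cube n)),
        HasDerivAt (fun e => w y * noiseOp e w y)
          (w y * ((∑ j, (noiseOp s w (flip j y) - noiseOp s w y)) / (1 - 2 * s))) s :=
      fun y _ => (hasDerivAt_noiseOp hρ w y).const_mul (w y)
    exact (HasDerivAt.fun_sum each).div_const ((2 : ℝ) ^ n)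
  -- the comparison function
  let Ψ : ℝ → ℝ := fun s => P₁ * (s * (1 / (1 - 2 * σ))) + 2 * P₂ * sqrt s
  let Ψ' : ℝ → ℝ := fun s => P₁ * (1 / (1 - 2 * σ)) + P₂ / sqrt s
  have hΨ : ∀ s ∈ Set.Ioo 0 σ, HasDerivAt Ψ (Ψ' s) s := by
    intro s hs
    have h1 : HasDerivAt (fun s : ℝ => P₁ * (s * (1 / (1 - 2 * σ)))) (P₁ * (1 * (1 / (1 - 2 * σ)))) s :=
      ((hasDerivAt_id s).mul_const _).const_mul P₁
    have h2 := (Real.hasDerivAt_sqrt hs.1.ne').const_mul (2 * P₂)
    refine (h1.add h2).congr_deriv ?_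
    have hq : sqrt s ≠ 0 := (Real.sqrt_pos.2 hs.1).ne'
    simp only [Ψ']
    field_simp
  have hsum' : ∀ s ∈ Set.Ioo 0 σ, 0 ≤ D s + Ψ' s := by
    intro s hs
    have hs0 := hs.1
    have hs1 : s < 1 / 2 := by linarith [hs.2]
    have hρ : 0 < 1 - 2 * s := by linarith
    have hq : 0 < sqrt s := Real.sqrt_pos.2 hs0
    -- rewrite `D`
    have e1 : D s = -(avg (fun y => ∑ j, gradP w y j * (noiseOp s w y - noiseOp s w (flip j y)))
        / (1 - 2 * s)) := by
      simp only [D]
      unfold avg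
      have e2 : ∑ y, w y * ((∑ j, (noiseOp s w (flip j y) - noiseOp s w y)) / (1 - 2 * s)) =
          -(∑ y, ∑ j, gradP w y j * (noiseOp s w y - noiseOp s w (flip j y))) / (1 - 2 * s) := by
        have e3 : ∀ y, w y * ((∑ j, (noiseOp s w (flip j y) - noiseOp s w y)) / (1 - 2 * s)) =
            (∑ j, w y * (noiseOp s w (flip j y) - noiseOp s w y)) / (1 - 2 * s) := by
          intro y; rw [← mul_sum, mul_div_assoc]
        simp only [e3]
        rw [← sum_div, sum_comm]
        simp only [symm_gradP w (noiseOp s w)]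
        rw [sum_neg_distrib, sum_comm]
      rw [e2]
      ring
    have hb := avg_mono (fun y => by
      have := pairing_bound hs0 hs1 w hw0 hw1 (a1 y) (a2 y) (ha1 y) (ha2 y) y
      simp only [hsum] at this
      exact this)
    rw [avg_add, ← hP₁] at hb
    have e4 : avg (fun y => nest n (a2 y) * ((1 - 2 * s) / sqrt s)) =
        P₂ * ((1 - 2 * s) / sqrt s) := by
      rw [mul_comm P₂, hP₂, ← avg_const_mul]
      congr 1; funext y; ring
    rw [e4] at hb
    rw [e1]
    simp only [Ψ']
    have h3 : avg (fun y => ∑ j, gradP w y j * (noiseOp s w y - noiseOp s w (flip j y))) / (1 - 2 * s)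
        ≤ P₁ / (1 - 2 * s) + P₂ / sqrt s := by
      rw [div_le_iff₀ hρ]
      refine hb.trans (le_of_eq ?_)
      field_simp
    have h4 : P₁ / (1 - 2 * s) ≤ P₁ * (1 / (1 - 2 * σ)) := by
      rw [mul_one_div]
      apply div_le_div_of_nonneg_left hP₁0 hρσ
      linarith [hs.2]
    linarith
  have hcont : ContinuousOn (fun s => bil s w w + Ψ s) (Set.Icc 0 σ) := by
    have c1 := continuous_bil w
    have c2 : Continuous Ψ := by
      simp only [Ψ]
      fun_prop
    exact (c1.add c2).continuousOn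
  obtain ⟨c, hc, hslope⟩ := exists_hasDerivAt_eq_slope (fun s => bil s w w + Ψ s)
    (fun s => D s + Ψ' s) hσ0 hcont (fun s hs => (hΦ s hs).add (hΨ s hs))
  have hnn := hsum' c hc
  rw [hslope] at hnn
  have h0 : bil 0 w w = avg (fun y => w y ^ 2) := by
    unfold bil
    simp only [noiseOp_zero]
    congr 1; funext y; ring
  have hΨ0 : Ψ 0 = 0 := by simp [Ψ]
  have hfin : 0 ≤ bil σ w w + Ψ σ - (bil 0 w w + Ψ 0) := by
    rcases div_nonneg_iff.1 hnn with h | h
    · exact h.1
    · linarith [h.2]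
  rw [h0, hΨ0] at hfin
  have hΨσ : Ψ σ = P₁ * (σ / (1 - 2 * σ)) + 2 * P₂ * sqrt σ := by
    simp only [Ψ]
    rw [mul_one_div]
  rw [hΨσ] at hfin
  linarith

end Vale.Agent.Lib.P322
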