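import Vale.Agent.Lib.P322.FarTheta

/-!
# The exact inequality at low noise
-/

namespace Vale.Agent.Lib.P322

open Finset Real Filter Topology

lemma tendsto_final :
    Tendsto (fun l : ℝ => (l + 1) * exp (-(1 / 10 ^ 13 * l))) atTop (𝓝 0) := by
  have h1 := Real.tendsto_pow_mul_exp_neg_atTop_nhds_zero 1
  have h0 := Real.tendsto_pow_mul_exp_neg_atTop_nhds_zero 0
  have h2 := (h1.const_mul (10 ^ 13 : ℝ)).add h0
  have hc : Tendsto (fun l : ℝ => 1 / 10 ^ 13 * l) atTop atTop :=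
    tendsto_id.const_mul_atTop (by norm_num)
  have h3 := h2.comp hc
  simp only [mul_zero, add_zero] at h3
  refine h3.congr (fun l => ?_)
  simp only [Function.comp, pow_one, pow_zero]
  ring

/-- The closing arithmetic. -/
lemma final_arith {ε ℓ x E H : ℝ} (hε : 0 < ε) (hℓ : 2 * 10 ^ 12 ≤ ℓ) (hx0 : 0 < x)
    (hx : (ℓ + 1) * x ≤ 1 / 10 ^ 54) (hE : E * ε = x) (hH : H < ε * (ℓ + 1))
    (hI : ε * ((1 - 1 / 10 ^ 13) * ℓ * (1 - 1 / 10 ^ 13) * (1 + 2 / 10 ^ 12)) ≤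
      (1 + ε * (E / (1 / 10 ^ 13))) * H) : False := by
  have e1 : ε * (E / (1 / 10 ^ 13)) = 10 ^ 13 * x := by
    rw [← hE]; field_simp
  rw [e1] at hI
  have hpos : 0 < 1 + 10 ^ 13 * x := by positivity
  have h2 : (1 + 10 ^ 13 * x) * H < (1 + 10 ^ 13 * x) * (ε * (ℓ + 1)) :=
    mul_lt_mul_of_pos_left hH hpos
  have h3 : ε * ((1 - 1 / 10 ^ 13) * ℓ * (1 - 1 / 10 ^ 13) * (1 + 2 / 10 ^ 12)) <
      ε * ((1 + 10 ^ 13 * x) * (ℓ + 1)) := by
    have : (1 + 10 ^ 13 * x) * (ε * (ℓ + 1)) = ε * ((1 + 10 ^ 13 * x) * (ℓ + 1)) := by ring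
    linarith
  have h4 := lt_of_mul_lt_mul_left h3 hε.le
  have h5 : (10:ℝ) ^ 13 * ((ℓ + 1) * x) ≤ 10 ^ 13 * (1 / 10 ^ 54) :=
    mul_le_mul_of_nonneg_left hx (by positivity)
  norm_num at h4 h5 hℓ
  nlinarith

/-- The exact inequality for all Boolean functions at low noise. -/
theorem exact_low_noise : ∃ ε₀ : ℝ, 0 < ε₀ ∧ ∀ ε, 0 < ε → ε < ε₀ →
    ∀ (n : ℕ) (f : Cube n → Bool), mutualInfoBits f ε ≤ 1 - h2 ε := by
  obtain ⟨ε₁, hε₁, H1⟩ := small_set_bound
  have hlog : Tendsto (fun ε : ℝ => -log ε) (𝓝[>] 0) atTop :=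
    tendsto_neg_atBot_atTop.comp Real.tendsto_log_nhdsGT_zero
  have hE1 : ∀ᶠ ε in 𝓝[>] (0:ℝ), ε < ε₁ :=
    eventually_nhdsWithin_of_eventually_nhds (eventually_lt_nhds hε₁)
  have hE2 : ∀ᶠ ε in 𝓝[>] (0:ℝ), 2 * 10 ^ 12 ≤ -log ε := hlog.eventually_ge_atTop _
  have hE3 : ∀ᶠ ε in 𝓝[>] (0:ℝ), (-log ε + 1) * exp (-(1 / 10 ^ 13 * -log ε)) ≤ 1 / 10 ^ 54 := by
    have h := tendsto_final.comp hlog
    exact (h.eventually (eventually_lt_nhds (by norm_num : (0:ℝ) < 1 / 10 ^ 54))).mono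
      (fun x hx => hx.le)
  have hall := hE1.and (hE2.and hE3)
  obtain ⟨ε₀, hε₀, hsub⟩ := (mem_nhdsGT_iff_exists_Ioo_subset).1 hall
  refine ⟨ε₀, hε₀, fun ε h0 h1 n f => ?_⟩
  obtain ⟨a1, a2, a3⟩ := hsub ⟨h0, h1⟩
  obtain ⟨_, hhalf, hS⟩ := H1 ε h0 a1
  obtain ⟨ℓ, hℓ⟩ : ∃ ℓ, ℓ = -log ε := ⟨_, rfl⟩
  rw [← hℓ] at a2 a3
  have hε1 : ε < 1 := by linarith
  have hbin := binEntropy_le_small h0 hε1
  rw [← hℓ] at hbin
  have hg := indTrue_cases f
  have hmi := mutualInfo_eq f h0.le hε1.le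
  have hlog2 : 0 < log 2 := Real.log_pos (by norm_num)
  have hH0 : 0 ≤ Hent (indTrue f) ε := Hent_nonneg hg h0 hε1
  by_contra hcon
  rw [not_le] at hcon
  have ha0 : 0 ≤ probTrue f := by
    rw [probTrue_eq]
    exact avg_nonneg (fun x => by rcases hg x with h | h <;> simp [h])
  have ha1 : probTrue f ≤ 1 := by
    have := avg_mono (g := indTrue f) (h := fun _ => (1 : ℝ)) (fun x => by
      rcases hg x with h | h <;> simp [h])
    rwa [avg_const, ← probTrue_eq] at this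
  have hp := binEntropy_le_pinsker ha0 ha1
  have hI : mutualInfoBits f ε = (binEntropy (probTrue f) - Hent (indTrue f) ε) / log 2 := by
    rw [← hmi]; field_simp
  rw [hI, h2_eq] at hcon
  have key : log 2 - binEntropy ε < binEntropy (probTrue f) - Hent (indTrue f) ε := by
    have e : 1 - binEntropy ε / log 2 = (log 2 - binEntropy ε) / log 2 := by
      field_simp
    rw [e] at hcon
    exact (div_lt_div_iff_of_pos_right hlog2).1 hcon
  have hk2 : Hent (indTrue f) ε + (2 * probTrue f - 1) ^ 2 / 2 < binEntropy ε := by linarith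
  have hm0 : 0 ≤ (2 * probTrue f - 1) ^ 2 := sq_nonneg _
  by_cases hΔ : 1 - 4 * lev1 (indTrue f) ≤ 1 / 150000
  · obtain ⟨i, hi⟩ := fkn_boolean f hΔ
    cases n with
    | zero => exact i.elim0
    | succ m =>
        have := Hent_near_dictator' h0 hhalf hS f i hi
        linarith
  · rw [not_le] at hΔ
    -- the exponentials
    obtain ⟨x, hx⟩ : ∃ x, x = exp (-(1 / 10 ^ 13 * ℓ)) := ⟨_, rfl⟩
    obtain ⟨y, hy⟩ : ∃ y, y = exp (-((1 - 1 / 10 ^ 13) * ℓ)) := ⟨_, rfl⟩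
    obtain ⟨E, hE⟩ : ∃ E, E = exp ((1 - 1 / 10 ^ 13) * ℓ) := ⟨_, rfl⟩
    have hεexp : ε = exp (-ℓ) := by rw [hℓ, neg_neg, exp_log h0]
    have hxpos : 0 < x := by rw [hx]; exact exp_pos _
    have hypos : 0 < y := by rw [hy]; exact exp_pos _
    have hyx : y * x = ε := by
      rw [hx, hy, hεexp, ← exp_add]
      congr 1
      ring
    have hEε : E * ε = x := by
      rw [hx, hE, hεexp, ← exp_add]
      congr 1
      ring
    have a3' : (ℓ + 1) * x ≤ 1 / 10 ^ 54 := by rw [hx]; exact a3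
    have hℓ0 : 0 < ℓ := by
      have : (0:ℝ) < 2 * 10 ^ 12 := by norm_num
      linarith
    have hεx : ε ≤ x := by
      rw [hx, hεexp]
      apply exp_le_exp.2
      have : 1 / 10 ^ 13 * ℓ ≤ 1 * ℓ := mul_le_mul_of_nonneg_right (by norm_num) hℓ0.le
      linarith
    have hhsmall : ε * (ℓ + 1) ≤ 1 / 10 ^ 54 := by
      have : ε * (ℓ + 1) ≤ x * (ℓ + 1) := mul_le_mul_of_nonneg_right hεx (by linarith)
      linarith
    have hbig : binEntropy ε ≤ 1 / 10 ^ 54 := hbin.trans (by linarith)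
    have hm : (2 * probTrue f - 1) ^ 2 ≤ 1 / 10 ^ 13 := by
      have : (2 * probTrue f - 1) ^ 2 ≤ 2 * (1 / 10 ^ 54) := by linarith
      refine this.trans (by norm_num)
    have hHlt : Hent (indTrue f) ε < ε * (ℓ + 1) := by linarith
    have hHsmall : Hent (indTrue f) ε ≤ 1 / 10 ^ 54 := by linarith
    rw [probTrue_eq] at hm
    -- nonconstancy
    have hx₁ : ∃ x₁, indTrue f x₁ = 1 := by
      by_contra hc
      have hz : ∀ x, indTrue f x = 0 := fun x => by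
        rcases hg x with h | h
        · exact h
        · exact absurd ⟨x, h⟩ hc
      have : avg (indTrue f) = 0 := by
        have e : indTrue f = fun _ => 0 := funext hz
        rw [e, avg_const]
      rw [this] at hm
      norm_num at hm
    have hx₀ : ∃ x₀, indTrue f x₀ = 0 := by
      by_contra hc
      have hz : ∀ x, indTrue f x = 1 := fun x => by
        rcases hg x with h | h
        · exact absurd ⟨x, h⟩ hc
        · exact h
      have : avg (indTrue f) = 1 := by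
        have e : indTrue f = fun _ => 1 := funext hz
        rw [e, avg_const]
      rw [this] at hm
      norm_num at hm
    obtain ⟨x₁, hx₁⟩ := hx₁
    obtain ⟨x₀, hx₀⟩ := hx₀
    have hP : Hent (indTrue f) ε / 2 ≤ 1 / 10 ^ 14 * (1 / 10 ^ 13) := by
      norm_num at hHsmall ⊢
      linarith
    have hbb : Hent (indTrue f) ε / 2 /
        ((1 / 10 ^ 13) * ((1 - 1 / 10 ^ 13) * (3 / 10 ^ 15) *
          exp (-((1 - 1 / 10 ^ 13) * ℓ)))) ≤ 1 / 10 ^ 26 := by
      rw [← hy, div_le_iff₀ (by positivity)]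
      have h6 : Hent (indTrue f) ε ≤ y * (1 / 10 ^ 54) := by
        have h7 : ε * (ℓ + 1) = y * ((ℓ + 1) * x) := by rw [← hyx]; ring
        have h8 : y * ((ℓ + 1) * x) ≤ y * (1 / 10 ^ 54) := mul_le_mul_of_nonneg_left a3' hypos.le
        linarith
      norm_num at h6 ⊢
      nlinarith
    have hI2 := integrated_far hg hx₀ hx₁ h0 (by linarith : ε < 1 / 2)
      (r := 1 / 10 ^ 13) (L := (1 - 1 / 10 ^ 13) * ℓ) (by norm_num) (by norm_num)
      (by
        have : (0:ℝ) ≤ 1 - 1 / 10 ^ 13 := by norm_num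
        positivity) hΔ.le hm hP hbb
    rw [← hE] at hI2
    exact final_arith h0 a2 hxpos a3' hEε hHlt hI2

end Vale.Agent.Lib.P322
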