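import Vale.Agent.Lib.P322.Lifted

/-!
# Moments of linear forms and a stability statement at level one
-/

namespace Vale.Agent.Lib.P322

open Finset Real

variable {n : ℕ}

/-- A linear form in the sign characters. -/
noncomputable def linForm (a : Fin n → ℝ) (y : Cube n) : ℝ := ∑ i, a i * chi i y

lemma linForm_cons (a : Fin (n + 1) → ℝ) (b : Bool) (y : Cube n) :
    linForm a (Fin.cons b y) =
      a 0 * (if b = true then 1 else -1) + linForm (fun i => a i.succ) y := by
  unfold linForm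
  rw [Fin.sum_univ_succ]
  simp only [chi_cons_zero, chi_cons_succ]

lemma linForm_restr_true (a : Fin (n + 1) → ℝ) (y : Cube n) :
    restr true (linForm a) y = a 0 + linForm (fun i => a i.succ) y := by
  simp [restr, linForm_cons]

lemma linForm_restr_false (a : Fin (n + 1) → ℝ) (y : Cube n) :
    restr false (linForm a) y = -a 0 + linForm (fun i => a i.succ) y := by
  simp [restr, linForm_cons]

/-- Averaging a polynomial over the first sign. -/
lemma avg_comp_linForm (a : Fin (n + 1) → ℝ) (P : ℝ → ℝ) :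
    avg (fun y => P (linForm a y)) =
      avg (fun y => (P (a 0 + linForm (fun i => a i.succ) y) +
        P (-a 0 + linForm (fun i => a i.succ) y)) / 2) := by
  rw [avg_succ, avg_add_half]
  congr 1
  funext y
  have h1 := linForm_restr_true a y
  have h2 := linForm_restr_false a y
  simp only [restr] at h1 h2 ⊢
  rw [h1, h2]

lemma moment2 : ∀ {n : ℕ} (a : Fin n → ℝ), avg (fun y => linForm a y ^ 2) = ∑ i, a i ^ 2 := by
  intro n
  induction n with
  | zero =>
      intro a
      rw [avg_zero_dim]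
      simp [linForm]
  | succ n ih =>
      intro a
      rw [avg_comp_linForm a (fun t => t ^ 2), Fin.sum_univ_succ, ← ih (fun i => a i.succ),
        ← avg_const (n := n) (a 0 ^ 2), ← avg_add]
      congr 1
      funext y
      ring

lemma moment4 : ∀ {n : ℕ} (a : Fin n → ℝ), avg (fun y => linForm a y ^ 4) =
    3 * (∑ i, a i ^ 2) ^ 2 - 2 * ∑ i, a i ^ 4 := by
  intro n
  induction n with
  | zero =>
      intro a
      rw [avg_zero_dim]
      simp [linForm]
  | succ n ih =>
      intro a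
      have e : avg (fun y => (((a 0 + linForm (fun i => a i.succ) y) ^ 4 +
          (-a 0 + linForm (fun i => a i.succ) y) ^ 4) / 2)) =
          avg (fun y => linForm (fun i => a i.succ) y ^ 4) +
            6 * a 0 ^ 2 * avg (fun y => linForm (fun i => a i.succ) y ^ 2) + a 0 ^ 4 := by
        have e0 : (fun y => (((a 0 + linForm (fun i => a i.succ) y) ^ 4 +
            (-a 0 + linForm (fun i => a i.succ) y) ^ 4) / 2)) =
            fun y => (linForm (fun i => a i.succ) y ^ 4 +
              6 * a 0 ^ 2 * linForm (fun i => a i.succ) y ^ 2) + a 0 ^ 4 := by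
          funext y; ring
        rw [e0, avg_add, avg_add, avg_const_mul, avg_const]
      rw [avg_comp_linForm a (fun t => t ^ 4)]
      rw [e, ih, moment2, Fin.sum_univ_succ, Fin.sum_univ_succ]
      ring

lemma sum_sq_nonneg' (a : Fin n → ℝ) : 0 ≤ ∑ i, a i ^ 2 := sum_nonneg (fun i _ => sq_nonneg _)

lemma sum_four_nonneg (a : Fin n → ℝ) : 0 ≤ ∑ i, a i ^ 4 :=
  sum_nonneg (fun _ _ => by positivity)

lemma moment6 : ∀ {n : ℕ} (a : Fin n → ℝ), avg (fun y => linForm a y ^ 6) ≤
    15 * (∑ i, a i ^ 2) ^ 3 := by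
  intro n
  induction n with
  | zero =>
      intro a
      rw [avg_zero_dim]
      simp [linForm]
  | succ n ih =>
      intro a
      have e : avg (fun y => (((a 0 + linForm (fun i => a i.succ) y) ^ 6 +
          (-a 0 + linForm (fun i => a i.succ) y) ^ 6) / 2)) =
          avg (fun y => linForm (fun i => a i.succ) y ^ 6) +
            15 * a 0 ^ 2 * avg (fun y => linForm (fun i => a i.succ) y ^ 4) +
            15 * a 0 ^ 4 * avg (fun y => linForm (fun i => a i.succ) y ^ 2) + a 0 ^ 6 := by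
        have e0 : (fun y => (((a 0 + linForm (fun i => a i.succ) y) ^ 6 +
            (-a 0 + linForm (fun i => a i.succ) y) ^ 6) / 2)) =
            fun y => ((linForm (fun i => a i.succ) y ^ 6 +
              15 * a 0 ^ 2 * linForm (fun i => a i.succ) y ^ 4) +
              15 * a 0 ^ 4 * linForm (fun i => a i.succ) y ^ 2) + a 0 ^ 6 := by
          funext y; ring
        rw [e0, avg_add, avg_add, avg_add, avg_const_mul, avg_const_mul, avg_const]
      rw [avg_comp_linForm a (fun t => t ^ 6)]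
      rw [e, moment4, moment2, Fin.sum_univ_succ]
      have ih' := ih (fun i => a i.succ)
      set S := ∑ i : Fin n, a i.succ ^ 2 with hS
      have hS0 : 0 ≤ S := sum_sq_nonneg' _
      have hR0 : 0 ≤ ∑ i : Fin n, a i.succ ^ 4 := sum_four_nonneg _
      have ha2 : 0 ≤ a 0 ^ 2 := sq_nonneg _
      set x := a 0 ^ 2 with hx
      have e4 : a 0 ^ 4 = x ^ 2 := by rw [hx]; ring
      have e6 : a 0 ^ 6 = x ^ 3 := by rw [hx]; ring
      rw [e4, e6]
      have h1 : 0 ≤ x * ∑ i : Fin n, a i.succ ^ 4 := mul_nonneg ha2 hR0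
      have h2 : 0 ≤ x ^ 2 * S := by positivity
      have h3 : 0 ≤ x ^ 3 := by positivity
      nlinarith

/-- Averages commute with finite sums. -/
lemma avg_sum {ι : Type*} (t : Finset ι) (f : ι → Cube n → ℝ) :
    avg (fun y => ∑ i ∈ t, f i y) = ∑ i ∈ t, avg (f i) := by
  unfold avg
  rw [sum_comm, sum_div]

/-- Pairing of a function with a linear form. -/
lemma avg_mul_linForm (F : Cube n → ℝ) (a : Fin n → ℝ) :
    avg (fun y => F y * linForm a y) = ∑ i, a i * coef F i := by
  have e : (fun y => F y * linForm a y) = fun y => ∑ i, a i * (F y * chi i y) := by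
    funext y
    unfold linForm
    rw [mul_sum]
    exact sum_congr rfl (fun i _ => by ring)
  rw [e, avg_sum]
  refine sum_congr rfl (fun i _ => ?_)
  rw [avg_const_mul]
  rfl

/-- Pointwise estimate for the stability statement. -/
lemma fkn_pointwise (l F : ℝ) (hF : F ^ 2 = 1) :
    (l ^ 2 - 1) ^ 2 ≤ 2800 * (F - l) ^ 2 + (8 * (l ^ 6 + 3 * l ^ 4 + 3 * l ^ 2 + 1)) / 11200 := by
  -- x = (F-l)^2, Z = 2 l^2 + 2
  have hx : (F - l) ^ 2 ≤ 2 * l ^ 2 + 2 := by nlinarith [sq_nonneg (F + l)]
  have hx0 : 0 ≤ (F - l) ^ 2 := sq_nonneg _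
  have hplus : (F + l) ^ 2 ≤ 2 * l ^ 2 + 2 := by nlinarith [sq_nonneg (F - l)]
  have e1 : (l ^ 2 - 1) ^ 2 = (F - l) ^ 2 * (F + l) ^ 2 := by
    have : l ^ 2 - 1 = l ^ 2 - F ^ 2 := by rw [hF]
    rw [this]; ring
  have e2 : (F - l) ^ 2 * (F + l) ^ 2 ≤ (F - l) ^ 2 * (2 * l ^ 2 + 2) :=
    mul_le_mul_of_nonneg_left hplus hx0
  -- x Z ≤ (λ/2) x + Z^3/(2 λ)
  obtain ⟨x, hxdef⟩ : ∃ x, x = (F - l) ^ 2 := ⟨_, rfl⟩
  obtain ⟨Z, hZdef⟩ : ∃ Z, Z = 2 * l ^ 2 + 2 := ⟨_, rfl⟩
  rw [← hxdef] at hx hx0 e1 e2 ⊢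
  rw [← hZdef] at hx e2
  have hZ0 : 0 ≤ Z := by rw [hZdef]; positivity
  have e3 : 8 * (l ^ 6 + 3 * l ^ 4 + 3 * l ^ 2 + 1) = Z ^ 3 := by rw [hZdef]; ring
  rw [e3, e1]
  refine e2.trans ?_
  have h4 : x * Z ^ 2 ≤ Z ^ 3 := by
    have : x * Z ^ 2 ≤ Z * Z ^ 2 := mul_le_mul_of_nonneg_right hx (by positivity)
    nlinarith
  have h5 : 0 ≤ x * (Z - 5600) ^ 2 := mul_nonneg hx0 (sq_nonneg _)
  nlinarith

/-- Stability at level one: a sign-valued function with almost all its weight at level one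
has a coefficient of almost full size. -/
theorem fkn_core (F : Cube n → ℝ) (hF : ∀ y, F y ^ 2 = 1)
    (hΔ : 1 - lev1 F ≤ 1 / 150000) : ∃ i, 98 / 100 ≤ coef F i ^ 2 := by
  obtain ⟨a, ha⟩ : ∃ a : Fin n → ℝ, a = coef F := ⟨_, rfl⟩
  obtain ⟨S, hS⟩ : ∃ S, S = ∑ i, a i ^ 2 := ⟨_, rfl⟩
  obtain ⟨R, hR⟩ : ∃ R, R = ∑ i, a i ^ 4 := ⟨_, rfl⟩
  have hlev : lev1 F = S := by rw [hS, ha]; rfl
  rw [hlev] at hΔ
  have hm2 : avg (fun y => linForm a y ^ 2) = S := by rw [moment2, hS]
  have hm4 : avg (fun y => linForm a y ^ 4) = 3 * S ^ 2 - 2 * R := by rw [moment4, hS, hR]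
  have hm6 : avg (fun y => linForm a y ^ 6) ≤ 15 * S ^ 3 := by
    have := moment6 a
    rwa [← hS] at this
  have hpair : avg (fun y => F y * linForm a y) = S := by
    rw [avg_mul_linForm, hS, ha]
    refine sum_congr rfl (fun i _ => ?_)
    ring
  have hsq : avg (fun y => F y ^ 2) = 1 := by
    simp only [hF]
    exact avg_const 1
  -- second moment of the difference
  have hD : avg (fun y => (F y - linForm a y) ^ 2) = 1 - S := by
    have e : (fun y => (F y - linForm a y) ^ 2) =
        fun y => (F y ^ 2 - 2 * (F y * linForm a y)) + linForm a y ^ 2 := by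
      funext y; ring
    rw [e, avg_add, avg_sub, avg_const_mul, hsq, hpair, hm2]
    ring
  have hS1 : S ≤ 1 := by
    have : 0 ≤ avg (fun y => (F y - linForm a y) ^ 2) := avg_nonneg (fun y => sq_nonneg _)
    linarith
  have hS0 : 0 ≤ S := by rw [hS]; exact sum_nonneg (fun i _ => sq_nonneg _)
  -- averaging the pointwise bound
  have hmain : avg (fun y => (linForm a y ^ 2 - 1) ^ 2) ≤
      avg (fun y => 2800 * (F y - linForm a y) ^ 2 +
        (8 * (linForm a y ^ 6 + 3 * linForm a y ^ 4 + 3 * linForm a y ^ 2 + 1)) / 11200) :=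
    avg_mono (fun y => fkn_pointwise _ _ (hF y))
  have el : avg (fun y => (linForm a y ^ 2 - 1) ^ 2) = 3 * S ^ 2 - 2 * R - 2 * S + 1 := by
    have e : (fun y => (linForm a y ^ 2 - 1) ^ 2) =
        fun y => (linForm a y ^ 4 - 2 * linForm a y ^ 2) + 1 := by
      funext y; ring
    rw [e, avg_add, avg_sub, avg_const_mul, hm2, hm4, avg_const]
  have er : avg (fun y => 2800 * (F y - linForm a y) ^ 2 +
        (8 * (linForm a y ^ 6 + 3 * linForm a y ^ 4 + 3 * linForm a y ^ 2 + 1)) / 11200) =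
      2800 * (1 - S) + (avg (fun y => linForm a y ^ 6) + 3 * (3 * S ^ 2 - 2 * R) + 3 * S + 1)
        * (8 / 11200) := by
    have e : (fun y => 2800 * (F y - linForm a y) ^ 2 +
        (8 * (linForm a y ^ 6 + 3 * linForm a y ^ 4 + 3 * linForm a y ^ 2 + 1)) / 11200) =
        fun y => 2800 * (F y - linForm a y) ^ 2 +
          (8 / 11200) * (((linForm a y ^ 6 + 3 * linForm a y ^ 4) + 3 * linForm a y ^ 2) + 1) := by
      funext y; ring
    rw [e, avg_add, avg_const_mul, avg_const_mul, avg_add, avg_add, avg_add, avg_const_mul,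
      avg_const_mul, hD, hm2, hm4, avg_const]
    ring
  rw [el, er] at hmain
  have hR0 : 0 ≤ R := by rw [hR]; exact sum_nonneg (fun i _ => by positivity)
  have hS15 : 1 - 1 / 150000 ≤ S := by linarith
  have hS3 : S ^ 3 ≤ 1 := pow_le_one₀ hS0 hS1
  have hS2 : S ^ 2 ≤ 1 := pow_le_one₀ hS0 hS1
  have hR98 : 9801 / 10000 ≤ R := by nlinarith
  by_contra hcon
  push Not at hcon
  have hle : R ≤ 98 / 100 * S := by
    rw [hR, hS, mul_sum]
    refine sum_le_sum (fun i _ => ?_)
    have h := hcon i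
    rw [← ha] at h
    nlinarith [sq_nonneg (a i ^ 2), sq_nonneg (a i)]
  linarith

/-- The signed version of a Boolean function. -/
noncomputable def signFn (f : Cube n → Bool) (y : Cube n) : ℝ := 2 * indTrue f y - 1

lemma signFn_sq (f : Cube n → Bool) (y : Cube n) : signFn f y ^ 2 = 1 := by
  unfold signFn
  rcases indTrue_cases f y with h | h <;> rw [h] <;> norm_num

lemma avg_chi (i : Fin n) : avg (chi i) = 0 := by
  have e := sum_flip i (chi i)
  have e2 : ∀ y, chi i (flip i y) = - chi i y := by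
    intro y
    unfold chi
    rw [flip_same]
    cases y i <;> simp
  simp only [e2, sum_neg_distrib] at e
  unfold avg
  have : ∑ y, chi i y = 0 := by linarith
  rw [this]; simp

lemma coef_indTrue (f : Cube n → Bool) (i : Fin n) :
    coef (signFn f) i = 2 * coef (indTrue f) i := by
  unfold coef
  have e : (fun y => signFn f y * chi i y) =
      fun y => 2 * (indTrue f y * chi i y) - chi i y := by
    funext y; unfold signFn; ring
  rw [e, avg_sub, avg_const_mul, avg_chi]
  ring

lemma lev1_signFn (f : Cube n → Bool) : lev1 (signFn f) = 4 * lev1 (indTrue f) := by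
  unfold lev1
  rw [mul_sum]
  refine sum_congr rfl (fun i _ => ?_)
  rw [coef_indTrue]
  ring

lemma coef_signFn_eq (f : Cube n → Bool) (i : Fin n) :
    coef (signFn f) i = 1 - 2 * disagreeCoord f i := by
  unfold coef avg disagreeCoord
  have hp : (2 : ℝ) ^ n ≠ 0 := by positivity
  have hc : (∑ _y : Cube n, (1 : ℝ)) = 2 ^ n := by
    simp [Finset.card_univ, Fintype.card_pi]
  field_simp
  rw [← hc, mul_sum, ← sum_sub_distrib]
  refine sum_congr rfl (fun y _ => ?_)
  unfold signFn indTrue chi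
  cases h1 : f y <;> cases h2 : y i <;> simp [h1, h2] <;> norm_num

/-- Near level-one concentration forces a near dictator or anti-dictator. -/
theorem fkn_boolean (f : Cube n → Bool) (hΔ : 1 - 4 * lev1 (indTrue f) ≤ 1 / 150000) :
    ∃ i, disagreeCoord f i ≤ 1 / 160 ∨ 1 - disagreeCoord f i ≤ 1 / 160 := by
  have h := fkn_core (signFn f) (signFn_sq f) (by rw [lev1_signFn]; exact hΔ)
  obtain ⟨i, hi⟩ := h
  refine ⟨i, ?_⟩
  rw [coef_signFn_eq] at hi
  obtain ⟨d, hd⟩ : ∃ d, d = disagreeCoord f i := ⟨_, rfl⟩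
  rw [← hd] at hi ⊢
  by_contra hcon
  push Not at hcon
  have h1 : (1 - 2 * d) ^ 2 < (79 / 80) ^ 2 := by
    apply sq_lt_sq'
    · linarith [hcon.2]
    · linarith [hcon.1]
  norm_num at h1 hi
  linarith

end Vale.Agent.Lib.P322
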