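import Vale.Agent.Lib.P322.FKN

/-!
# The far-from-dictator estimate for the noisy function
-/

namespace Vale.Agent.Lib.P322

open Finset Real

variable {n : ℕ}

/-- Dropping the small values does not decrease the quadratic form by much. -/
lemma bil_drop {σ : ℝ} (h0 : 0 ≤ σ) (h1 : σ ≤ 1 / 2) (u w : Cube n → ℝ) (hu0 : ∀ y, 0 ≤ u y)
    (hu1 : ∀ y, u y ≤ 1) (he : ∀ y, w y ≤ u y) :
    avg (fun y => u y ^ 2) - bil σ u u - 2 * avg (fun y => u y - w y) ≤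
      avg (fun y => w y ^ 2) - bil σ w w := by
  obtain ⟨e, hedef⟩ : ∃ e : Cube n → ℝ, e = fun y => u y - w y := ⟨_, rfl⟩
  have he0 : ∀ y, 0 ≤ e y := fun y => by rw [hedef]; linarith [he y]
  have hw : w = fun y => u y - e y := by
    funext y; rw [hedef]; ring
  rw [← hedef]
  -- expansions
  have hT : ∀ y, noiseOp σ w y = noiseOp σ u y - noiseOp σ e y := by
    intro y
    rw [hw, noiseOp_sub]
  have hbil : bil σ w w = bil σ u u - bil σ e u - bil σ u e + bil σ e e := by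
    unfold bil
    rw [← avg_sub, ← avg_sub, ← avg_add]
    congr 1
    funext y
    rw [hT, hw]
    ring
  have hsq : avg (fun y => w y ^ 2) =
      avg (fun y => u y ^ 2) - 2 * avg (fun y => e y * u y) + avg (fun y => e y ^ 2) := by
    rw [← avg_const_mul, ← avg_sub, ← avg_add]
    congr 1
    funext y
    rw [hw]
    ring
  have hsym : bil σ u e = bil σ e u := bil_symm σ u e
  have hgap := spectral_gap h0 h1 e
  have hvar := var_nonneg e
  have hBe : 0 ≤ avg (fun y => e y ^ 2) - bil σ e e := by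
    have : 0 ≤ 2 * σ * var e := by positivity
    linarith
  have hcross : avg (fun y => e y * u y) - bil σ e u ≤ avg e := by
    unfold bil
    rw [← avg_sub]
    refine avg_mono (fun y => ?_)
    have hm := noiseOp_mem h0 (by linarith) u hu0 hu1 y
    have h3 : e y * u y - e y * noiseOp σ u y = e y * (u y - noiseOp σ u y) := by ring
    rw [h3]
    exact mul_le_of_le_one_right (he0 y) (by linarith [hu1 y, hm.1])
  rw [hbil, hsq, hsym]
  linarith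

/-- The spectral-duality half of the far estimate. -/
lemma far_D (g : Cube n → ℝ) {τ r : ℝ} (hτ0 : 0 < τ) (hτ1 : τ < 1 / 2)
    (hu0 : ∀ y, 0 < noiseOp τ g y) (hu1 : ∀ y, noiseOp τ g y < 1) (hr0 : 0 < r) (hr1 : r ≤ 1 / 2)
    (a1 a2 : Cube n → Fin n → ℝ) (ha1 : ∀ y j, 0 ≤ a1 y j) (ha2 : ∀ y j, 0 ≤ a2 y j)
    (hsum : ∀ y j, a1 y j + a2 y j = gradP (normTrunc r (noiseOp τ g)) y j)
    (hΔ : 1 / 150000 ≤ 1 - 4 * lev1 g) :
    1 / 2 + 1 / 400000 - ((2 * avg g - 1) ^ 2 +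
        4 * avg (fun y => noiseOp τ g y * (1 - noiseOp τ g y)) +
        5760000 * avg (fun y => noiseOp τ g y * (1 - noiseOp τ g y))) ≤
      avg (fun y => ∑ j, a1 y j) + 2400 * avg (fun y => nest n (a2 y)) := by
  obtain ⟨u, hu⟩ : ∃ u : Cube n → ℝ, u = noiseOp τ g := ⟨_, rfl⟩
  rw [← hu] at hu0 hu1 hsum ⊢
  obtain ⟨w, hw⟩ : ∃ w : Cube n → ℝ, w = normTrunc r u := ⟨_, rfl⟩
  rw [← hw] at hsum
  obtain ⟨P, hP⟩ : ∃ P, P = avg (fun y => u y * (1 - u y)) := ⟨_, rfl⟩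
  rw [← hP]
  have hP0 : 0 ≤ P := by
    rw [hP]
    exact avg_nonneg (fun y => mul_nonneg (hu0 y).le (by linarith [hu1 y]))
  obtain ⟨a, ha⟩ : ∃ a, a = avg g := ⟨_, rfl⟩
  rw [← ha]
  have hau : avg u = a := by rw [hu, ha, avg_noiseOp]
  have hσ0 : (0:ℝ) ≤ 1 / 1440000 := by norm_num
  have hσ1 : (1:ℝ) / 1440000 ≤ 1 / 2 := by norm_num
  have hr1' : r < 1 := by linarith
  have hM : 1 / 2 ≤ 1 - r := by linarith
  -- the spectral estimate for the noisy function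
  have hS := spectral_level hσ0 hσ1 u
  have hlev : lev1 u ≤ lev1 g := by
    rw [hu]; exact lev1_noiseOp_le hτ0.le (by linarith) g
  have hsq : avg (fun y => u y ^ 2) = a - P := by
    rw [hP, ← hau, ← avg_sub]
    congr 1
    funext y
    ring
  have hvar : var u = a * (1 - a) - P := by
    unfold var
    rw [hsq, hau]
    ring
  -- dropping small values
  have hwle : ∀ y, w y ≤ u y := fun y => by
    have := (sub_normTrunc_bounds u hu0 hu1 hr0 hr1' y).1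
    rw [hw]; linarith
  have hdrop := bil_drop hσ0 hσ1 u w (fun y => (hu0 y).le) (fun y => (hu1 y).le) hwle
  have hAe : avg (fun y => u y - w y) ≤ 2 * P := by
    have e : 2 * P = avg (fun y => 2 * (u y * (1 - u y))) := by
      rw [avg_const_mul, hP]
    rw [e]
    refine avg_mono (fun y => ?_)
    have h1 := (sub_normTrunc_bounds u hu0 hu1 hr0 hr1' y).2
    have h2 : u y * (1 - u y) / (1 - r) ≤ u y * (1 - u y) / (1 / 2) := by
      apply div_le_div_of_nonneg_left _ (by norm_num) hM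
      exact mul_nonneg (hu0 y).le (by linarith [hu1 y])
    rw [hw]
    have h3 : u y * (1 - u y) / (1 / 2) = 2 * (u y * (1 - u y)) := by ring
    linarith
  -- duality
  have hw0 : ∀ y, 0 ≤ w y := fun y => by rw [hw]; exact normTrunc_nonneg u hr1' y
  have hw1 : ∀ y, w y ≤ 1 := fun y => by rw [hw]; exact normTrunc_le_one u hu1 hr1' y
  have hD := duality (σ := 1 / 1440000) (by norm_num) (by norm_num) w hw0 hw1 a1 a2 ha1 ha2 hsum
  have hsqrt : sqrt (1 / 1440000) = 1 / 1200 := by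
    rw [show (1:ℝ) / 1440000 = (1 / 1200) ^ 2 by norm_num]
    exact Real.sqrt_sq (by norm_num)
  rw [hsqrt] at hD
  obtain ⟨P1, hP1⟩ : ∃ P1, P1 = avg (fun y => ∑ j, a1 y j) := ⟨_, rfl⟩
  obtain ⟨P2, hP2⟩ : ∃ P2, P2 = avg (fun y => nest n (a2 y)) := ⟨_, rfl⟩
  rw [← hP1, ← hP2] at hD ⊢
  have hP10 : 0 ≤ P1 := by
    rw [hP1]; exact avg_nonneg (fun y => sum_nonneg (fun j _ => ha1 y j))
  have hP20 : 0 ≤ P2 := by
    rw [hP2]; exact avg_nonneg (fun y => nest_nonneg n _ (ha2 y))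
  obtain ⟨Bu, hBu⟩ : ∃ Bu, Bu = avg (fun y => u y ^ 2) - bil (1 / 1440000) u u := ⟨_, rfl⟩
  rw [← hBu] at hS hdrop
  obtain ⟨Bw, hBw⟩ : ∃ Bw, Bw = avg (fun y => w y ^ 2) - bil (1 / 1440000) w w := ⟨_, rfl⟩
  rw [← hBw] at hdrop hD
  rw [hvar] at hS
  obtain ⟨m2, hm2⟩ : ∃ m2, m2 = (2 * a - 1) ^ 2 := ⟨_, rfl⟩
  rw [← hm2]
  have haa : a * (1 - a) = 1 / 4 - m2 / 4 := by rw [hm2]; ring
  rw [haa] at hS
  have hl : lev1 u ≤ 1 / 4 - 1 / 600000 := by linarith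
  have hm0 : 0 ≤ m2 := by rw [hm2]; positivity
  have hρ : (0:ℝ) ≤ 1 - 2 * (1 / 1440000) := by norm_num
  have hS2 : 2 * (1 / 1440000) * (1 / 4 - m2 / 4 - P +
      (1 - 2 * (1 / 1440000)) * (1 / 4 - m2 / 4 - P - (1 / 4 - 1 / 600000))) ≤ Bu := by
    refine le_trans ?_ hS
    have := mul_le_mul_of_nonneg_left
      (show 1 / 4 - m2 / 4 - P - (1 / 4 - 1 / 600000) ≤ 1 / 4 - m2 / 4 - P - lev1 u by linarith) hρ
    nlinarith
  norm_num at hS2 hD
  norm_num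
  nlinarith

/-- The lifted Bellman half of the far estimate. -/
lemma far_L (g : Cube n → ℝ) {τ r : ℝ}
    (hu0 : ∀ y, 0 < noiseOp τ g y) (hu1 : ∀ y, noiseOp τ g y < 1) (hr0 : 0 < r) (hr1 : r ≤ 1 / 2)
    (a1 a2 : Cube n → Fin n → ℝ) (ha1 : ∀ y j, 0 ≤ a1 y j) (ha2 : ∀ y j, 0 ≤ a2 y j)
    (hsum : ∀ y j, a1 y j + a2 y j = gradP (normTrunc r (noiseOp τ g)) y j)
    (b : Cube n → ℝ) (hb0 : ∀ y, 0 ≤ b y) (hb : ∀ y j, a2 y j ≤ 3 / 10 ^ 15 + b y) :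
    51 / 100 - (2 * (avg g - avg (fun y => noiseOp τ g y - normTrunc r (noiseOp τ g) y)) - 1) ^ 2 -
        6 / r * avg (fun y => noiseOp τ g y * (1 - noiseOp τ g y)) - 10 ^ 13 * avg b ≤
      (1 + (1 + 1 / 10 ^ 10) / 50) * avg (fun y => ∑ j, a1 y j) + avg (fun y => nest n (a2 y)) := by
  obtain ⟨u, hu⟩ : ∃ u : Cube n → ℝ, u = noiseOp τ g := ⟨_, rfl⟩
  have hau : avg u = avg g := by rw [hu, avg_noiseOp]
  rw [← hu] at hu0 hu1 hsum ⊢
  rw [← hau]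
  have hr1' : r < 1 := by linarith
  obtain ⟨w, hw⟩ : ∃ w : Cube n → ℝ, w = normTrunc r u := ⟨_, rfl⟩
  rw [← hw] at hsum ⊢
  have hw0 : ∀ y, 0 ≤ w y := fun y => by rw [hw]; exact normTrunc_nonneg u hr1' y
  have hw1 : ∀ y, w y ≤ 1 := fun y => by rw [hw]; exact normTrunc_le_one u hu1 hr1' y
  have hL := lifted (η := 1 / 10 ^ 10) (θ := 3 / 10 ^ 15) (β₀ := 3 / 10 ^ 15) (C₁ := 10 ^ 13)
    (by norm_num) (by norm_num) (by norm_num) (by norm_num) (by norm_num) (by norm_num)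
    w hw0 hw1 a1 a2 ha1 ha2 hsum b hb0 hb
  have e1 : avg (fun y => (1 + (1 + 1 / 10 ^ 10 : ℝ) / 50) * ∑ j, a1 y j + nest n (a2 y)) =
      (1 + (1 + 1 / 10 ^ 10) / 50) * avg (fun y => ∑ j, a1 y j) + avg (fun y => nest n (a2 y)) := by
    rw [avg_add, avg_const_mul]
  rw [e1] at hL
  have e2 : avg u - avg (fun y => u y - w y) = avg w := by
    rw [avg_sub]; ring
  rw [e2]
  have ha0 : 0 ≤ avg w := avg_nonneg hw0
  have ha1' : avg w ≤ 1 := by
    have := avg_mono hw1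
    rwa [avg_const] at this
  have hG := Ghat_ge (avg w) ha0 ha1'
  have hC := avg_comp_normTrunc_le u hu0 hu1 hr0 hr1' (C := 3) (by norm_num) (G := Ghat) Ghat_zero
    (fun x h0 h1 => Ghat_le h0 h1)
  rw [← hw] at hC
  have hP0 : 0 ≤ avg (fun y => u y * (1 - u y)) :=
    avg_nonneg (fun y => mul_nonneg (hu0 y).le (by linarith [hu1 y]))
  have hC2 : 3 / (r * (1 - r)) ≤ 6 / r := by
    rw [div_le_div_iff₀ (by have : 0 < 1 - r := by linarith
                            positivity) hr0]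
    nlinarith
  have hC3 := mul_le_mul_of_nonneg_right hC2 hP0
  linarith

/-- The combined far estimate. -/
theorem far_core (g : Cube n → ℝ) {τ r : ℝ} (hτ0 : 0 < τ) (hτ1 : τ < 1 / 2)
    (hu0 : ∀ y, 0 < noiseOp τ g y) (hu1 : ∀ y, noiseOp τ g y < 1) (hr0 : 0 < r) (hr1 : r ≤ 1 / 2)
    (a1 a2 : Cube n → Fin n → ℝ) (ha1 : ∀ y j, 0 ≤ a1 y j) (ha2 : ∀ y j, 0 ≤ a2 y j)
    (hsum : ∀ y j, a1 y j + a2 y j = gradP (normTrunc r (noiseOp τ g)) y j)
    (b : Cube n → ℝ) (hb0 : ∀ y, 0 ≤ b y) (hb : ∀ y j, a2 y j ≤ 3 / 10 ^ 15 + b y)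
    (hΔ : 1 / 150000 ≤ 1 - 4 * lev1 g) (hm : (2 * avg g - 1) ^ 2 ≤ 1 / 10 ^ 13)
    (hP : avg (fun y => noiseOp τ g y * (1 - noiseOp τ g y)) ≤ 1 / 10 ^ 14 * r)
    (hbb : avg b ≤ 1 / 10 ^ 26) :
    1 / 2 + 1 / 10 ^ 12 ≤ avg (fun y => ∑ j, a1 y j) + avg (fun y => nest n (a2 y)) := by
  have hD := far_D g hτ0 hτ1 hu0 hu1 hr0 hr1 a1 a2 ha1 ha2 hsum hΔ
  have hL := far_L g hu0 hu1 hr0 hr1 a1 a2 ha1 ha2 hsum b hb0 hb
  obtain ⟨P, hPd⟩ : ∃ P, P = avg (fun y => noiseOp τ g y * (1 - noiseOp τ g y)) := ⟨_, rfl⟩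
  obtain ⟨P1, hP1⟩ : ∃ P1, P1 = avg (fun y => ∑ j, a1 y j) := ⟨_, rfl⟩
  obtain ⟨P2, hP2⟩ : ∃ P2, P2 = avg (fun y => nest n (a2 y)) := ⟨_, rfl⟩
  obtain ⟨e, he⟩ : ∃ e, e = avg (fun y => noiseOp τ g y - normTrunc r (noiseOp τ g) y) := ⟨_, rfl⟩
  obtain ⟨a, ha⟩ : ∃ a, a = avg g := ⟨_, rfl⟩
  rw [← hPd] at hD hL hP
  rw [← hP1, ← hP2] at hD hL ⊢
  rw [← he, ← ha] at hL
  rw [← ha] at hD hm
  have hP0 : 0 ≤ P := by
    rw [hPd]
    exact avg_nonneg (fun y => mul_nonneg (hu0 y).le (by linarith [hu1 y]))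
  have hP10 : 0 ≤ P1 := by
    rw [hP1]; exact avg_nonneg (fun y => sum_nonneg (fun j _ => ha1 y j))
  have hr1' : r < 1 := by linarith
  have he0 : 0 ≤ e := by
    rw [he]
    exact avg_nonneg (fun y => (sub_normTrunc_bounds _ hu0 hu1 hr0 hr1' y).1)
  have he1 : e ≤ 2 * P := by
    have e' : 2 * P = avg (fun y => 2 * (noiseOp τ g y * (1 - noiseOp τ g y))) := by
      rw [avg_const_mul, hPd]
    rw [e', he]
    refine avg_mono (fun y => ?_)
    have h1 := (sub_normTrunc_bounds _ hu0 hu1 hr0 hr1' y).2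
    have hy := mul_nonneg (hu0 y).le (show 0 ≤ 1 - noiseOp τ g y by linarith [hu1 y])
    have h2 : noiseOp τ g y * (1 - noiseOp τ g y) / (1 - r) ≤
        noiseOp τ g y * (1 - noiseOp τ g y) / (1 / 2) :=
      div_le_div_of_nonneg_left hy (by norm_num) (by linarith)
    have h3 : noiseOp τ g y * (1 - noiseOp τ g y) / (1 / 2) =
        2 * (noiseOp τ g y * (1 - noiseOp τ g y)) := by ring
    linarith
  -- numerical control of the errors
  have hPr : 6 / r * P ≤ 6 / 10 ^ 14 := by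
    have : 6 / r * P ≤ 6 / r * (1 / 10 ^ 14 * r) := mul_le_mul_of_nonneg_left hP (by positivity)
    have e3 : 6 / r * (1 / 10 ^ 14 * r) = 6 / 10 ^ 14 := by field_simp
    linarith
  have hP3 : P ≤ 1 / 10 ^ 14 := by
    have : 1 / 10 ^ 14 * r ≤ 1 / 10 ^ 14 * 1 := mul_le_mul_of_nonneg_left hr1'.le (by positivity)
    linarith
  have hbig : (2 * (a - e) - 1) ^ 2 ≤ 2 * (2 * a - 1) ^ 2 + 8 * e ^ 2 := by
    nlinarith [sq_nonneg (2 * a - 1 + 2 * e)]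
  have hee : e ^ 2 ≤ 1 / 10 ^ 27 := by
    have h4 : e ≤ 2 / 10 ^ 14 := by linarith
    have h5 : e ^ 2 ≤ (2 / 10 ^ 14) ^ 2 := pow_le_pow_left₀ he0 h4 2
    norm_num at h5 ⊢
    linarith
  have hbb2 : (10:ℝ) ^ 13 * avg b ≤ 1 / 10 ^ 13 := by
    have := mul_le_mul_of_nonneg_left hbb (by positivity : (0:ℝ) ≤ 10 ^ 13)
    norm_num at this ⊢
    linarith
  by_contra hcon
  rw [not_le] at hcon
  norm_num at hD hL hcon hm hbig hPr hP3 hee hbb2
  linarith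

end Vale.Agent.Lib.P322
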