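import Vale.Agent.Lib.P322.FarCore

/-!
# Splitting the gradient and the lower bound for the edge functional in the far case
-/

namespace Vale.Agent.Lib.P322

open Finset Real

variable {n : ℕ}

lemma Fent_mono {a a' v : ℝ} (ha : 0 ≤ a) (haa : a ≤ a') (hv : 0 < v) : Fent a v ≤ Fent a' v := by
  unfold Fent
  have h0 : 0 ≤ a / v := div_nonneg ha hv.le
  have h1 : a / v ≤ a' / v := div_le_div_of_nonneg_right haa hv.le
  have h2 : log (1 + a / v) ≤ log (1 + a' / v) := Real.log_le_log (by linarith) (by linarith)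
  have h3 : 0 ≤ log (1 + a / v) := Real.log_nonneg (by linarith)
  exact mul_le_mul haa h2 h3 (ha.trans haa)

/-- The large part of the gradient, retained only near the top of the range. -/
noncomputable def bigPart (r θ v₀ : ℝ) (u : Cube n → ℝ) (y : Cube n) (j : Fin n) : ℝ :=
  if θ ≤ gradP (normTrunc r u) y j ∧ 1 - u y ≤ v₀ then gradP (normTrunc r u) y j else 0

/-- The rest of the gradient. -/
noncomputable def smallPart (r θ v₀ : ℝ) (u : Cube n → ℝ) (y : Cube n) (j : Fin n) : ℝ :=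
  gradP (normTrunc r u) y j - bigPart r θ v₀ u y j

/-- The indicator of the exceptional set. -/
noncomputable def badSet (r v₀ : ℝ) (u : Cube n → ℝ) (y : Cube n) : ℝ :=
  if v₀ < 1 - u y ∧ r < u y then 1 else 0

lemma bigPart_nonneg (r θ v₀ : ℝ) (u : Cube n → ℝ) (y : Cube n) (j : Fin n) :
    0 ≤ bigPart r θ v₀ u y j := by
  unfold bigPart
  split_ifs
  · exact gradP_nonneg _ _ _
  · exact le_rfl

lemma smallPart_nonneg (r θ v₀ : ℝ) (u : Cube n → ℝ) (y : Cube n) (j : Fin n) :
    0 ≤ smallPart r θ v₀ u y j := by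
  unfold smallPart bigPart
  split_ifs
  · simp
  · simpa using gradP_nonneg _ _ _

lemma add_parts (r θ v₀ : ℝ) (u : Cube n → ℝ) (y : Cube n) (j : Fin n) :
    bigPart r θ v₀ u y j + smallPart r θ v₀ u y j = gradP (normTrunc r u) y j := by
  unfold smallPart; ring

lemma badSet_nonneg (r v₀ : ℝ) (u : Cube n → ℝ) (y : Cube n) : 0 ≤ badSet r v₀ u y := by
  unfold badSet; split_ifs <;> norm_num

lemma gradP_normTrunc_le_one (u : Cube n → ℝ) (h1 : ∀ y, u y < 1) {r : ℝ} (hr1 : r < 1)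
    (y : Cube n) (j : Fin n) : gradP (normTrunc r u) y j ≤ 1 := by
  unfold gradP
  refine max_le ?_ zero_le_one
  have a := normTrunc_le_one u h1 hr1 y
  have b := normTrunc_nonneg u hr1 (flip j y)
  linarith

lemma gradP_normTrunc_zero (u : Cube n → ℝ) {r : ℝ} (hr1 : r < 1) {y : Cube n} (hy : u y ≤ r)
    (j : Fin n) : gradP (normTrunc r u) y j = 0 := by
  unfold gradP
  have h : normTrunc r u y = 0 := by
    unfold normTrunc trunc
    rw [max_eq_right (by linarith), zero_div]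
  rw [h]
  exact max_eq_right (by linarith [normTrunc_nonneg u hr1 (flip j y)])

lemma smallPart_le (u : Cube n → ℝ) (h1 : ∀ y, u y < 1) {r θ v₀ : ℝ} (hr1 : r < 1) (hθ : 0 ≤ θ)
    (y : Cube n) (j : Fin n) : smallPart r θ v₀ u y j ≤ θ + badSet r v₀ u y := by
  have hb := badSet_nonneg r v₀ u y
  unfold smallPart bigPart
  by_cases hc : θ ≤ gradP (normTrunc r u) y j ∧ 1 - u y ≤ v₀
  · rw [if_pos hc, sub_self]
    linarith
  · rw [if_neg hc, sub_zero]
    by_cases h2 : gradP (normTrunc r u) y j < θ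
    · linarith
    · rw [not_lt] at h2
      have h3 : v₀ < 1 - u y := by
        by_contra h4
        rw [not_lt] at h4
        exact hc ⟨h2, h4⟩
      by_cases h5 : r < u y
      · have : badSet r v₀ u y = 1 := by
          unfold badSet
          rw [if_pos ⟨h3, h5⟩]
        rw [this]
        linarith [gradP_normTrunc_le_one u h1 hr1 y j]
      · rw [not_lt] at h5
        rw [gradP_normTrunc_zero u hr1 h5 j]
        linarith

lemma badSet_le (u : Cube n → ℝ) (h0 : ∀ y, 0 < u y) (h1 : ∀ y, u y < 1) {r v₀ : ℝ} (hr0 : 0 < r)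
    (hv : 0 < v₀) (y : Cube n) : badSet r v₀ u y ≤ u y * (1 - u y) / (r * v₀) := by
  have hy := mul_nonneg (h0 y).le (show 0 ≤ 1 - u y by linarith [h1 y])
  unfold badSet
  split_ifs with hc
  · rw [le_div_iff₀ (by positivity), one_mul]
    exact mul_le_mul hc.2.le hc.1.le hv.le (h0 y).le
  · positivity

/-- Pointwise lower bound using the splitting. -/
lemma pointwise_split (u : Cube n → ℝ) (h0 : ∀ y, 0 < u y) (h1 : ∀ y, u y < 1) {r θ L : ℝ}
    (hr0 : 0 < r) (hr1 : r < 1) (hθ : 0 < θ) (y : Cube n) :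
    L * (1 - r) * (∑ j, bigPart r θ ((1 - r) * θ * exp (-L)) u y j +
        nest n (smallPart r θ ((1 - r) * θ * exp (-L)) u y)) -
      exp L / r * (u y * (1 - u y)) ≤ ∑ j, Fent (gradP u y j) (1 - u y) := by
  have hM : 0 < 1 - r := by linarith
  obtain ⟨v₀, hv₀⟩ : ∃ v₀, v₀ = (1 - r) * θ * exp (-L) := ⟨_, rfl⟩
  rw [← hv₀]
  have hv₀pos : 0 < v₀ := by rw [hv₀]; positivity
  have hv : 0 < 1 - u y := by linarith [h1 y]
  have hsum0 : 0 ≤ ∑ j, Fent (gradP u y j) (1 - u y) :=
    sum_nonneg (fun j _ => Fent_nonneg (gradP_nonneg u y j) hv)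
  have hexp : 0 < exp L / r := by positivity
  have hy0 := h0 y
  rcases le_or_gt (u y) r with hle | hgt
  · -- all parts vanish
    have hb : ∀ j, bigPart r θ v₀ u y j = 0 := by
      intro j
      unfold bigPart
      split_ifs
      · exact gradP_normTrunc_zero u hr1 hle j
      · rfl
    have hs : smallPart r θ v₀ u y = fun _ => 0 := by
      funext j
      unfold smallPart
      rw [hb, gradP_normTrunc_zero u hr1 hle j, sub_zero]
    rw [hs, nest_zero, sum_eq_zero (fun j _ => hb j), add_zero, mul_zero]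
    have : 0 ≤ exp L / r * (u y * (1 - u y)) := by positivity
    linarith
  · -- domination of the truncated gradient
    have hdom : ∀ j, (1 - r) * gradP (normTrunc r u) y j ≤ gradP u y j := by
      intro j
      rw [← gradP_normTrunc u hr1 y j]
      unfold gradP
      refine max_le ?_ (le_max_right _ _)
      refine le_trans ?_ (le_max_left _ _)
      have e : trunc r u y = u y - r := max_eq_left (by linarith)
      have e' : u (flip j y) - r ≤ trunc r u (flip j y) := le_max_left _ _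
      rw [e]
      linarith
    have hterm : ∀ j, L * (1 - r) * bigPart r θ v₀ u y j +
        Fent ((1 - r) * smallPart r θ v₀ u y j) (1 - u y) ≤ Fent (gradP u y j) (1 - u y) := by
      intro j
      have hA0 := gradP_nonneg (normTrunc r u) y j
      by_cases hc : θ ≤ gradP (normTrunc r u) y j ∧ 1 - u y ≤ v₀
      · have hb : bigPart r θ v₀ u y j = gradP (normTrunc r u) y j := by
          unfold bigPart; rw [if_pos hc]
        have hs : smallPart r θ v₀ u y j = 0 := by
          unfold smallPart; rw [hb, sub_self]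
        rw [hb, hs, mul_zero, Fent_zero_left, add_zero]
        refine le_trans ?_ (Fent_mono (mul_nonneg hM.le hA0) (hdom j) hv)
        unfold Fent
        have hratio : exp L ≤ (1 - r) * gradP (normTrunc r u) y j / (1 - u y) := by
          rw [le_div_iff₀ hv]
          have h3 : exp L * (1 - u y) ≤ exp L * v₀ :=
            mul_le_mul_of_nonneg_left hc.2 (exp_pos L).le
          have h4 : exp L * v₀ = (1 - r) * θ := by
            rw [hv₀, Real.exp_neg]
            field_simp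
          have h5 : (1 - r) * θ ≤ (1 - r) * gradP (normTrunc r u) y j :=
            mul_le_mul_of_nonneg_left hc.1 hM.le
          linarith
        have hlog : L ≤ log (1 + (1 - r) * gradP (normTrunc r u) y j / (1 - u y)) := by
          rw [Real.le_log_iff_exp_le (by have := exp_pos L; linarith)]
          linarith
        have hA1 : 0 ≤ (1 - r) * gradP (normTrunc r u) y j := mul_nonneg hM.le hA0
        nlinarith [mul_le_mul_of_nonneg_left hlog hA1]
      · have hb : bigPart r θ v₀ u y j = 0 := by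
          unfold bigPart; rw [if_neg hc]
        have hs : smallPart r θ v₀ u y j = gradP (normTrunc r u) y j := by
          unfold smallPart; rw [hb, sub_zero]
        rw [hb, hs, mul_zero, zero_add]
        exact Fent_mono (mul_nonneg hM.le hA0) (hdom j) hv
    have hsumterm := sum_le_sum (fun j (_ : j ∈ (univ : Finset (Fin n))) => hterm j)
    rw [sum_add_distrib, ← mul_sum] at hsumterm
    have hF := sum_Fent_ge (1 - u y) hv n (fun j => (1 - r) * smallPart r θ v₀ u y j)
      (fun j => mul_nonneg hM.le (smallPart_nonneg r θ v₀ u y j)) L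
    rw [nest_smul hM] at hF
    have h4 : exp L * (1 - u y) ≤ exp L / r * (u y * (1 - u y)) := by
      rw [div_mul_eq_mul_div, le_div_iff₀ hr0]
      have : r * (1 - u y) ≤ u y * (1 - u y) := mul_le_mul_of_nonneg_right hgt.le hv.le
      have he := Real.exp_pos L
      nlinarith
    have e5 : L * (1 - r) * (∑ j, bigPart r θ v₀ u y j + nest n (smallPart r θ v₀ u y)) =
        L * (1 - r) * ∑ j, bigPart r θ v₀ u y j + L * ((1 - r) * nest n (smallPart r θ v₀ u y)) := by
      ring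
    rw [e5]
    linarith

/-- The lower bound for the edge functional in the far case. -/
theorem Theta_far (g : Cube n → ℝ) {τ r L : ℝ} (hτ0 : 0 < τ) (hτ1 : τ < 1 / 2)
    (hu0 : ∀ y, 0 < noiseOp τ g y) (hu1 : ∀ y, noiseOp τ g y < 1) (hr0 : 0 < r) (hr1 : r ≤ 1 / 2)
    (hL : 0 ≤ L) (hΔ : 1 / 150000 ≤ 1 - 4 * lev1 g) (hm : (2 * avg g - 1) ^ 2 ≤ 1 / 10 ^ 13)
    (hP : avg (fun y => noiseOp τ g y * (1 - noiseOp τ g y)) ≤ 1 / 10 ^ 14 * r)
    (hbb : avg (fun y => noiseOp τ g y * (1 - noiseOp τ g y)) /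
      (r * ((1 - r) * (3 / 10 ^ 15) * exp (-L))) ≤ 1 / 10 ^ 26) :
    L * (1 - r) * (1 / 2 + 1 / 10 ^ 12) -
        exp L / r * avg (fun y => noiseOp τ g y * (1 - noiseOp τ g y)) ≤
      Theta (noiseOp τ g) := by
  have hr1' : r < 1 := by linarith
  have hM : 0 < 1 - r := by linarith
  obtain ⟨v₀, hv₀⟩ : ∃ v₀, v₀ = (1 - r) * (3 / 10 ^ 15) * exp (-L) := ⟨_, rfl⟩
  rw [← hv₀] at hbb
  have hv₀pos : 0 < v₀ := by rw [hv₀]; positivity
  have hb1 : avg (badSet r v₀ (noiseOp τ g)) ≤ 1 / 10 ^ 26 := by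
    refine le_trans ?_ hbb
    have e : avg (fun y => noiseOp τ g y * (1 - noiseOp τ g y)) / (r * v₀) =
        avg (fun y => noiseOp τ g y * (1 - noiseOp τ g y) / (r * v₀)) := by
      unfold avg
      rw [div_right_comm, Finset.sum_div]
    rw [e]
    exact avg_mono (fun y => badSet_le _ hu0 hu1 hr0 hv₀pos y)
  have hcore := far_core g hτ0 hτ1 hu0 hu1 hr0 hr1
    (bigPart r (3 / 10 ^ 15) v₀ (noiseOp τ g)) (smallPart r (3 / 10 ^ 15) v₀ (noiseOp τ g))
    (bigPart_nonneg _ _ _ _) (smallPart_nonneg _ _ _ _)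
    (add_parts _ _ _ _)
    (badSet r v₀ (noiseOp τ g)) (badSet_nonneg _ _ _)
    (smallPart_le _ hu1 hr1' (by norm_num)) hΔ hm hP hb1
  have hpw := avg_mono (fun y => pointwise_split (noiseOp τ g) hu0 hu1 hr0 hr1'
    (θ := 3 / 10 ^ 15) (L := L) (by norm_num) y)
  rw [← hv₀] at hpw
  rw [avg_sub, avg_const_mul, avg_const_mul, avg_add] at hpw
  have hLM : 0 ≤ L * (1 - r) := mul_nonneg hL hM.le
  have := mul_le_mul_of_nonneg_left hcore hLM
  unfold Theta
  linarith

/-- The complement of a noisy function is a noisy function. -/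
lemma noiseOp_compl (g : Cube n → ℝ) (τ : ℝ) :
    (fun z => 1 - noiseOp τ g z) = noiseOp τ (fun x => 1 - g x) := by
  funext z
  have := noiseOp_one_sub τ g z
  linarith

lemma coef_compl (g : Cube n → ℝ) (i : Fin n) : coef (fun x => 1 - g x) i = - coef g i := by
  unfold coef
  have e : (fun y => (1 - g y) * chi i y) = fun y => chi i y - g y * chi i y := by
    funext y; ring
  rw [e, avg_sub, avg_chi, zero_sub]

lemma lev1_compl (g : Cube n → ℝ) : lev1 (fun x => 1 - g x) = lev1 g := by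
  unfold lev1
  refine sum_congr rfl (fun i _ => ?_)
  rw [coef_compl]
  ring

/-- The derivative bound for both sides together. -/
theorem deriv_far (g : Cube n → ℝ) {τ r L : ℝ} (hτ0 : 0 < τ) (hτ1 : τ < 1 / 2)
    (hu0 : ∀ y, 0 < noiseOp τ g y) (hu1 : ∀ y, noiseOp τ g y < 1) (hr0 : 0 < r) (hr1 : r ≤ 1 / 2)
    (hL : 0 ≤ L) (hΔ : 1 / 150000 ≤ 1 - 4 * lev1 g) (hm : (2 * avg g - 1) ^ 2 ≤ 1 / 10 ^ 13)
    (hP : avg (fun y => noiseOp τ g y * (1 - noiseOp τ g y)) ≤ 1 / 10 ^ 14 * r)
    (hbb : avg (fun y => noiseOp τ g y * (1 - noiseOp τ g y)) /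
      (r * ((1 - r) * (3 / 10 ^ 15) * exp (-L))) ≤ 1 / 10 ^ 26) :
    L * (1 - r) * (1 + 2 / 10 ^ 12) - exp L / r * Hent g τ ≤
      (Theta (noiseOp τ g) + Theta (fun z => 1 - noiseOp τ g z)) / (1 - 2 * τ) := by
  have hρ : 0 < 1 - 2 * τ := by linarith
  have hρ1 : 1 - 2 * τ ≤ 1 := by linarith
  have t1 := Theta_far g hτ0 hτ1 hu0 hu1 hr0 hr1 hL hΔ hm hP hbb
  have hc := noiseOp_compl g τ
  have hu0' : ∀ y, 0 < noiseOp τ (fun x => 1 - g x) y := fun y => by
    rw [← hc]; linarith [hu1 y]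
  have hu1' : ∀ y, noiseOp τ (fun x => 1 - g x) y < 1 := fun y => by
    rw [← hc]; linarith [hu0 y]
  have eP : avg (fun y => noiseOp τ (fun x => 1 - g x) y *
      (1 - noiseOp τ (fun x => 1 - g x) y)) =
      avg (fun y => noiseOp τ g y * (1 - noiseOp τ g y)) := by
    rw [← hc]
    congr 1; funext y; ring
  have eA : (2 * avg (fun x => 1 - g x) - 1) ^ 2 = (2 * avg g - 1) ^ 2 := by
    rw [avg_sub, avg_const]; ring
  have t2 := Theta_far (fun x => 1 - g x) hτ0 hτ1 hu0' hu1' hr0 hr1 hL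
    (by rw [lev1_compl]; exact hΔ) (by rw [eA]; exact hm) (by rw [eP]; exact hP)
    (by rw [eP]; exact hbb)
  rw [eP, ← hc] at t2
  have hPH : 2 * avg (fun y => noiseOp τ g y * (1 - noiseOp τ g y)) ≤ Hent g τ := by
    rw [← avg_const_mul]
    exact avg_mono (fun y => binEntropy_ge (hu0 y) (hu1 y))
  have hT1 : 0 ≤ Theta (noiseOp τ g) := Theta_nonneg _ hu1
  have hT2 : 0 ≤ Theta (fun z => 1 - noiseOp τ g z) :=
    Theta_nonneg _ (fun y => by linarith [hu0 y])
  have hdiv : Theta (noiseOp τ g) + Theta (fun z => 1 - noiseOp τ g z) ≤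
      (Theta (noiseOp τ g) + Theta (fun z => 1 - noiseOp τ g z)) / (1 - 2 * τ) := by
    rw [le_div_iff₀ hρ]
    nlinarith
  refine le_trans ?_ hdiv
  have hexp : 0 ≤ exp L / r := by positivity
  have h5 := mul_le_mul_of_nonneg_left hPH hexp
  nlinarith

/-- The integrated inequality in the far case. -/
theorem integrated_far {g : Cube n → ℝ} (hg : ∀ x, g x = 0 ∨ g x = 1) {x₀ x₁ : Cube n}
    (hx₀ : g x₀ = 0) (hx₁ : g x₁ = 1) {ε r L : ℝ}
    (hε0 : 0 < ε) (hε1 : ε < 1 / 2) (hr0 : 0 < r) (hr1 : r ≤ 1 / 2) (hL : 0 ≤ L)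
    (hΔ : 1 / 150000 ≤ 1 - 4 * lev1 g) (hm : (2 * avg g - 1) ^ 2 ≤ 1 / 10 ^ 13)
    (hP : Hent g ε / 2 ≤ 1 / 10 ^ 14 * r)
    (hbb : Hent g ε / 2 / (r * ((1 - r) * (3 / 10 ^ 15) * exp (-L))) ≤ 1 / 10 ^ 26) :
    ε * (L * (1 - r) * (1 + 2 / 10 ^ 12)) ≤ (1 + ε * (exp L / r)) * Hent g ε := by
  let D : ℝ → ℝ := fun e =>
    (Theta (noiseOp e g) + Theta (fun z => 1 - noiseOp e g z)) / (1 - 2 * e)
  have hbds : ∀ e, 0 < e → e < 1 / 2 → ∀ y, 0 < noiseOp e g y ∧ noiseOp e g y < 1 :=
    fun e h0 h1 y => noiseOp_bounds hg hx₀ hx₁ h0 (by linarith) y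
  have hD : ∀ e ∈ Set.Ioo 0 ε, HasDerivAt (Hent g) (D e) e := by
    intro e he
    have h2 : e < 1 / 2 := by linarith [he.2]
    exact hasDerivAt_Hent' (by linarith) g (fun y => (hbds e he.1 h2 y).1)
      (fun y => (hbds e he.1 h2 y).2)
  have hDnn : ∀ e ∈ Set.Ioo 0 ε, 0 ≤ D e := by
    intro e he
    have h2 : e < 1 / 2 := by linarith [he.2]
    refine div_nonneg (add_nonneg ?_ ?_) (by linarith)
    · exact Theta_nonneg _ (fun y => (hbds e he.1 h2 y).2)
    · exact Theta_nonneg _ (fun y => by linarith [(hbds e he.1 h2 y).1])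
  obtain ⟨τ, hτ, hslope⟩ := exists_hasDerivAt_eq_slope (Hent g) D hε0
    (continuous_Hent g).continuousOn hD
  rw [Hent_zero hg, sub_zero, sub_zero] at hslope
  have hτ2 : τ < 1 / 2 := by linarith [hτ.2]
  -- monotonicity
  have hmon : Hent g τ ≤ Hent g ε := by
    obtain ⟨c, hc, hs⟩ := exists_hasDerivAt_eq_slope (Hent g) D hτ.2
      (continuous_Hent g).continuousOn
      (fun e he => hD e ⟨hτ.1.trans he.1, he.2⟩)
    have h1 := hDnn c ⟨hτ.1.trans hc.1, hc.2⟩
    rw [hs] at h1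
    have h2 : 0 < ε - τ := by linarith [hτ.2]
    have h3 := (div_nonneg_iff.1 h1)
    rcases h3 with h3 | h3
    · linarith [h3.1]
    · linarith [h3.2]
  have hu0 := fun y => (hbds τ hτ.1 hτ2 y).1
  have hu1 := fun y => (hbds τ hτ.1 hτ2 y).2
  -- the variance-like quantity is controlled by the entropy
  have hPH : avg (fun y => noiseOp τ g y * (1 - noiseOp τ g y)) ≤ Hent g ε / 2 := by
    have h1 : 2 * avg (fun y => noiseOp τ g y * (1 - noiseOp τ g y)) ≤ Hent g τ := by
      rw [← avg_const_mul]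
      exact avg_mono (fun y => binEntropy_ge (hu0 y) (hu1 y))
    linarith
  have hM : 0 < 1 - r := by linarith
  have hlow := deriv_far g hτ.1 hτ2 hu0 hu1 hr0 hr1 hL hΔ hm (hPH.trans hP)
    (le_trans (div_le_div_of_nonneg_right hPH (by positivity)) hbb)
  have hlow' : L * (1 - r) * (1 + 2 / 10 ^ 12) - exp L / r * Hent g τ ≤ D τ := hlow
  rw [hslope] at hlow'
  have hexp : 0 ≤ exp L / r := by positivity
  have h5 : exp L / r * Hent g τ ≤ exp L / r * Hent g ε := mul_le_mul_of_nonneg_left hmon hexp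
  have h6 : L * (1 - r) * (1 + 2 / 10 ^ 12) - exp L / r * Hent g ε ≤ Hent g ε / ε := by linarith
  rw [le_div_iff₀ hε0] at h6
  nlinarith

end Vale.Agent.Lib.P322
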