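import Vale.Agent.Lib.P322.Poincare

/-!
# The noise operator and the entropy flow
-/

namespace Vale.Agent.Lib.P322

open Finset Real

variable {n : ℕ}

/-- The noise operator applied to a function. -/
noncomputable def noiseOp (ε : ℝ) (g : Cube n → ℝ) (y : Cube n) : ℝ := ∑ x, g x * noisePr ε x y

lemma noisePr_comm (ε : ℝ) (x y : Cube n) : noisePr ε x y = noisePr ε y x := by
  unfold noisePr
  refine prod_congr rfl (fun i _ => ?_)
  by_cases h : x i = y i
  · rw [if_pos h, if_pos h.symm]
  · rw [if_neg h, if_neg (fun h' => h h'.symm)]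

lemma noisePr_cons (ε : ℝ) (a b : Bool) (x y : Cube n) :
    noisePr ε (Fin.cons a x : Cube (n + 1)) (Fin.cons b y) =
      (if a = b then 1 - ε else ε) * noisePr ε x y := by
  simp [noisePr, Fin.prod_univ_succ]

lemma sum_noisePr_left (ε : ℝ) : ∀ {n : ℕ} (y : Cube n), ∑ x, noisePr ε x y = 1 := by
  intro n
  induction n with
  | zero => intro y; simp [noisePr]
  | succ n ih =>
      intro y
      rw [sum_cube_succ]
      have hy : y = Fin.cons (y 0) (Fin.tail y) := (Fin.cons_self_tail y).symm
      rw [hy]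
      simp only [noisePr_cons, ← mul_sum, ih]
      cases y 0 <;> simp

lemma sum_noisePr_right (ε : ℝ) (x : Cube n) : ∑ y, noisePr ε x y = 1 := by
  simp_rw [noisePr_comm ε x]
  exact sum_noisePr_left ε x

lemma noisePr_pos {ε : ℝ} (h0 : 0 < ε) (h1 : ε < 1) (x y : Cube n) : 0 < noisePr ε x y := by
  refine prod_pos (fun i _ => ?_)
  split_ifs <;> linarith

lemma noisePr_nonneg {ε : ℝ} (h0 : 0 ≤ ε) (h1 : ε ≤ 1) (x y : Cube n) : 0 ≤ noisePr ε x y := by
  refine prod_nonneg (fun i _ => ?_)
  split_ifs <;> linarith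

lemma noisePr_zero (x y : Cube n) : noisePr 0 x y = if x = y then 1 else 0 := by
  unfold noisePr
  split_ifs with h
  · subst h; simp
  · obtain ⟨i, hi⟩ := Function.ne_iff.1 h
    exact prod_eq_zero (mem_univ i) (by simp [hi])

lemma noiseOp_zero (g : Cube n → ℝ) (y : Cube n) : noiseOp 0 g y = g y := by
  unfold noiseOp
  simp [noisePr_zero]

lemma avg_noiseOp (ε : ℝ) (g : Cube n → ℝ) : avg (noiseOp ε g) = avg g := by
  unfold avg noiseOp
  rw [sum_comm]
  congr 1
  refine sum_congr rfl (fun x _ => ?_)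
  rw [← mul_sum, sum_noisePr_right, mul_one]

lemma noiseOp_one_sub (ε : ℝ) (g : Cube n → ℝ) (y : Cube n) :
    noiseOp ε (fun x => 1 - g x) y = 1 - noiseOp ε g y := by
  unfold noiseOp
  simp only [sub_mul, one_mul, sum_sub_distrib, sum_noisePr_left]

lemma noisePr_flip_sub (ε : ℝ) (x y : Cube n) (j : Fin n) :
    noisePr ε x (flip j y) - noisePr ε x y =
      (1 - 2 * ε) * ((∏ i ∈ univ.erase j, if x i = y i then 1 - ε else ε) *
        (if x j = y j then -1 else 1)) := by
  have h1 : noisePr ε x y = (if x j = y j then 1 - ε else ε) *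
      ∏ i ∈ univ.erase j, if x i = y i then 1 - ε else ε :=
    (mul_prod_erase univ _ (mem_univ j)).symm
  have h2 : noisePr ε x (flip j y) = (if x j = flip j y j then 1 - ε else ε) *
      ∏ i ∈ univ.erase j, if x i = y i then 1 - ε else ε := by
    rw [noisePr, ← mul_prod_erase univ _ (mem_univ j)]
    congr 1
    refine prod_congr rfl (fun i hi => ?_)
    rw [flip_ne (ne_of_mem_erase hi)]
  rw [h1, h2]
  by_cases h : x j = y j
  · have h' : x j ≠ flip j y j := by simp [h]
    rw [if_pos h, if_neg h', if_pos h]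
    ring
  · have h' : x j = flip j y j := by
      simp only [flip_same]
      cases hx : x j <;> cases hy : y j <;> simp_all
    rw [if_neg h, if_pos h', if_neg h]
    ring

lemma hasDerivAt_noisePr {ε : ℝ} (hρ : 1 - 2 * ε ≠ 0) (x y : Cube n) :
    HasDerivAt (fun e => noisePr e x y)
      ((∑ j, (noisePr ε x (flip j y) - noisePr ε x y)) / (1 - 2 * ε)) ε := by
  have each : ∀ i ∈ (univ : Finset (Fin n)),
      HasDerivAt (fun e : ℝ => if x i = y i then 1 - e else e)
        (if x i = y i then -1 else 1) ε := by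
    intro i _
    by_cases h : x i = y i
    · simp only [h, if_true]
      simpa using (hasDerivAt_id ε).const_sub 1
    · simp only [h, if_false]
      exact hasDerivAt_id ε
  have hp := HasDerivAt.fun_finsetProd each
  refine HasDerivAt.congr_deriv hp ?_
  rw [eq_div_iff hρ, sum_mul]
  refine sum_congr rfl (fun j _ => ?_)
  rw [noisePr_flip_sub ε x y j, smul_eq_mul]
  ring

lemma hasDerivAt_noiseOp {ε : ℝ} (hρ : 1 - 2 * ε ≠ 0) (g : Cube n → ℝ) (y : Cube n) :
    HasDerivAt (fun e => noiseOp e g y)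
      ((∑ j, (noiseOp ε g (flip j y) - noiseOp ε g y)) / (1 - 2 * ε)) ε := by
  have each : ∀ x ∈ (univ : Finset (Cube n)),
      HasDerivAt (fun e => g x * noisePr e x y)
        (g x * ((∑ j, (noisePr ε x (flip j y) - noisePr ε x y)) / (1 - 2 * ε))) ε :=
    fun x _ => (hasDerivAt_noisePr hρ x y).const_mul (g x)
  have hs := HasDerivAt.fun_sum each
  refine HasDerivAt.congr_deriv hs ?_
  unfold noiseOp
  rw [eq_div_iff hρ, sum_mul]
  simp_rw [mul_assoc, div_mul_cancel₀ _ hρ, mul_sum, mul_sub, sum_sub_distrib]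
  have e1 := sum_comm (s := (univ : Finset (Cube n))) (t := (univ : Finset (Fin n)))
    (f := fun x j => g x * noisePr ε x (flip j y))
  have e2 := sum_comm (s := (univ : Finset (Cube n))) (t := (univ : Finset (Fin n)))
    (f := fun x _ => g x * noisePr ε x y)
  rw [e1, e2]

/-- The conditional entropy functional. -/
noncomputable def Hent (g : Cube n → ℝ) (ε : ℝ) : ℝ := avg (fun y => binEntropy (noiseOp ε g y))

/-- The function `log(1-p) - log p`. -/
noncomputable def logitN (p : ℝ) : ℝ := log (1 - p) - log p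

lemma hasDerivAt_Hent {ε : ℝ} (hρ : 1 - 2 * ε ≠ 0) (g : Cube n → ℝ)
    (h0 : ∀ y, 0 < noiseOp ε g y) (h1 : ∀ y, noiseOp ε g y < 1) :
    HasDerivAt (Hent g)
      (avg (fun y => logitN (noiseOp ε g y) *
        ((∑ j, (noiseOp ε g (flip j y) - noiseOp ε g y)) / (1 - 2 * ε)))) ε := by
  have each : ∀ y ∈ (univ : Finset (Cube n)),
      HasDerivAt (fun e => binEntropy (noiseOp e g y))
        (logitN (noiseOp ε g y) *
          ((∑ j, (noiseOp ε g (flip j y) - noiseOp ε g y)) / (1 - 2 * ε))) ε := by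
    intro y _
    have h := hasDerivAt_binEntropy (h0 y).ne' (h1 y).ne
    exact HasDerivAt.comp ε h (hasDerivAt_noiseOp hρ g y)
  have hs := (HasDerivAt.fun_sum each).div_const ((2 : ℝ) ^ n)
  exact hs

/-- The edge identity. -/
lemma edge_identity_aux {p q : ℝ} (hq0 : 0 < q) (hpq : q ≤ p) (hp1 : p < 1) :
    logitN p * (q - p) + logitN q * (p - q) =
      Fent (max (p - q) 0) (1 - p) + Fent (max (q - p) 0) p +
        (Fent (max (q - p) 0) (1 - q) + Fent (max (p - q) 0) q) := by
  have hp0 : 0 < p := lt_of_lt_of_le hq0 hpq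
  have h1p : 0 < 1 - p := by linarith
  have h1q : 0 < 1 - q := by linarith
  have e1 : max (p - q) 0 = p - q := max_eq_left (by linarith)
  have e2 : max (q - p) 0 = 0 := max_eq_right (by linarith)
  rw [e1, e2]
  have f1 : Fent (p - q) (1 - p) = (p - q) * (log (1 - q) - log (1 - p)) := by
    unfold Fent
    have : 1 + (p - q) / (1 - p) = (1 - q) / (1 - p) := by field_simp; ring
    rw [this, Real.log_div h1q.ne' h1p.ne']
  have f2 : Fent (p - q) q = (p - q) * (log p - log q) := by
    unfold Fent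
    have : 1 + (p - q) / q = p / q := by field_simp; ring
    rw [this, Real.log_div hp0.ne' hq0.ne']
  rw [f1, f2]
  simp [Fent, logitN]
  ring

lemma edge_identity {p q : ℝ} (hp0 : 0 < p) (hp1 : p < 1) (hq0 : 0 < q) (hq1 : q < 1) :
    logitN p * (q - p) + logitN q * (p - q) =
      Fent (max (p - q) 0) (1 - p) + Fent (max (q - p) 0) p +
        (Fent (max (q - p) 0) (1 - q) + Fent (max (p - q) 0) q) := by
  rcases le_total q p with h | h
  · exact edge_identity_aux hq0 h hp1
  · have := edge_identity_aux hp0 h hq1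
    linarith

/-- The edge functional of a function. -/
noncomputable def Theta (w : Cube n → ℝ) : ℝ :=
  avg (fun y => ∑ j, Fent (gradP w y j) (1 - w y))

/-- Summation-by-parts for a single direction. -/
lemma symm_one (u : Cube n → ℝ) (h0 : ∀ y, 0 < u y) (h1 : ∀ y, u y < 1) (j : Fin n) :
    ∑ y, logitN (u y) * (u (flip j y) - u y) =
      ∑ y, (Fent (gradP u y j) (1 - u y) +
        Fent (gradP (fun z => 1 - u z) y j) (1 - (1 - u y))) := by
  have key : ∀ y, logitN (u y) * (u (flip j y) - u y) +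
      logitN (u (flip j y)) * (u (flip j (flip j y)) - u (flip j y)) =
      (Fent (gradP u y j) (1 - u y) +
        Fent (gradP (fun z => 1 - u z) y j) (1 - (1 - u y))) +
      (Fent (gradP u (flip j y) j) (1 - u (flip j y)) +
        Fent (gradP (fun z => 1 - u z) (flip j y) j) (1 - (1 - u (flip j y)))) := by
    intro y
    simp only [flip_flip, gradP]
    have e := edge_identity (h0 y) (h1 y) (h0 (flip j y)) (h1 (flip j y))
    have e1 : 1 - u y - (1 - u (flip j y)) = u (flip j y) - u y := by ring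
    have e2 : 1 - u (flip j y) - (1 - u y) = u y - u (flip j y) := by ring
    have e3 : 1 - (1 - u y) = u y := by ring
    have e4 : 1 - (1 - u (flip j y)) = u (flip j y) := by ring
    rw [e1, e2, e3, e4]
    exact e
  have hsum := sum_congr rfl (fun y (_ : y ∈ (univ : Finset (Cube n))) => key y)
  rw [sum_add_distrib, sum_add_distrib] at hsum
  have f1 := sum_flip j (fun y => logitN (u y) * (u (flip j y) - u y))
  have f2 := sum_flip j (fun y => Fent (gradP u y j) (1 - u y) +
        Fent (gradP (fun z => 1 - u z) y j) (1 - (1 - u y)))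
  beta_reduce at f1 f2
  linarith

/-- The flow identity. -/
lemma flow_identity (u : Cube n → ℝ) (h0 : ∀ y, 0 < u y) (h1 : ∀ y, u y < 1) :
    avg (fun y => logitN (u y) * ∑ j, (u (flip j y) - u y)) =
      Theta u + Theta (fun z => 1 - u z) := by
  unfold Theta
  rw [← avg_add]
  unfold avg
  congr 1
  simp only [mul_sum]
  rw [sum_comm]
  simp only [symm_one u h0 h1]
  rw [sum_comm]
  refine sum_congr rfl (fun y _ => ?_)
  rw [sum_add_distrib]

lemma Theta_nonneg (w : Cube n → ℝ) (h1 : ∀ y, w y < 1) : 0 ≤ Theta w := by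
  refine avg_nonneg (fun y => sum_nonneg (fun j _ => ?_))
  exact Fent_nonneg (gradP_nonneg w y j) (by linarith [h1 y])

/-- The flow identity in derivative form. -/
lemma hasDerivAt_Hent' {ε : ℝ} (hρ : 1 - 2 * ε ≠ 0) (g : Cube n → ℝ)
    (h0 : ∀ y, 0 < noiseOp ε g y) (h1 : ∀ y, noiseOp ε g y < 1) :
    HasDerivAt (Hent g)
      ((Theta (noiseOp ε g) + Theta (fun z => 1 - noiseOp ε g z)) / (1 - 2 * ε)) ε := by
  refine (hasDerivAt_Hent hρ g h0 h1).congr_deriv ?_
  rw [← flow_identity (noiseOp ε g) h0 h1, ← mul_one_div, mul_comm (avg _), ← avg_const_mul]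
  congr 1
  funext y
  field_simp

end Vale.Agent.Lib.P322
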