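import Vale.Agent.Lib.P322.Duality

/-!
# The lifted Bellman function with additive treatment of large gradients
-/

namespace Vale.Agent.Lib.P322

open Finset Real

variable {n : ℕ}

/-- The lifted Bellman function: value `51/100` at `1/2`. -/
noncomputable def Ghat (r : ℝ) : ℝ := (1 - (2 * r - 1) ^ 2) * (51 / 100 + 1 / 50 * (2 * r - 1) ^ 2)

lemma Ghat_diff (x y : ℝ) :
    Ghat x + Ghat y - 2 * Ghat ((x + y) / 2) =
      -((x - y) ^ 2 * (98 / 100 + 24 / 100 * (x + y - 1) ^ 2 + 4 / 100 * (x - y) ^ 2)) := by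
  unfold Ghat
  ring

lemma Ghat_nonneg {r : ℝ} (h0 : 0 ≤ r) (h1 : r ≤ 1) : 0 ≤ Ghat r := by
  unfold Ghat
  have : (2 * r - 1) ^ 2 ≤ 1 := by nlinarith
  have h2 : 0 ≤ (2 * r - 1) ^ 2 := sq_nonneg _
  exact mul_nonneg (by linarith) (by linarith)

lemma Ghat_zero : Ghat 0 = 0 := by norm_num [Ghat]

lemma Ghat_le {r : ℝ} (h0 : 0 ≤ r) (h1 : r ≤ 1) : Ghat r ≤ 3 * (1 - r) := by
  unfold Ghat
  have h2 : (2 * r - 1) ^ 2 ≤ 1 := by nlinarith
  have h3 : 0 ≤ (2 * r - 1) ^ 2 := sq_nonneg _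
  have h4 : (1 - (2 * r - 1) ^ 2) * (51 / 100 + 1 / 50 * (2 * r - 1) ^ 2) ≤
      (1 - (2 * r - 1) ^ 2) * (53 / 100) :=
    mul_le_mul_of_nonneg_left (by linarith) (by linarith)
  have h5 : 1 - (2 * r - 1) ^ 2 = 4 * r * (1 - r) := by ring
  rw [h5] at h4 ⊢
  have h6 : 0 ≤ 1 - r := by linarith
  nlinarith

lemma Ghat_ge (r : ℝ) (h0 : 0 ≤ r) (h1 : r ≤ 1) : 51 / 100 - (2 * r - 1) ^ 2 ≤ Ghat r := by
  unfold Ghat
  have h2 : (2 * r - 1) ^ 2 ≤ 1 := by nlinarith
  have h3 : 0 ≤ (2 * r - 1) ^ 2 := sq_nonneg _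
  nlinarith

lemma Ghat_sub_G0 {r : ℝ} (h0 : 0 ≤ r) (h1 : r ≤ 1) :
    0 ≤ Ghat r - G0 r ∧ Ghat r - G0 r ≤ 1 / 80 := by
  have e : Ghat r - G0 r = (1 - (2 * r - 1) ^ 2) * (1 / 100 + 1 / 50 * (2 * r - 1) ^ 2) := by
    unfold Ghat G0; ring
  have h2 : (2 * r - 1) ^ 2 ≤ 1 := by nlinarith
  have h3 : 0 ≤ (2 * r - 1) ^ 2 := sq_nonneg _
  rw [e]
  constructor
  · exact mul_nonneg (by linarith) (by linarith)
  · set w := (2 * r - 1) ^ 2
    nlinarith [sq_nonneg (w - 1 / 4)]

/-- A polynomial estimate. -/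
lemma poly_small {w q A E : ℝ} (hw0 : 0 ≤ w) (hw1 : w ≤ 1) (hq0 : 0 ≤ q) (hq1 : q ≤ 1 / 25600)
    (hA : 2 * A ≤ 102 / 100 - 98 / 100 * w) (hE0 : 0 ≤ E)
    (hE : E ≤ 98 / 100 + 48 / 100 * w + 52 / 100 * q) : 2 * A * E ≤ 1 := by
  have a1 : 2 * A * E ≤ (102 / 100 - 98 / 100 * w) * E := mul_le_mul_of_nonneg_right hA hE0
  have a2 : (102 / 100 - 98 / 100 * w) * E ≤
      (102 / 100 - 98 / 100 * w) * (98 / 100 + 48 / 100 * w + 52 / 100 * q) :=
    mul_le_mul_of_nonneg_left hE (by linarith)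
  have a3 : 0 ≤ w * w := mul_nonneg hw0 hw0
  have a4 : 0 ≤ w * q := mul_nonneg hw0 hq0
  have e : (102 / 100 - 98 / 100 * w) * (98 / 100 + 48 / 100 * w + 52 / 100 * q) =
      9996 / 10000 - 4708 / 10000 * w - 4704 / 10000 * (w * w) + 5304 / 10000 * q -
        5096 / 10000 * (w * q) := by ring
  rw [e] at a2
  linarith

/-- Two-point inequality for small jumps. -/
lemma Ghat_small {x y : ℝ} (hy : 0 ≤ y) (hxy : y ≤ x) (hx : x ≤ 1) (hs : x - y ≤ 1 / 160) :
    2 * Ghat ((x + y) / 2) ≤ Nstar (Ghat x) (x - y) + Ghat y := by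
  have hx0 : 0 ≤ x := hy.trans hxy
  have hd := Ghat_diff x y
  have hA0 := Ghat_nonneg hx0 hx
  set s := x - y with hsdef
  set t := x + y - 1 with htdef
  have hs0 : 0 ≤ s := by rw [hsdef]; linarith
  set E := 98 / 100 + 24 / 100 * t ^ 2 + 4 / 100 * s ^ 2 with hE
  set z := 2 * x - 1 with hz
  have hzt : t = z - s := by rw [htdef, hz, hsdef]; ring
  have hz2 : z ^ 2 ≤ 1 := by rw [hz]; nlinarith
  have hz20 : 0 ≤ z ^ 2 := sq_nonneg z
  have ht2 : t ^ 2 ≤ 1 := by rw [htdef]; nlinarith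
  have hs2 : s ^ 2 ≤ 1 / 25600 := by nlinarith
  have hE1 : E ≤ 63 / 50 := by rw [hE]; nlinarith
  have hE0 : 0 ≤ E := by rw [hE]; positivity
  unfold Nstar
  split_ifs with h
  · rcases hA0.eq_or_lt with h0 | hApos
    · have hs00 : s = 0 := le_antisymm (by rw [← h0] at h; exact h) hs0
      have hq : 0 ≤ s ^ 2 / (2 * Ghat x) := by
        rw [← h0]; simp
      rw [hs00] at hd
      simp only [ne_eq, OfNat.ofNat_ne_zero, not_false_eq_true, zero_pow, zero_mul, neg_zero] at hd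
      linarith
    · have hAz : 2 * Ghat x ≤ 102 / 100 - 98 / 100 * z ^ 2 := by
        have : Ghat x = (1 - z ^ 2) * (51 / 100 + 1 / 50 * z ^ 2) := by
          unfold Ghat; rw [hz]
        rw [this]
        have := sq_nonneg (z ^ 2)
        nlinarith
      have hEz : E ≤ 98 / 100 + 48 / 100 * z ^ 2 + 52 / 100 * s ^ 2 := by
        rw [hE, hzt]
        nlinarith [sq_nonneg (z + s)]
      have hprod : 2 * Ghat x * E ≤ 1 :=
        poly_small hz20 hz2 (sq_nonneg s) hs2 hAz hE0 hEz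
      have : s ^ 2 * E ≤ s ^ 2 / (2 * Ghat x) := by
        rw [le_div_iff₀ (by positivity)]
        have := mul_le_mul_of_nonneg_left hprod (sq_nonneg s)
        nlinarith
      linarith
  · rw [not_le] at h
    have : s ^ 2 * E ≤ s / 2 := by
      have h2 : s * E ≤ 1 / 2 := by
        have h3 : s * E ≤ (1 / 160) * (63 / 50) := mul_le_mul hs hE1 hE0 (by norm_num)
        have h4 : ((1:ℝ) / 160) * (63 / 50) ≤ 1 / 2 := by norm_num
        linarith
      have h5 := mul_le_mul_of_nonneg_left h2 hs0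
      have e : s ^ 2 * E = s * (s * E) := by ring
      rw [e]
      linarith
    linarith

/-- Two-point inequality for big jumps with additive gain. -/
lemma Ghat_big {x y η θ : ℝ} (hy : 0 ≤ y) (hxy : y ≤ x) (hx : x ≤ 1) (hs : 1 / 160 ≤ x - y)
    (hη0 : 0 ≤ η) (hη1 : η ≤ 1) (hθ0 : 0 ≤ θ) (hθ : θ ≤ η / 16000) :
    2 * Ghat ((x + y) / 2) ≤ (1 + (1 + η) / 50) * (x - y - θ) + Ghat x + Ghat y := by
  have hd := Ghat_diff x y
  set s := x - y with hsdef
  set t := x + y - 1 with htdef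
  set E := 98 / 100 + 24 / 100 * t ^ 2 + 4 / 100 * s ^ 2 with hE
  have hs0 : 0 ≤ s := by linarith
  have hs1 : s ≤ 1 := by rw [hsdef]; linarith
  have ht : t ^ 2 ≤ (1 - s) ^ 2 := by
    rw [htdef, hsdef]
    have h1 : 0 ≤ (1 - x) * y := mul_nonneg (by linarith) hy
    have h2 : 0 ≤ x * (1 - y) := mul_nonneg (hy.trans hxy) (by linarith)
    nlinarith
  have hsE : s * E ≤ 102 / 100 := by
    have h1 : E ≤ 98 / 100 + 24 / 100 * (1 - s) ^ 2 + 4 / 100 * s ^ 2 := by rw [hE]; linarith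
    have h2 : s * E ≤ s * (98 / 100 + 24 / 100 * (1 - s) ^ 2 + 4 / 100 * s ^ 2) :=
      mul_le_mul_of_nonneg_left h1 hs0
    have h3 : 0 ≤ (1 - s) * (102 / 100 + 4 / 100 * s + 4 / 100 * s ^ 2 - 24 / 100 * (s * (1 - s))) := by
      apply mul_nonneg (by linarith)
      nlinarith [sq_nonneg (s - 1 / 2), sq_nonneg s]
    nlinarith
  have h4 : s ^ 2 * E ≤ 102 / 100 * s := by nlinarith
  have h5 : (1 + (1 + η) / 50) * θ ≤ η * s / 50 := by
    have : (1 + (1 + η) / 50) * θ ≤ 2 * θ := by nlinarith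
    have h6 : η / 8000 ≤ η * s / 50 := by nlinarith
    linarith
  nlinarith

lemma Nstar_add_le {A B C D : ℝ} (hA : 0 ≤ A) (hB : 0 ≤ B) (hC : 0 ≤ C) (hD : 0 ≤ D) :
    Nstar (A + C) (B + D) ≤ Nstar A B + C + D := by
  obtain ⟨r, h0, h1, e⟩ := Nstar_eq_linear (add_nonneg hA hC) (add_nonneg hB hD)
  rw [e]
  have hl := Nstar_ge_linear hA hB h0 h1
  have hr2 : 0 ≤ r ^ 2 := sq_nonneg r
  nlinarith

lemma nest_add_le : ∀ (n : ℕ) (a b : Fin n → ℝ), (∀ i, 0 ≤ a i) → (∀ i, 0 ≤ b i) →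
    nest n (fun i => a i + b i) ≤ ∑ i, a i + nest n b
  | 0, _, _, _, _ => by simp [nest]
  | n + 1, a, b, ha, hb => by
      rw [Fin.sum_univ_succ]
      show Nstar (nest n fun i => a i.succ + b i.succ) (a 0 + b 0) ≤ _ + Nstar (nest n fun i => b i.succ) (b 0)
      have ih := nest_add_le n (fun i => a i.succ) (fun i => b i.succ) (fun i => ha _) (fun i => hb _)
      have hn1 := nest_nonneg n (fun i => a i.succ + b i.succ) (fun i => add_nonneg (ha _) (hb _))
      have hn2 := nest_nonneg n (fun i => b i.succ) (fun i => hb _)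
      have hs : 0 ≤ ∑ i : Fin n, a i.succ := sum_nonneg (fun i _ => ha _)
      have m := Nstar_mono hn1 (add_nonneg (ha 0) (hb 0)) ih (le_refl _)
      rw [add_comm (∑ i : Fin n, a i.succ)] at m
      have a1 := Nstar_add_le hn2 (hb 0) hs (ha 0)
      rw [add_comm (b 0)] at a1
      linarith

/-- Lower bound for the hi side, small jump. -/
lemma node_hi_small {u v A α β F : Cube n → ℝ} {κ' : ℝ} (hκ : 1 ≤ κ')
    (hA : ∀ y, 0 ≤ A y) (hα : ∀ y, 0 ≤ α y) (hβ : ∀ y, 0 ≤ β y)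
    (hαβ : ∀ y, α y + β y = max (u y - v y) 0)
    (hF : ∀ y, κ' * α y + Nstar (A y) (β y) ≤ F y) (huv : avg v ≤ avg u) :
    Nstar (avg A) (avg u - avg v) ≤ avg F := by
  have hA0 := avg_nonneg hA
  obtain ⟨r, h0, h1, e⟩ := Nstar_eq_linear hA0 (by linarith : 0 ≤ avg u - avg v)
  rw [e]
  have hs := avg_max_ge u v
  have hp : avg (fun y => (1 - r ^ 2 / 2) * A y + r * max (u y - v y) 0) ≤ avg F := by
    refine avg_mono (fun y => ?_)
    have h2 := Nstar_ge_linear (hA y) (hβ y) h0 h1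
    have h3 := hF y
    rw [← hαβ y]
    have h4 : r * α y ≤ κ' * α y := mul_le_mul_of_nonneg_right (by linarith) (hα y)
    nlinarith
  rw [avg_add, avg_const_mul, avg_const_mul] at hp
  have := mul_le_mul_of_nonneg_left hs h0
  linarith

/-- Lower bound for the hi side, big jump. -/
lemma node_hi_big {u v A α β F : Cube n → ℝ} {κ' : ℝ} (hκ : 0 ≤ κ')
    (hA : ∀ y, 0 ≤ A y) (hβ : ∀ y, 0 ≤ β y)
    (hαβ : ∀ y, α y + β y = max (u y - v y) 0)
    (hF : ∀ y, κ' * α y + Nstar (A y) (β y) ≤ F y) :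
    κ' * (avg u - avg v - avg β) + avg A ≤ avg F := by
  have hs := avg_max_ge u v
  have hp : avg (fun y => κ' * α y + A y) ≤ avg F := by
    refine avg_mono (fun y => ?_)
    have h2 := Nstar_ge_linear (hA y) (hβ y) (le_refl 0) (by norm_num : (0:ℝ) ≤ 1)
    have h3 := hF y
    simp only [ne_eq, OfNat.ofNat_ne_zero, not_false_eq_true, zero_pow, zero_div, sub_zero,
      one_mul, zero_mul, add_zero] at h2
    linarith
  rw [avg_add, avg_const_mul] at hp
  have e : avg α = avg (fun y => max (u y - v y) 0) - avg β := by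
    rw [← avg_sub]
    congr 1; funext y
    rw [← hαβ y]; ring
  rw [e] at hp
  have := mul_le_mul_of_nonneg_left hs hκ
  linarith

/-- Lower bound for the lo side. -/
lemma node_lo {A α β F : Cube n → ℝ} {κ' : ℝ} (hκ : 0 ≤ κ')
    (hA : ∀ y, 0 ≤ A y) (hα : ∀ y, 0 ≤ α y) (hβ : ∀ y, 0 ≤ β y)
    (hF : ∀ y, κ' * α y + Nstar (A y) (β y) ≤ F y) : avg A ≤ avg F := by
  refine avg_mono (fun y => ?_)
  have h2 := Nstar_ge_linear (hA y) (hβ y) (le_refl 0) (by norm_num : (0:ℝ) ≤ 1)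
  have h3 := hF y
  simp only [ne_eq, OfNat.ofNat_ne_zero, not_false_eq_true, zero_pow, zero_div, sub_zero,
    one_mul, zero_mul, add_zero] at h2
  have := mul_nonneg hκ (hα y)
  linarith

/-- Combination of the two sides at a node. -/
lemma node_combine {u v bu bv Au Av αu βu αv βv Fu Fv : Cube n → ℝ} {η θ β₀ C₁ : ℝ}
    (hη0 : 0 < η) (hη1 : η ≤ 1) (hθ0 : 0 ≤ θ) (hθβ : θ + β₀ ≤ η / 16000) (hC₁ : 0 ≤ C₁)
    (hu0 : ∀ y, 0 ≤ u y) (hu1 : ∀ y, u y ≤ 1) (hv0 : ∀ y, 0 ≤ v y) (hv1 : ∀ y, v y ≤ 1)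
    (huv : avg v ≤ avg u) (hAu : ∀ y, 0 ≤ Au y) (hAv : ∀ y, 0 ≤ Av y)
    (hαu : ∀ y, 0 ≤ αu y) (hβu : ∀ y, 0 ≤ βu y) (hαv : ∀ y, 0 ≤ αv y) (hβv : ∀ y, 0 ≤ βv y)
    (hbu : ∀ y, 0 ≤ bu y) (hbv : ∀ y, 0 ≤ bv y)
    (hαβ : ∀ y, αu y + βu y = max (u y - v y) 0)
    (hFu : ∀ y, (1 + (1 + η) / 50) * αu y + Nstar (Au y) (βu y) ≤ Fu y)
    (hFv : ∀ y, (1 + (1 + η) / 50) * αv y + Nstar (Av y) (βv y) ≤ Fv y)
    (IHu : Ghat (avg u) - avg (fun y => Ghat (u y)) - C₁ * avg bu ≤ avg Au)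
    (IHv : Ghat (avg v) - avg (fun y => Ghat (v y)) - C₁ * avg bv ≤ avg Av)
    (hβbd : ∀ y, βu y ≤ θ + bu y)
    (hcase : avg u - avg v ≤ 1 / 160 ∨ avg bu < β₀) :
    2 * Ghat ((avg u + avg v) / 2) - avg (fun y => Ghat (u y)) - avg (fun y => Ghat (v y)) -
      C₁ * (avg bu + avg bv) ≤ avg Fu + avg Fv := by
  have hκ : (1:ℝ) ≤ 1 + (1 + η) / 50 := by linarith
  have hau0 := avg_nonneg hu0
  have hav0 := avg_nonneg hv0
  have hau1 : avg u ≤ 1 := by
    have := avg_mono hu1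
    rwa [avg_const] at this
  have hGu := Ghat_nonneg hau0 hau1
  have hPu : 0 ≤ avg (fun y => Ghat (u y)) := avg_nonneg (fun y => Ghat_nonneg (hu0 y) (hu1 y))
  have hbu0 := avg_nonneg hbu
  have hlo := node_lo (by linarith) hAv hαv hβv hFv
  rcases le_or_gt (avg u - avg v) (1 / 160) with hs | hs
  · have h1 := node_hi_small hκ hAu hαu hβu hαβ hFu huv
    have h2 := Nstar_sub_le (B := avg u - avg v) (P := avg (fun y => Ghat (u y)) + C₁ * avg bu)
      hGu (avg_nonneg hAu) (by linarith) (by positivity) (by linarith)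
    have h3 := Ghat_small hav0 huv hau1 hs
    linarith
  · have hb : avg bu < β₀ := by
      rcases hcase with h | h
      · linarith
      · exact h
    have h1 := node_hi_big (by linarith) hAu hβu hαβ hFu
    have hβav : avg βu ≤ θ + avg bu := by
      have := avg_mono hβbd
      rw [avg_add, avg_const] at this
      exact this
    have hβ0 := avg_nonneg hβu
    set θ' := avg βu with hθ'
    have h2 := Ghat_big (θ := θ') hav0 huv hau1 hs.le hη0.le hη1 hβ0 (by linarith)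
    linarith

/-- The stop case. -/
lemma lifted_stop {C₁ : ℝ} (w : Cube n → ℝ) (hw0 : ∀ y, 0 ≤ w y) (hw1 : ∀ y, w y ≤ 1)
    {a1 a2 : Cube n → Fin n → ℝ} {κ' : ℝ} (hκ : 1 ≤ κ') (ha1 : ∀ y j, 0 ≤ a1 y j)
    (ha2 : ∀ y j, 0 ≤ a2 y j) (hsum : ∀ y j, a1 y j + a2 y j = gradP w y j)
    {b : Cube n → ℝ} (hC : 1 / 80 ≤ C₁ * avg b) :
    Ghat (avg w) - avg (fun y => Ghat (w y)) - C₁ * avg b ≤
      avg (fun y => κ' * ∑ j, a1 y j + nest n (a2 y)) := by
  have hTPI : TPI G0 := fun x y hy hxy hx => G0_TPI_aux hy hxy hx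
  have hB := bellman hTPI (fun r h h' => G0_nonneg h h') w hw0 hw1
  have hau0 := avg_nonneg hw0
  have hau1 : avg w ≤ 1 := by
    have := avg_mono hw1
    rwa [avg_const] at this
  have h1 := (Ghat_sub_G0 hau0 hau1).2
  have h2 : avg (fun y => G0 (w y)) ≤ avg (fun y => Ghat (w y)) :=
    avg_mono (fun y => by linarith [(Ghat_sub_G0 (hw0 y) (hw1 y)).1])
  have h3 : avg (fun y => nest n (gradP w y)) ≤
      avg (fun y => κ' * ∑ j, a1 y j + nest n (a2 y)) := by
    refine avg_mono (fun y => ?_)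
    have e : gradP w y = fun j => a1 y j + a2 y j := funext (fun j => (hsum y j).symm)
    rw [e]
    have h4 := nest_add_le n (a1 y) (a2 y) (ha1 y) (ha2 y)
    have h5 : 0 ≤ ∑ j, a1 y j := sum_nonneg (fun j _ => ha1 y j)
    nlinarith
  linarith

/-- The lifted Bellman theorem with additive treatment of the large gradients. -/
theorem lifted {η θ β₀ C₁ : ℝ} (hη0 : 0 < η) (hη1 : η ≤ 1) (hθ0 : 0 ≤ θ) (hβ₀ : 0 < β₀)
    (hθβ : θ + β₀ ≤ η / 16000) (hC₁ : 1 / 80 ≤ C₁ * (β₀ / 2)) :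
    ∀ {n : ℕ} (w : Cube n → ℝ), (∀ y, 0 ≤ w y) → (∀ y, w y ≤ 1) →
      ∀ (a1 a2 : Cube n → Fin n → ℝ), (∀ y j, 0 ≤ a1 y j) → (∀ y j, 0 ≤ a2 y j) →
      (∀ y j, a1 y j + a2 y j = gradP w y j) → ∀ b : Cube n → ℝ, (∀ y, 0 ≤ b y) →
      (∀ y j, a2 y j ≤ θ + b y) →
      Ghat (avg w) - avg (fun y => Ghat (w y)) - C₁ * avg b ≤
        avg (fun y => (1 + (1 + η) / 50) * ∑ j, a1 y j + nest n (a2 y)) := by
  have hC₁0 : 0 ≤ C₁ := by
    by_contra h
    rw [not_le] at h
    have : C₁ * (β₀ / 2) < 0 := mul_neg_of_neg_of_pos h (by linarith)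
    linarith
  intro n
  induction n with
  | zero =>
      intro w _ _ a1 a2 _ _ _ b hb _
      rw [avg_zero_dim w, avg_zero_dim (fun y => Ghat (w y))]
      have h1 : 0 ≤ avg b := avg_nonneg hb
      have h2 : 0 ≤ avg (fun y => (1 + (1 + η) / 50) * ∑ j, a1 y j + nest 0 (a2 y)) := by
        refine avg_nonneg (fun y => ?_)
        simp [nest]
      nlinarith
  | succ n ih =>
      intro w hw0 hw1 a1 a2 ha1 ha2 hsum b hb hab
      set κ' := 1 + (1 + η) / 50 with hκ'
      have hκ1 : 1 ≤ κ' := by rw [hκ']; linarith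
      -- restricted data
      let A : Bool → Cube n → ℝ := fun c y =>
        κ' * ∑ j : Fin n, a1 (Fin.cons c y) j.succ + nest n (fun j => a2 (Fin.cons c y) j.succ)
      let F : Bool → Cube n → ℝ := fun c y =>
        κ' * ∑ j, a1 (Fin.cons c y) j + nest (n + 1) (a2 (Fin.cons c y))
      have hAnn : ∀ c y, 0 ≤ A c y := by
        intro c y
        have h1 : 0 ≤ ∑ j : Fin n, a1 (Fin.cons c y) j.succ := sum_nonneg (fun j _ => ha1 _ _)
        have h2 : 0 ≤ nest n (fun j => a2 (Fin.cons c y) j.succ) :=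
          nest_nonneg n _ (fun j => ha2 _ _)
        have : 0 ≤ κ' * ∑ j : Fin n, a1 (Fin.cons c y) j.succ := by positivity
        show 0 ≤ κ' * _ + _
        linarith
      have hFbd : ∀ c y, κ' * a1 (Fin.cons c y) 0 + Nstar (A c y) (a2 (Fin.cons c y) 0) ≤ F c y := by
        intro c y
        have hs0 : 0 ≤ κ' * ∑ j : Fin n, a1 (Fin.cons c y) j.succ := by
          have : 0 ≤ ∑ j : Fin n, a1 (Fin.cons c y) j.succ := sum_nonneg (fun j _ => ha1 _ _)
          positivity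
        have hn0 := nest_nonneg n (fun j => a2 (Fin.cons c y) j.succ) (fun j => ha2 _ _)
        have h1 := Nstar_add_le (A := nest n (fun j => a2 (Fin.cons c y) j.succ))
          (B := a2 (Fin.cons c y) 0) (C := κ' * ∑ j : Fin n, a1 (Fin.cons c y) j.succ) (D := 0)
          hn0 (ha2 _ _) hs0 (le_refl 0)
        rw [add_zero, add_zero] at h1
        show κ' * a1 (Fin.cons c y) 0 + Nstar (κ' * _ + _) _ ≤ κ' * _ + Nstar _ _
        rw [Fin.sum_univ_succ, mul_add, add_comm (κ' * ∑ j : Fin n, a1 (Fin.cons c y) j.succ)]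
        linarith
      have IH : ∀ c, Ghat (avg (restr c w)) - avg (fun y => Ghat (restr c w y)) -
          C₁ * avg (restr c b) ≤ avg (A c) := by
        intro c
        refine ih (restr c w) (fun y => hw0 _) (fun y => hw1 _)
          (fun y j => a1 (Fin.cons c y) j.succ) (fun y j => a2 (Fin.cons c y) j.succ)
          (fun y j => ha1 _ _) (fun y j => ha2 _ _) (fun y j => ?_) (restr c b)
          (fun y => hb _) (fun y j => hab _ _)
        rw [hsum, gradP_cons_succ]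
      have hαβ : ∀ c y, a1 (Fin.cons c y) 0 + a2 (Fin.cons c y) 0 =
          max (restr c w y - restr (!c) w y) 0 := by
        intro c y
        rw [hsum, gradP_cons_zero]
      have eG : avg (fun y => Ghat (w y)) =
          (avg (fun y => Ghat (restr true w y)) + avg (fun y => Ghat (restr false w y))) / 2 :=
        avg_succ _
      have eb : avg b = (avg (restr true b) + avg (restr false b)) / 2 := avg_succ b
      have eF : avg (fun y => κ' * ∑ j, a1 y j + nest (n + 1) (a2 y)) =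
          (avg (F true) + avg (F false)) / 2 := avg_succ _
      have hb0t : 0 ≤ avg (restr true b) := avg_nonneg (fun y => hb _)
      have hb0f : 0 ≤ avg (restr false b) := avg_nonneg (fun y => hb _)
      -- the stop criterion
      by_cases hstop : 1 / 80 ≤ C₁ * avg b
      · exact lifted_stop w hw0 hw1 hκ1 ha1 ha2 hsum hstop
      rw [not_le] at hstop
      have hsmall : ∀ c, avg (restr c b) < β₀ := by
        intro c
        by_contra hc
        rw [not_lt] at hc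
        have h1 : β₀ / 2 ≤ avg b := by
          rw [eb]
          cases c
          · linarith
          · linarith
        have h2 := mul_le_mul_of_nonneg_left h1 hC₁0
        linarith
      rw [avg_succ w, eG, eb, eF]
      rcases le_total (avg (restr false w)) (avg (restr true w)) with hle | hle
      · have := node_combine (u := restr true w) (v := restr false w) (bu := restr true b)
          (bv := restr false b) (Au := A true) (Av := A false)
          (αu := fun y => a1 (Fin.cons true y) 0) (βu := fun y => a2 (Fin.cons true y) 0)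
          (αv := fun y => a1 (Fin.cons false y) 0) (βv := fun y => a2 (Fin.cons false y) 0)
          (Fu := F true) (Fv := F false) hη0 hη1 hθ0 hθβ hC₁0 (fun y => hw0 _) (fun y => hw1 _)
          (fun y => hw0 _) (fun y => hw1 _) hle (hAnn true) (hAnn false)
          (fun y => ha1 _ _) (fun y => ha2 _ _) (fun y => ha1 _ _) (fun y => ha2 _ _)
          (fun y => hb _) (fun y => hb _) (hαβ true) (hFbd true) (hFbd false) (IH true) (IH false)
          (fun y => hab _ _) (Or.inr (hsmall true))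
        linarith
      · have := node_combine (u := restr false w) (v := restr true w) (bu := restr false b)
          (bv := restr true b) (Au := A false) (Av := A true)
          (αu := fun y => a1 (Fin.cons false y) 0) (βu := fun y => a2 (Fin.cons false y) 0)
          (αv := fun y => a1 (Fin.cons true y) 0) (βv := fun y => a2 (Fin.cons true y) 0)
          (Fu := F false) (Fv := F true) hη0 hη1 hθ0 hθβ hC₁0 (fun y => hw0 _) (fun y => hw1 _)
          (fun y => hw0 _) (fun y => hw1 _) hle (hAnn false) (hAnn true)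
          (fun y => ha1 _ _) (fun y => ha2 _ _) (fun y => ha1 _ _) (fun y => ha2 _ _)
          (fun y => hb _) (fun y => hb _) (hαβ false) (hFbd false) (hFbd true) (IH false) (IH true)
          (fun y => hab _ _) (Or.inr (hsmall false))
        rw [add_comm (avg (restr false w))] at this
        linarith

end Vale.Agent.Lib.P322
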