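import Vale.Agent.Lib.P322.Bridge

/-!
# The limit form of Theorem A
-/

namespace Vale.Agent.Lib.P322

open Finset Real Filter Topology

variable {n : ℕ}

lemma Hent_nonneg {g : Cube n → ℝ} (hg : ∀ x, g x = 0 ∨ g x = 1) {ε : ℝ} (h0 : 0 < ε) (h1 : ε < 1) :
    0 ≤ Hent g ε := by
  refine avg_nonneg (fun y => ?_)
  apply binEntropy_nonneg
  · refine sum_nonneg (fun x _ => mul_nonneg ?_ (noisePr_pos h0 h1 x y).le)
    rcases hg x with h | h <;> simp [h]
  · have e := noiseOp_one_sub ε g y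
    have : 0 ≤ noiseOp ε (fun x => 1 - g x) y := by
      refine sum_nonneg (fun x _ => mul_nonneg ?_ (noisePr_pos h0 h1 x y).le)
      beta_reduce
      rcases hg x with h | h <;> simp [h]
    linarith

lemma binEntropy_le_small {ε : ℝ} (h0 : 0 < ε) (h1 : ε < 1) :
    binEntropy ε ≤ ε * (-log ε + 1) := by
  unfold binEntropy
  rw [Real.log_inv, Real.log_inv]
  have h2 : 0 < 1 - ε := by linarith
  have h3 : -log (1 - ε) ≤ ε / (1 - ε) := by
    have := Real.one_sub_inv_le_log_of_pos h2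
    have e : 1 - (1 - ε)⁻¹ = -(ε / (1 - ε)) := by field_simp; ring
    rw [e] at this
    linarith
  have h4 : (1 - ε) * -log (1 - ε) ≤ (1 - ε) * (ε / (1 - ε)) :=
    mul_le_mul_of_nonneg_left h3 h2.le
  have h5 : (1 - ε) * (ε / (1 - ε)) = ε := by field_simp
  nlinarith

/-- The constants work for a given `ε`. -/
lemma ineq_of_constants {δ ε : ℝ} (hδ0 : 0 < δ) (hδ1 : δ ≤ 1 / 2) (h0 : 0 < ε) (h1 : ε < 1 / 2)
    (hℓ1 : -log (δ ^ 2 / 16) ≤ -log ε)
    (hℓ2 : (1 - δ) * (1 + δ / 4 + δ / 8) - log (δ ^ 2 / 16) * (1 - δ / 4) ≤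
        (-log ε) * ((1 - δ / 4) - (1 - δ) * (1 + δ / 4 + δ / 8)))
    (hηε : 9 / (2 * (1 - δ / 4)) * (ε * (-log ε)) ≤ δ / 8)
    {g : Cube n → ℝ} (hg : ∀ x, g x = 0 ∨ g x = 1) :
    (1 - δ) * (4 * (avg g * (1 - avg g))) * binEntropy ε ≤ Hent g ε := by
  set c := log (δ ^ 2 / 16) with hc
  have hδ16 : 0 < δ ^ 2 / 16 := by positivity
  have hδ16' : δ ^ 2 / 16 < 1 := by nlinarith
  have hcneg : c < 0 := Real.log_neg hδ16 hδ16'
  set ℓ := -log ε with hℓ
  set L := ℓ + c with hLdef
  have hL0 : 0 ≤ L := by rw [hLdef]; linarith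
  have hLℓ : L ≤ ℓ := by rw [hLdef]; linarith
  set M := 1 - δ / 4 with hM
  have hM0 : 0 < M := by rw [hM]; linarith
  set r := δ / 4 with hr
  have hr0 : 0 < r := by rw [hr]; linarith
  have hr1 : r < 1 := by rw [hr]; linarith
  have h1r : 1 - r = M := by rw [hr, hM]
  have hexpL : exp L = δ ^ 2 / 16 / ε := by
    rw [hLdef, Real.exp_add, hc, Real.exp_log hδ16, hℓ, Real.exp_neg, Real.exp_log h0]
    field_simp
  have hH0 : 0 ≤ Hent g ε := Hent_nonneg hg h0 (by linarith)
  set A := avg g * (1 - avg g) with hA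
  have hg0 : ∀ x, 0 ≤ g x := fun x => by rcases hg x with h | h <;> simp [h]
  have hg1 : ∀ x, g x ≤ 1 := fun x => by rcases hg x with h | h <;> simp [h]
  have ha0 : 0 ≤ avg g := avg_nonneg hg0
  have ha1 : avg g ≤ 1 := by
    have := avg_mono hg1
    rwa [avg_const] at this
  have hA0 : 0 ≤ A := mul_nonneg ha0 (by linarith)
  have hbin := binEntropy_le_small h0 (by linarith : ε < 1)
  have hbin0 : 0 ≤ binEntropy ε := binEntropy_nonneg h0.le (by linarith)
  -- the constants
  have hM2 : (0:ℝ) < 2 * M := by positivity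
  set B := (1 - δ) * (1 + δ / 4 + δ / 8) with hB
  have hBpos : 0 < 1 + δ / 4 + δ / 8 := by linarith
  have hmain : 4 * ε * L * M * A ≤ (1 + δ / 4 + δ / 8) * Hent g ε := by
    -- constant functions have `A = 0`
    by_cases hconst : (∃ x₀, g x₀ = 0) ∧ (∃ x₁, g x₁ = 1)
    · obtain ⟨⟨x₀, hx₀⟩, ⟨x₁, hx₁⟩⟩ := hconst
      have hm := main_ineq hg hx₀ hx₁ h0 h1 hr0 hr1 hL0
      rw [h1r] at hm
      have e : 1 + ε * (9 * L / (2 * M) + exp L / r) ≤ 1 + δ / 4 + δ / 8 := by
        rw [hexpL]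
        have e1 : ε * (δ ^ 2 / 16 / ε / r) = δ / 4 := by
          rw [hr]; field_simp; ring
        have e2 : ε * (9 * L / (2 * M)) ≤ δ / 8 := by
          have : ε * L ≤ ε * ℓ := mul_le_mul_of_nonneg_left hLℓ h0.le
          have e3 : ε * (9 * L / (2 * M)) = 9 / (2 * M) * (ε * L) := by ring
          rw [e3]
          refine le_trans (mul_le_mul_of_nonneg_left this (by positivity)) hηε
        rw [mul_add, e1]
        linarith
      refine hm.trans (mul_le_mul_of_nonneg_right e hH0)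
    · have hA00 : A = 0 := by
        rw [not_and_or] at hconst
        rcases hconst with h | h
        · have : ∀ x, g x = 1 := fun x => by
            rcases hg x with h' | h'
            · exact absurd ⟨x, h'⟩ h
            · exact h'
          have e : avg g = 1 := by
            have : g = fun _ => 1 := funext this
            rw [this, avg_const]
          rw [hA, e]; ring
        · have : ∀ x, g x = 0 := fun x => by
            rcases hg x with h' | h'
            · exact h'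
            · exact absurd ⟨x, h'⟩ h
          have e : avg g = 0 := by
            have : g = fun _ => 0 := funext this
            rw [this, avg_const]
          rw [hA, e]; ring
      rw [hA00, mul_zero]
      positivity
  -- combine
  have h6 : (ℓ + 1) * B ≤ L * M := by
    rw [hLdef]
    nlinarith
  have hBineq : (1 + δ / 4 + δ / 8) * ((1 - δ) * (4 * A) * binEntropy ε) ≤
      (1 + δ / 4 + δ / 8) * Hent g ε := by
    refine le_trans ?_ hmain
    have h7 : (1 - δ) * (4 * A) * binEntropy ε ≤ (1 - δ) * (4 * A) * (ε * (ℓ + 1)) :=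
      mul_le_mul_of_nonneg_left hbin (by nlinarith)
    have h8 : 0 ≤ 4 * A * ε := by positivity
    have h9 := mul_le_mul_of_nonneg_left h6 h8
    have h10 : (1 + δ / 4 + δ / 8) * ((1 - δ) * (4 * A) * binEntropy ε) ≤
        (1 + δ / 4 + δ / 8) * ((1 - δ) * (4 * A) * (ε * (ℓ + 1))) :=
      mul_le_mul_of_nonneg_left h7 hBpos.le
    rw [hB] at h9
    nlinarith
  exact le_of_mul_le_mul_left hBineq hBpos

/-- The uniform low-noise bound in natural units. -/
theorem Hent_low_noise {δ : ℝ} (hδ : 0 < δ) :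
    ∃ ε₀ : ℝ, 0 < ε₀ ∧ ∀ ε, 0 < ε → ε < ε₀ → binEntropy ε ≤ 1 / 2 ∧ ε < 1 / 2 ∧
      ∀ (n : ℕ) (g : Cube n → ℝ), (∀ x, g x = 0 ∨ g x = 1) →
        (1 - δ) * (4 * (avg g * (1 - avg g))) * binEntropy ε ≤ Hent g ε := by
  -- reduce to small delta
  set d := min δ (1 / 2) with hd
  have hd0 : 0 < d := lt_min hδ (by norm_num)
  have hd1 : d ≤ 1 / 2 := min_le_right _ _
  have hdδ : d ≤ δ := min_le_left _ _
  have hgap : 0 < (1 - d / 4) - (1 - d) * (1 + d / 4 + d / 8) := by nlinarith
  have hE1 : ∀ᶠ ε in 𝓝[>] (0:ℝ), ε < 1 / 2 := by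
    exact eventually_nhdsWithin_of_eventually_nhds (eventually_lt_nhds (by norm_num))
  have hE2 : ∀ᶠ ε in 𝓝[>] (0:ℝ), binEntropy ε ≤ 1 / 2 := by
    have hc : Tendsto binEntropy (𝓝 0) (𝓝 (binEntropy 0)) := binEntropy_continuous.tendsto 0
    rw [binEntropy_zero] at hc
    exact eventually_nhdsWithin_of_eventually_nhds
      ((hc.eventually (eventually_lt_nhds (by norm_num : (0:ℝ) < 1 / 2))).mono (fun x h => h.le))
  have hlog : Tendsto (fun ε : ℝ => -log ε) (𝓝[>] 0) atTop :=
    tendsto_neg_atBot_atTop.comp Real.tendsto_log_nhdsGT_zero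
  have hE3 : ∀ᶠ ε in 𝓝[>] (0:ℝ), -log (d ^ 2 / 16) ≤ -log ε :=
    hlog.eventually_ge_atTop _
  have hE4 : ∀ᶠ ε in 𝓝[>] (0:ℝ),
      (1 - d) * (1 + d / 4 + d / 8) - log (d ^ 2 / 16) * (1 - d / 4) ≤
        (-log ε) * ((1 - d / 4) - (1 - d) * (1 + d / 4 + d / 8)) := by
    have := hlog.eventually_ge_atTop
      (((1 - d) * (1 + d / 4 + d / 8) - log (d ^ 2 / 16) * (1 - d / 4)) /
        ((1 - d / 4) - (1 - d) * (1 + d / 4 + d / 8)))
    filter_upwards [this] with ε hε
    rwa [div_le_iff₀ hgap] at hε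
  have hE5 : ∀ᶠ ε in 𝓝[>] (0:ℝ), 9 / (2 * (1 - d / 4)) * (ε * (-log ε)) ≤ d / 8 := by
    have hc : Tendsto (fun x : ℝ => x * log x) (𝓝 0) (𝓝 (0 * log 0)) :=
      Real.continuous_mul_log.tendsto 0
    rw [zero_mul] at hc
    have hc2 : Tendsto (fun x : ℝ => 9 / (2 * (1 - d / 4)) * (x * (-log x))) (𝓝 0)
        (𝓝 (9 / (2 * (1 - d / 4)) * (-0))) := by
      have := (hc.neg).const_mul (9 / (2 * (1 - d / 4)))
      refine this.congr (fun x => ?_)
      ring
    have e : (9 / (2 * (1 - d / 4)) * (-0) : ℝ) < d / 8 := by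
      simp; linarith
    exact eventually_nhdsWithin_of_eventually_nhds
      ((hc2.eventually (eventually_lt_nhds e)).mono (fun x h => h.le))
  have hall := hE1.and (hE2.and (hE3.and (hE4.and hE5)))
  obtain ⟨ε₀, hε₀, hsub⟩ := (mem_nhdsGT_iff_exists_Ioo_subset).1 hall
  refine ⟨ε₀, hε₀, fun ε h0 h1 => ?_⟩
  obtain ⟨a1, a2, a3, a4, a5⟩ := hsub ⟨h0, h1⟩
  refine ⟨a2, a1, fun n g hg => ?_⟩
  have key := ineq_of_constants hd0 hd1 h0 a1 a3 a4 a5 hg
  refine le_trans ?_ key
  have hbin0 : 0 ≤ binEntropy ε := binEntropy_nonneg h0.le (by linarith)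
  have hg0 : ∀ x, 0 ≤ g x := fun x => by rcases hg x with h | h <;> simp [h]
  have hg1 : ∀ x, g x ≤ 1 := fun x => by rcases hg x with h | h <;> simp [h]
  have ha0 : 0 ≤ avg g := avg_nonneg hg0
  have ha1 : avg g ≤ 1 := by
    have := avg_mono hg1
    rwa [avg_const] at this
  have hA : 0 ≤ 4 * (avg g * (1 - avg g)) * binEntropy ε := by
    have : 0 ≤ avg g * (1 - avg g) := mul_nonneg ha0 (by linarith)
    positivity
  nlinarith

/-- Pinsker's inequality for the binary entropy with respect to the fair coin. -/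
lemma binEntropy_le_pinsker {a : ℝ} (h0 : 0 ≤ a) (h1 : a ≤ 1) :
    binEntropy a ≤ log 2 - (2 * a - 1) ^ 2 / 2 := by
  -- reduce to `1/2 ≤ a`
  wlog h : 1 / 2 ≤ a generalizing a
  · have := this (a := 1 - a) (by linarith) (by linarith) (by linarith)
    rw [binEntropy_one_sub] at this
    have e : (2 * (1 - a) - 1) ^ 2 = (2 * a - 1) ^ 2 := by ring
    rwa [e] at this
  -- the function `G a = log 2 - (2a-1)²/2 - binEntropy a` has nonnegative derivative on `(1/2,1)`
  rcases h.eq_or_lt with h2 | h2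
  · rw [← h2]; norm_num
    exact binEntropy_le_log_two
  rcases h1.eq_or_lt with h3 | h3
  · rw [h3]
    simp
    have : Real.log 2 ≥ 1 / 2 := by
      have := Real.log_two_gt_d9
      linarith
    linarith
  let G : ℝ → ℝ := fun x => log 2 - (2 * x - 1) ^ 2 / 2 - binEntropy x
  let G' : ℝ → ℝ := fun x => -(2 * (2 * x - 1)) - (log (1 - x) - log x)
  have hG : ∀ x ∈ Set.Ioo (1 / 2) a, HasDerivAt G (G' x) x := by
    intro x hx
    have hx0 : x ≠ 0 := by linarith [hx.1]
    have hx1 : x ≠ 1 := by linarith [hx.2]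
    have hb := hasDerivAt_binEntropy hx0 hx1
    have hp : HasDerivAt (fun x : ℝ => (2 * x - 1) ^ 2 / 2) (2 * (2 * x - 1)) x := by
      have h1 : HasDerivAt (fun x : ℝ => 2 * x - 1) 2 x := by
        simpa using ((hasDerivAt_id x).const_mul 2).sub_const 1
      have := (h1.pow 2).div_const 2
      refine this.congr_deriv ?_
      simp
    exact ((hasDerivAt_const x (log 2)).sub hp |>.sub hb).congr_deriv (by simp [G'])
  have hcont : ContinuousOn G (Set.Icc (1 / 2) a) := by
    have : Continuous G := by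
      have := binEntropy_continuous
      fun_prop
    exact this.continuousOn
  obtain ⟨c, hc, hslope⟩ := exists_hasDerivAt_eq_slope G G' h2 hcont hG
  have hc1 : 1 / 2 < c := hc.1
  have hc2 : c < 1 := by linarith [hc.2]
  -- `log c - log (1-c) ≥ 2 (2c - 1)`
  have hkey : 2 * (2 * c - 1) ≤ log c - log (1 - c) := by
    set t := 2 * c - 1 with ht
    have ht0 : 0 ≤ t := by rw [ht]; linarith
    have ht1 : t < 1 := by rw [ht]; linarith
    have hs := Real.hasSum_log_sub_log_of_abs_lt_one (x := t) (by rw [abs_of_nonneg ht0]; exact ht1)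
    have hle := sum_le_hasSum (Finset.range 1) (fun k _ => by positivity) hs
    simp at hle
    have e1 : log (1 + t) = log c + log 2 := by
      have : 1 + t = c * 2 := by rw [ht]; ring
      rw [this, Real.log_mul (by linarith) (by norm_num)]
    have e2 : log (1 - t) = log (1 - c) + log 2 := by
      have : 1 - t = (1 - c) * 2 := by rw [ht]; ring
      rw [this, Real.log_mul (by linarith) (by norm_num)]
    rw [e1, e2] at hle
    linarith
  have hG'nn : 0 ≤ G' c := by
    show 0 ≤ -(2 * (2 * c - 1)) - (log (1 - c) - log c)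
    linarith
  rw [hslope] at hG'nn
  have hpos : 0 < a - 1 / 2 := by linarith
  have : 0 ≤ G a - G (1 / 2) := by
    have := (div_nonneg_iff.1 hG'nn)
    rcases this with h | h
    · exact h.1
    · linarith [h.2]
  have hG12 : G (1 / 2) = 0 := by
    have : binEntropy (1 / 2) = log 2 := by
      have := binEntropy_two_inv
      rwa [show (2:ℝ)⁻¹ = 1 / 2 by norm_num] at this
    simp only [G, this]
    norm_num
  have hGa : G a = log 2 - (2 * a - 1) ^ 2 / 2 - binEntropy a := rfl
  linarith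

/-- Theorem A in bits. -/
theorem mutualInfo_low_noise {δ : ℝ} (hδ : 0 < δ) :
    ∃ ε₀ : ℝ, 0 < ε₀ ∧ ∀ ε, 0 < ε → ε < ε₀ → ∀ (n : ℕ) (f : Cube n → Bool),
      mutualInfoBits f ε ≤
        h2 (probTrue f) - (1 - δ) * (4 * (probTrue f * (1 - probTrue f))) * h2 ε ∧
      mutualInfoBits f ε ≤ 1 - (1 - δ) * h2 ε := by
  obtain ⟨ε₀, hε₀, H⟩ := Hent_low_noise hδ
  -- reduce the second claim also for larger delta
  refine ⟨ε₀, hε₀, fun ε h0 h1 n f => ?_⟩
  obtain ⟨hb, hhalf, hH⟩ := H ε h0 h1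
  have key := hH n (indTrue f) (indTrue_cases f)
  have hmi := mutualInfo_eq f h0.le (by linarith : ε ≤ 1)
  have hlog2 : 0 < log 2 := Real.log_pos (by norm_num)
  rw [← probTrue_eq] at key
  set a := probTrue f with ha
  have ha0 : 0 ≤ a := by
    rw [ha, probTrue_eq]
    refine avg_nonneg (fun x => ?_)
    rcases indTrue_cases f x with h | h <;> simp [h]
  have ha1 : a ≤ 1 := by
    have := avg_mono (g := indTrue f) (h := fun _ => (1 : ℝ)) (fun x => by
      rcases indTrue_cases f x with h | h <;> simp [h])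
    rwa [avg_const, ← probTrue_eq] at this
  have hbin0 : 0 ≤ binEntropy ε := binEntropy_nonneg h0.le (by linarith)
  have hI : mutualInfoBits f ε = (binEntropy a - Hent (indTrue f) ε) / log 2 := by
    rw [← hmi]; field_simp
  have first : mutualInfoBits f ε ≤
      h2 a - (1 - δ) * (4 * (a * (1 - a))) * h2 ε := by
    rw [hI, h2_eq, h2_eq]
    have e : binEntropy a / log 2 - (1 - δ) * (4 * (a * (1 - a))) * (binEntropy ε / log 2) =
        (binEntropy a - (1 - δ) * (4 * (a * (1 - a))) * binEntropy ε) / log 2 := by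
      field_simp
    rw [e]
    exact div_le_div_of_nonneg_right (by linarith) hlog2.le
  refine ⟨first, first.trans ?_⟩
  -- from the bias form to the uniform form
  have hp := binEntropy_le_pinsker ha0 ha1
  rw [h2_eq, h2_eq]
  have e : binEntropy a / log 2 - (1 - δ) * (4 * (a * (1 - a))) * (binEntropy ε / log 2) -
      (1 - (1 - δ) * (binEntropy ε / log 2)) =
      (binEntropy a - log 2 + (1 - δ) * (1 - 4 * (a * (1 - a))) * binEntropy ε) / log 2 := by
    field_simp; ring
  have hnum : binEntropy a - log 2 + (1 - δ) * (1 - 4 * (a * (1 - a))) * binEntropy ε ≤ 0 := by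
    have hm : 1 - 4 * (a * (1 - a)) = (2 * a - 1) ^ 2 := by ring
    rw [hm]
    have hm0 : 0 ≤ (2 * a - 1) ^ 2 := sq_nonneg _
    rcases le_or_gt δ 1 with hδ1 | hδ1
    · have hd1 : (1 - δ) * binEntropy ε ≤ 1 / 2 := by nlinarith
      nlinarith
    · have hd1 : (1 - δ) * binEntropy ε ≤ 0 := by nlinarith
      nlinarith
  have : binEntropy a / log 2 - (1 - δ) * (4 * (a * (1 - a))) * (binEntropy ε / log 2) -
      (1 - (1 - δ) * (binEntropy ε / log 2)) ≤ 0 := by
    rw [e]
    exact div_nonpos_of_nonpos_of_nonneg hnum hlog2.le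
  linarith

end Vale.Agent.Lib.P322
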