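import Vale.Agent.Lib.P322.NearKey

/-!
# Functions close to a dictator: exact inequality
-/

namespace Vale.Agent.Lib.P322

open Finset Real

variable {m : ℕ}

/-- Insert a coordinate. -/
def ins (i : Fin (m + 1)) (b : Bool) (y : Cube m) : Cube (m + 1) :=
  Fin.insertNth (α := fun _ => Bool) i b y

@[simp] lemma ins_same (i : Fin (m + 1)) (b : Bool) (y : Cube m) : ins i b y i = b := by
  simp [ins]

@[simp] lemma ins_succAbove (i : Fin (m + 1)) (b : Bool) (y : Cube m) (j : Fin m) :
    ins i b y (i.succAbove j) = y j := by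
  simp [ins]

lemma sum_ins (i : Fin (m + 1)) (g : Cube (m + 1) → ℝ) :
    ∑ y, g y = ∑ y, g (ins i true y) + ∑ y, g (ins i false y) := by
  have e := Equiv.sum_comp (Fin.insertNthEquiv (fun _ => Bool) i : Bool × Cube m ≃ Cube (m + 1)) g
  rw [← e, Fintype.sum_prod_type, Fintype.sum_bool]
  rfl

lemma avg_ins (i : Fin (m + 1)) (g : Cube (m + 1) → ℝ) :
    avg g = (avg (fun y => g (ins i true y)) + avg (fun y => g (ins i false y))) / 2 := by
  unfold avg
  rw [sum_ins i, pow_succ]
  have h : (2 : ℝ) ^ m ≠ 0 := by positivity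
  field_simp

lemma noisePr_ins (ε : ℝ) (i : Fin (m + 1)) (a b : Bool) (x y : Cube m) :
    noisePr ε (ins i a x) (ins i b y) = (if a = b then 1 - ε else ε) * noisePr ε x y := by
  unfold noisePr
  rw [Fin.prod_univ_succAbove _ i]
  simp

lemma noiseOp_ins (ε : ℝ) (i : Fin (m + 1)) (g : Cube (m + 1) → ℝ) (b : Bool) (y : Cube m) :
    noiseOp ε g (ins i b y) =
      (if true = b then 1 - ε else ε) * noiseOp ε (fun x => g (ins i true x)) y +
      (if false = b then 1 - ε else ε) * noiseOp ε (fun x => g (ins i false x)) y := by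
  unfold noiseOp
  rw [sum_ins i]
  simp only [noisePr_ins, mul_sum]
  congr 1 <;> exact sum_congr rfl (fun x _ => by ring)

/-- Increments of a concave function decrease. -/
lemma binEntropy_incr {a b δ : ℝ} (ha : 0 ≤ a) (hab : a ≤ b) (hδ : 0 ≤ δ) (hb : b + δ ≤ 1) :
    binEntropy a + binEntropy (b + δ) ≤ binEntropy (a + δ) + binEntropy b := by
  have hc := strictConcave_binEntropy.concaveOn
  rcases (add_nonneg (sub_nonneg.2 hab) hδ).eq_or_lt with h | h
  · have h1 : δ = 0 := by linarith [sub_nonneg.2 hab]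
    have h2 : a = b := by linarith
    rw [h1, h2]; simp
  · set D := b - a + δ with hD
    have hm1 : a ∈ Set.Icc (0:ℝ) 1 := ⟨ha, by linarith⟩
    have hm2 : b + δ ∈ Set.Icc (0:ℝ) 1 := ⟨by linarith, hb⟩
    have hq1 : 0 ≤ (b - a) / D := by apply div_nonneg <;> linarith
    have hq2 : 0 ≤ δ / D := by positivity
    have e3 : (b - a) / D + δ / D = 1 := by
      rw [← add_div]
      exact div_self h.ne'
    have e4 : δ / D + (b - a) / D = 1 := by rw [add_comm]; exact e3
    have h1 := hc.2 hm1 hm2 hq1 hq2 e3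
    have h2 := hc.2 hm1 hm2 hq2 hq1 e4
    simp only [smul_eq_mul] at h1 h2
    have e1 : (b - a) / D * a + δ / D * (b + δ) = a + δ := by
      field_simp; rw [hD]; ring
    have e2 : δ / D * a + (b - a) / D * (b + δ) = b := by
      field_simp; rw [hD]; ring
    rw [e1] at h1
    rw [e2] at h2
    have : binEntropy a + binEntropy (b + δ) =
        ((b - a) / D + δ / D) * binEntropy a + ((b - a) / D + δ / D) * binEntropy (b + δ) := by
      rw [e3]; ring
    rw [this]
    linarith

/-- Supermodularity of the entropy sum. -/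
lemma supermodular {ε s t : ℝ} (hε0 : 0 ≤ ε) (hε1 : ε ≤ 1) (hs0 : 0 ≤ s) (hs1 : s ≤ 1)
    (ht0 : 0 ≤ t) (ht1 : t ≤ 1) :
    (Yfun ε s - 2 * binEntropy ε * s) + (Yfun ε t - 2 * binEntropy ε * t) ≤
      binEntropy ((1 - ε) * (1 - s) + ε * t) + binEntropy (ε * (1 - s) + (1 - ε) * t) -
        2 * binEntropy ε := by
  have h1e : 0 ≤ 1 - ε := by linarith
  have a1 := binEntropy_incr (a := (1 - ε) * (1 - s)) (b := 1 - ε) (δ := ε * t)
    (mul_nonneg h1e (by linarith)) (by nlinarith) (mul_nonneg hε0 ht0) (by nlinarith)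
  have a2 := binEntropy_incr (a := ε * (1 - s)) (b := ε) (δ := (1 - ε) * t)
    (mul_nonneg hε0 (by linarith)) (by nlinarith) (mul_nonneg h1e ht0) (by nlinarith)
  have e1 : binEntropy (1 - ε) = binEntropy ε := binEntropy_one_sub ε
  have e2 : binEntropy ((1 - ε) * (1 - s)) = binEntropy (ε + (1 - ε) * s) := by
    rw [← binEntropy_one_sub]; congr 1; ring
  have e3 : binEntropy (1 - ε + ε * t) = binEntropy (ε * (1 - t)) := by
    rw [← binEntropy_one_sub]; congr 1; ring
  rw [e1, e2, e3] at a1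
  unfold Yfun
  linarith

/-- The exact inequality near a dictator. -/
theorem near_dictator {ε : ℝ} (hε0 : 0 < ε) (hε1 : ε < 1 / 2)
    (hS : ∀ (n : ℕ) (g : Cube n → ℝ), (∀ x, g x = 0 ∨ g x = 1) →
      avg g ≤ 1 / 80 → 2 * avg g * binEntropy ε ≤ Jfun ε g ε)
    (i : Fin (m + 1)) {g : Cube (m + 1) → ℝ} (hg : ∀ x, g x = 0 ∨ g x = 1)
    (hb₁ : avg (fun y => 1 - g (ins i true y)) ≤ 1 / 80)
    (hb₀ : avg (fun y => g (ins i false y)) ≤ 1 / 80) :
    binEntropy ε ≤ Hent g ε := by
  set gp : Cube m → ℝ := fun y => 1 - g (ins i true y) with hgp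
  set gm : Cube m → ℝ := fun y => g (ins i false y) with hgm
  have hgpc : ∀ x, gp x = 0 ∨ gp x = 1 := fun x => by
    rcases hg (ins i true x) with h | h <;> simp [hgp, h]
  have hgmc : ∀ x, gm x = 0 ∨ gm x = 1 := fun x => hg _
  have S1 := hS m gp hgpc hb₁
  have S2 := hS m gm hgmc hb₀
  -- values on the two halves
  have hs : ∀ y, noiseOp ε (fun x => g (ins i true x)) y = 1 - noiseOp ε gp y := by
    intro y
    rw [hgp, noiseOp_one_sub ε (fun x => g (ins i true x)) y]
    ring
  have bd : ∀ {h : Cube m → ℝ}, (∀ x, h x = 0 ∨ h x = 1) → ∀ y,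
      0 ≤ noiseOp ε h y ∧ noiseOp ε h y ≤ 1 := by
    intro h hh y
    constructor
    · refine sum_nonneg (fun x _ => mul_nonneg ?_ (noisePr_nonneg hε0.le (by linarith) x y))
      rcases hh x with e | e <;> simp [e]
    · have e := noiseOp_one_sub ε h y
      have : 0 ≤ noiseOp ε (fun x => 1 - h x) y := by
        refine sum_nonneg (fun x _ => mul_nonneg ?_ (noisePr_nonneg hε0.le (by linarith) x y))
        beta_reduce
        rcases hh x with e | e <;> simp [e]
      linarith
  have hup : ∀ y, noiseOp ε g (ins i true y) =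
      (1 - ε) * (1 - noiseOp ε gp y) + ε * noiseOp ε gm y := by
    intro y
    rw [noiseOp_ins, hs]
    simp [hgm]
  have hdn : ∀ y, noiseOp ε g (ins i false y) =
      ε * (1 - noiseOp ε gp y) + (1 - ε) * noiseOp ε gm y := by
    intro y
    rw [noiseOp_ins, hs]
    simp [hgm]
  have hH : Hent g ε = (avg (fun y => binEntropy ((1 - ε) * (1 - noiseOp ε gp y) + ε * noiseOp ε gm y)) +
      avg (fun y => binEntropy (ε * (1 - noiseOp ε gp y) + (1 - ε) * noiseOp ε gm y))) / 2 := by
    unfold Hent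
    rw [avg_ins i]
    simp only [hup, hdn]
  -- the pointwise inequality, averaged
  have hp := avg_mono (g := fun y => (Yfun ε (noiseOp ε gp y) - 2 * binEntropy ε * noiseOp ε gp y) +
      (Yfun ε (noiseOp ε gm y) - 2 * binEntropy ε * noiseOp ε gm y))
    (h := fun y => binEntropy ((1 - ε) * (1 - noiseOp ε gp y) + ε * noiseOp ε gm y) +
      binEntropy (ε * (1 - noiseOp ε gp y) + (1 - ε) * noiseOp ε gm y) - 2 * binEntropy ε)
    (fun y => supermodular hε0.le (by linarith) (bd hgpc y).1 (bd hgpc y).2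
      (bd hgmc y).1 (bd hgmc y).2)
  rw [avg_sub, avg_add, avg_const, avg_add, avg_sub, avg_sub, avg_const_mul, avg_const_mul,
    avg_noiseOp, avg_noiseOp] at hp
  rw [hH]
  unfold Jfun at S1 S2
  nlinarith

end Vale.Agent.Lib.P322
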