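import Vale.Agent.Lib.P322.NearDictator

/-!
# Mutual information form near dictators
-/

namespace Vale.Agent.Lib.P322

open Finset Real

variable {n m : ℕ}

/-- Reduction of the mutual information bound to the entropy bound. -/
lemma mutualInfo_le_of_Hent (f : Cube n → Bool) {ε : ℝ} (h0 : 0 ≤ ε) (h1 : ε ≤ 1)
    (H : binEntropy ε ≤ Hent (indTrue f) ε) : mutualInfoBits f ε ≤ 1 - h2 ε := by
  have hmi := mutualInfo_eq f h0 h1
  have hlog2 : 0 < log 2 := Real.log_pos (by norm_num)
  have hI : mutualInfoBits f ε = (binEntropy (probTrue f) - Hent (indTrue f) ε) / log 2 := by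
    rw [← hmi]; field_simp
  rw [hI, h2_eq]
  have h3 : binEntropy (probTrue f) ≤ log 2 := binEntropy_le_log_two
  have e : 1 - binEntropy ε / log 2 = (log 2 - binEntropy ε) / log 2 := by
    field_simp
  rw [e]
  exact div_le_div_of_nonneg_right (by linarith) hlog2.le

/-- Complement does not change the entropy. -/
lemma Hent_compl (g : Cube n → ℝ) (ε : ℝ) : Hent (fun x => 1 - g x) ε = Hent g ε := by
  unfold Hent
  congr 1
  funext y
  rw [noiseOp_one_sub, binEntropy_one_sub]

lemma indTrue_not (f : Cube n → Bool) (x : Cube n) :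
    indTrue (fun x => !f x) x = 1 - indTrue f x := by
  unfold indTrue
  cases h : f x <;> simp [h]

lemma disagree_eq (f : Cube (m + 1) → Bool) (i : Fin (m + 1)) :
    disagreeCoord f i = (avg (fun y => 1 - indTrue f (ins i true y)) +
      avg (fun y => indTrue f (ins i false y))) / 2 := by
  have e : disagreeCoord f i = avg (fun x => if f x = x i then (0 : ℝ) else 1) := rfl
  rw [e, avg_ins i]
  congr 2
  · congr 1; funext y
    simp only [ins_same, indTrue]
    cases h : f (ins i true y) <;> simp [h]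
  · congr 1; funext y
    simp only [ins_same, indTrue]
    cases h : f (ins i false y) <;> simp [h]

lemma avg_indTrue_nonneg (f : Cube m → Bool) : 0 ≤ avg (indTrue f) :=
  avg_nonneg (fun x => by rcases indTrue_cases f x with h | h <;> simp [h])

/-- Exact inequality near a dictator: the entropy form. -/
theorem Hent_near_dictator {ε : ℝ} (hε0 : 0 < ε) (hε1 : ε < 1 / 2)
    (hS : ∀ (n : ℕ) (g : Cube n → ℝ), (∀ x, g x = 0 ∨ g x = 1) →
      avg g ≤ 1 / 80 → 2 * avg g * binEntropy ε ≤ Jfun ε g ε)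
    (f : Cube (m + 1) → Bool) (i : Fin (m + 1)) (hd : disagreeCoord f i ≤ 1 / 160) :
    binEntropy ε ≤ Hent (indTrue f) ε := by
  rw [disagree_eq] at hd
  have h1 : 0 ≤ avg (fun y => 1 - indTrue f (ins i true y)) :=
    avg_nonneg (fun y => by rcases indTrue_cases f (ins i true y) with h | h <;> simp [h])
  have h2 : 0 ≤ avg (fun y => indTrue f (ins i false y)) :=
    avg_nonneg (fun y => by rcases indTrue_cases f (ins i false y) with h | h <;> simp [h])
  exact near_dictator hε0 hε1 hS i (indTrue_cases f) (by linarith) (by linarith)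

lemma disagree_not (f : Cube n → Bool) (i : Fin n) :
    disagreeCoord (fun x => !f x) i = 1 - disagreeCoord f i := by
  have hp : (2 : ℝ) ^ n ≠ 0 := by positivity
  have hc : (∑ _x : Cube n, (1 : ℝ)) = 2 ^ n := by
    simp [Finset.card_univ, Fintype.card_pi]
  unfold disagreeCoord
  rw [eq_sub_iff_add_eq, ← add_div, ← sum_add_distrib]
  rw [div_eq_one_iff_eq hp, ← hc]
  refine sum_congr rfl (fun x _ => ?_)
  cases h : f x <;> cases h' : x i <;> simp [h, h']

/-- Exact inequality near a dictator or an anti-dictator. -/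
theorem Hent_near_dictator' {ε : ℝ} (hε0 : 0 < ε) (hε1 : ε < 1 / 2)
    (hS : ∀ (n : ℕ) (g : Cube n → ℝ), (∀ x, g x = 0 ∨ g x = 1) →
      avg g ≤ 1 / 80 → 2 * avg g * binEntropy ε ≤ Jfun ε g ε)
    (f : Cube (m + 1) → Bool) (i : Fin (m + 1))
    (hd : disagreeCoord f i ≤ 1 / 160 ∨ 1 - disagreeCoord f i ≤ 1 / 160) :
    binEntropy ε ≤ Hent (indTrue f) ε := by
  rcases hd with hd | hd
  · exact Hent_near_dictator hε0 hε1 hS f i hd
  · have := Hent_near_dictator hε0 hε1 hS (fun x => !f x) i (by rw [disagree_not]; exact hd)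
    have e : indTrue (fun x => !f x) = fun x => 1 - indTrue f x := funext (indTrue_not f)
    rw [e, Hent_compl] at this
    exact this

/-- The bound for functions close to a dictator or anti-dictator, in bits. -/
theorem mutualInfo_near_dictator : ∃ ε₁ : ℝ, 0 < ε₁ ∧ ∀ ε, 0 < ε → ε < ε₁ →
    ∀ (m : ℕ) (f : Cube (m + 1) → Bool) (i : Fin (m + 1)),
      (disagreeCoord f i ≤ 1 / 160 ∨ 1 - disagreeCoord f i ≤ 1 / 160) →
      mutualInfoBits f ε ≤ 1 - h2 ε := by
  obtain ⟨ε₁, hε₁, H⟩ := small_set_bound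
  refine ⟨ε₁, hε₁, fun ε h0 h1 m f i hd => ?_⟩
  obtain ⟨_, hh, hS⟩ := H ε h0 h1
  exact mutualInfo_le_of_Hent f h0.le (by linarith) (Hent_near_dictator' h0 hh hS f i hd)

end Vale.Agent.Lib.P322
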