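import Vale.Agent.Lib.P322.Bellman

/-!
# One-sided entropy function and its flow (small sets)
-/

namespace Vale.Agent.Lib.P322

open Finset Real

variable {n : ℕ}

/-- The one-sided gain function. -/
noncomputable def Yfun (ε s : ℝ) : ℝ :=
  binEntropy (ε + (1 - ε) * s) + binEntropy (ε * (1 - s)) - 2 * binEntropy ε +
    2 * binEntropy ε * s

/-- Its derivative. -/
noncomputable def Yprime (ε s : ℝ) : ℝ :=
  (1 - ε) * logitN (ε + (1 - ε) * s) - ε * logitN (ε * (1 - s)) + 2 * binEntropy ε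

lemma Yfun_zero (ε : ℝ) : Yfun ε 0 = 0 := by
  simp [Yfun]; ring

lemma Yfun_one (ε : ℝ) : Yfun ε 1 = 0 := by
  simp [Yfun]

lemma hasDerivAt_Yfun {ε s : ℝ} (hε0 : 0 < ε) (hε1 : ε < 1) (hs0 : 0 < s) (hs1 : s < 1) :
    HasDerivAt (Yfun ε) (Yprime ε s) s := by
  have hp : 0 < ε + (1 - ε) * s := by
    have : 0 < (1 - ε) * s := mul_pos (by linarith) hs0
    linarith
  have hp1 : ε + (1 - ε) * s < 1 := by nlinarith
  have hq : 0 < ε * (1 - s) := mul_pos hε0 (by linarith)
  have hq1 : ε * (1 - s) < 1 := by nlinarith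
  have d1 : HasDerivAt (fun s => ε + (1 - ε) * s) (1 - ε) s := by
    simpa using ((hasDerivAt_id s).const_mul (1 - ε)).const_add ε
  have d2 : HasDerivAt (fun s => ε * (1 - s)) (-ε) s := by
    have := ((hasDerivAt_id s).const_sub 1).const_mul ε
    simpa using this
  have e1 := HasDerivAt.comp s (hasDerivAt_binEntropy hp.ne' hp1.ne) d1
  have e2 := HasDerivAt.comp s (hasDerivAt_binEntropy hq.ne' hq1.ne) d2
  have e3 : HasDerivAt (fun s => 2 * binEntropy ε * s) (2 * binEntropy ε) s := by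
    simpa using (hasDerivAt_id s).const_mul (2 * binEntropy ε)
  have := ((e1.add e2).sub_const (2 * binEntropy ε)).add e3
  refine this.congr_deriv ?_
  unfold Yprime logitN
  ring

/-- Edge inequality for `Yprime`. -/
lemma Yprime_edge {ε p q : ℝ} (hε0 : 0 < ε) (hε1 : ε < 1) (hq0 : 0 < q) (hqp : q ≤ p)
    (hp1 : p < 1) :
    (1 - ε) * Fent (p - q) (1 - p) ≤ (Yprime ε q - Yprime ε p) * (p - q) := by
  have h1e : 0 < 1 - ε := by linarith
  have h1p : 0 < 1 - p := by linarith
  have h1q : 0 < 1 - q := by linarith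
  have hp0 : 0 < p := lt_of_lt_of_le hq0 hqp
  have hF : Fent (p - q) (1 - p) = (p - q) * (log (1 - q) - log (1 - p)) := by
    unfold Fent
    have : 1 + (p - q) / (1 - p) = (1 - q) / (1 - p) := by field_simp; ring
    rw [this, Real.log_div h1q.ne' h1p.ne']
  have hAq : 0 < ε + (1 - ε) * q := by
    have : 0 < (1 - ε) * q := mul_pos h1e hq0
    linarith
  have hAp : ε + (1 - ε) * q ≤ ε + (1 - ε) * p := by nlinarith
  have e1 : 1 - (ε + (1 - ε) * q) = (1 - ε) * (1 - q) := by ring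
  have e2 : 1 - (ε + (1 - ε) * p) = (1 - ε) * (1 - p) := by ring
  have l1 : log (1 - (ε + (1 - ε) * q)) - log (1 - (ε + (1 - ε) * p)) =
      log (1 - q) - log (1 - p) := by
    rw [e1, e2, Real.log_mul h1e.ne' h1q.ne', Real.log_mul h1e.ne' h1p.ne']
    ring
  have l2 : log (ε + (1 - ε) * q) ≤ log (ε + (1 - ε) * p) := Real.log_le_log hAq hAp
  -- second bracket is nonnegative
  have hq2 : 0 < ε * (1 - p) := mul_pos hε0 h1p
  have hq3 : ε * (1 - p) ≤ ε * (1 - q) := by nlinarith
  have l3 : log (ε * (1 - p)) ≤ log (ε * (1 - q)) := Real.log_le_log hq2 hq3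
  have hq4 : 0 < 1 - ε * (1 - q) := by nlinarith
  have hq5 : 1 - ε * (1 - q) ≤ 1 - ε * (1 - p) := by linarith
  have l4 : log (1 - ε * (1 - q)) ≤ log (1 - ε * (1 - p)) := Real.log_le_log hq4 hq5
  have hdiff : Yprime ε q - Yprime ε p =
      (1 - ε) * ((log (1 - q) - log (1 - p)) +
        (log (ε + (1 - ε) * p) - log (ε + (1 - ε) * q))) +
      ε * ((log (1 - ε * (1 - p)) - log (1 - ε * (1 - q))) +
        (log (ε * (1 - q)) - log (ε * (1 - p)))) := by
    unfold Yprime logitN
    rw [← l1]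
    ring
  rw [hF, hdiff]
  have hpq : 0 ≤ p - q := by linarith
  have t1 : 0 ≤ (1 - ε) * (log (ε + (1 - ε) * p) - log (ε + (1 - ε) * q)) :=
    mul_nonneg h1e.le (by linarith)
  have t2 : 0 ≤ ε * ((log (1 - ε * (1 - p)) - log (1 - ε * (1 - q))) +
        (log (ε * (1 - q)) - log (ε * (1 - p)))) :=
    mul_nonneg hε0.le (by linarith)
  have t3 := mul_nonneg (add_nonneg t1 t2) hpq
  nlinarith

lemma Fent_zero_left (v : ℝ) : Fent 0 v = 0 := by simp [Fent]

/-- Generic symmetrization for a derivative function. -/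
lemma symm_lower (D : ℝ → ℝ) {κ₀ : ℝ} (u : Cube n → ℝ) (h0 : ∀ y, 0 < u y) (h1 : ∀ y, u y < 1)
    (hD : ∀ p q, 0 < q → q ≤ p → p < 1 → κ₀ * Fent (p - q) (1 - p) ≤ (D q - D p) * (p - q)) :
    κ₀ * Theta u ≤ avg (fun y => D (u y) * ∑ j, (u (flip j y) - u y)) := by
  unfold Theta
  rw [← avg_const_mul]
  unfold avg
  refine div_le_div_of_nonneg_right ?_ (by positivity)
  simp only [mul_sum]
  rw [sum_comm (s := (univ : Finset (Cube n))) (t := (univ : Finset (Fin n)))]
  rw [sum_comm (s := (univ : Finset (Cube n))) (t := (univ : Finset (Fin n)))]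
  refine sum_le_sum (fun j _ => ?_)
  have key : ∀ y, κ₀ * Fent (gradP u y j) (1 - u y) +
      κ₀ * Fent (gradP u (flip j y) j) (1 - u (flip j y)) ≤
      D (u y) * (u (flip j y) - u y) + D (u (flip j y)) * (u (flip j (flip j y)) - u (flip j y)) := by
    intro y
    rw [flip_flip]
    unfold gradP
    rw [flip_flip]
    rcases le_total (u (flip j y)) (u y) with h | h
    · have e1 : max (u y - u (flip j y)) 0 = u y - u (flip j y) := max_eq_left (by linarith)
      have e2 : max (u (flip j y) - u y) 0 = 0 := max_eq_right (by linarith)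
      rw [e1, e2, Fent_zero_left, mul_zero, add_zero]
      have := hD (u y) (u (flip j y)) (h0 _) h (h1 _)
      nlinarith
    · have e1 : max (u (flip j y) - u y) 0 = u (flip j y) - u y := max_eq_left (by linarith)
      have e2 : max (u y - u (flip j y)) 0 = 0 := max_eq_right (by linarith)
      rw [e1, e2, Fent_zero_left, mul_zero, zero_add]
      have := hD (u (flip j y)) (u y) (h0 _) h (h1 _)
      nlinarith
  have hsum := sum_le_sum (fun y (_ : y ∈ (univ : Finset (Cube n))) => key y)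
  rw [sum_add_distrib, sum_add_distrib] at hsum
  have f1 := sum_flip j (fun y => D (u y) * (u (flip j y) - u y))
  have f2 := sum_flip j (fun y => κ₀ * Fent (gradP u y j) (1 - u y))
  beta_reduce at f1 f2
  linarith

/-- Average form of the pointwise truncation bound. -/
lemma Theta_ge_nest (w : Cube n → ℝ) (h0 : ∀ y, 0 < w y) (h1 : ∀ y, w y < 1) {r L : ℝ}
    (hr0 : 0 < r) (hL : 0 ≤ L) :
    L * avg (fun y => nest n (gradP (trunc r w) y)) -
      exp L / r * avg (fun y => w y * (1 - w y)) ≤ Theta w := by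
  have hpw := avg_mono (fun y => pointwise_trunc w h1 hr0 hL y (h0 y))
  rw [avg_sub, avg_const_mul, avg_const_mul] at hpw
  exact hpw

/-- The normalized truncation. -/
noncomputable def normTrunc (r : ℝ) (w : Cube n → ℝ) (y : Cube n) : ℝ := trunc r w y / (1 - r)

lemma normTrunc_nonneg (w : Cube n → ℝ) {r : ℝ} (hr1 : r < 1) (y : Cube n) :
    0 ≤ normTrunc r w y :=
  div_nonneg (trunc_nonneg r w y) (by linarith)

lemma normTrunc_le_one (w : Cube n → ℝ) (h1 : ∀ y, w y < 1) {r : ℝ} (hr1 : r < 1) (y : Cube n) :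
    normTrunc r w y ≤ 1 := by
  unfold normTrunc
  rw [div_le_one (by linarith)]
  unfold trunc
  exact max_le (by linarith [h1 y]) (by linarith)

lemma gradP_normTrunc (w : Cube n → ℝ) {r : ℝ} (hr1 : r < 1) (y : Cube n) (j : Fin n) :
    gradP (trunc r w) y j = (1 - r) * gradP (normTrunc r w) y j := by
  have hM : 0 < 1 - r := by linarith
  unfold gradP normTrunc
  rw [mul_max_of_nonneg _ _ hM.le, mul_zero, mul_sub, mul_div_cancel₀ _ hM.ne',
    mul_div_cancel₀ _ hM.ne']

lemma nest_gradP_normTrunc (w : Cube n → ℝ) {r : ℝ} (hr1 : r < 1) (y : Cube n) :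
    nest n (gradP (trunc r w) y) = (1 - r) * nest n (gradP (normTrunc r w) y) := by
  have hM : 0 < 1 - r := by linarith
  have e : gradP (trunc r w) y = fun j => (1 - r) * gradP (normTrunc r w) y j :=
    funext (gradP_normTrunc w hr1 y)
  rw [e, nest_smul hM]

/-- Pointwise estimate for the normalized truncation. -/
lemma sub_normTrunc_bounds (w : Cube n → ℝ) (h0 : ∀ y, 0 < w y) (h1 : ∀ y, w y < 1) {r : ℝ}
    (hr0 : 0 < r) (hr1 : r < 1) (y : Cube n) :
    0 ≤ w y - normTrunc r w y ∧ w y - normTrunc r w y ≤ w y * (1 - w y) / (1 - r) := by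
  have hM : 0 < 1 - r := by linarith
  have hy0 := h0 y
  have hy1 := h1 y
  unfold normTrunc trunc
  rcases le_or_gt (w y) r with hle | hgt
  · rw [max_eq_right (by linarith : w y - r ≤ 0), zero_div, sub_zero]
    refine ⟨hy0.le, ?_⟩
    rw [le_div_iff₀ hM]
    nlinarith
  · rw [max_eq_left (by linarith : 0 ≤ w y - r)]
    constructor
    · have : (w y - r) / (1 - r) ≤ w y := by
        rw [div_le_iff₀ hM]; nlinarith
      linarith
    · have : w y - (w y - r) / (1 - r) = r * (1 - w y) / (1 - r) := by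
        field_simp; ring
      rw [this]
      apply div_le_div_of_nonneg_right _ hM.le
      exact mul_le_mul_of_nonneg_right hgt.le (by linarith)

/-- Bound for an average of a function vanishing at `0` with linear decay at `1`. -/
lemma avg_comp_normTrunc_le (w : Cube n → ℝ) (h0 : ∀ y, 0 < w y) (h1 : ∀ y, w y < 1) {r C : ℝ}
    (hr0 : 0 < r) (hr1 : r < 1) (hC : 0 ≤ C) {G : ℝ → ℝ} (hG0 : G 0 = 0)
    (hG1 : ∀ x, 0 ≤ x → x ≤ 1 → G x ≤ C * (1 - x)) :
    avg (fun y => G (normTrunc r w y)) ≤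
      C / (r * (1 - r)) * avg (fun y => w y * (1 - w y)) := by
  rw [← avg_const_mul]
  refine avg_mono (fun y => ?_)
  have hM : 0 < 1 - r := by linarith
  have hy0 := h0 y
  have hy1 := h1 y
  have hnn : 0 ≤ C / (r * (1 - r)) * (w y * (1 - w y)) := by
    have : 0 ≤ 1 - w y := by linarith
    positivity
  rcases le_or_gt (w y) r with hle | hgt
  · have : normTrunc r w y = 0 := by
      unfold normTrunc trunc
      rw [max_eq_right (by linarith : w y - r ≤ 0), zero_div]
    rw [this, hG0]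
    exact hnn
  · have e : 1 - normTrunc r w y = (1 - w y) / (1 - r) := by
      unfold normTrunc trunc
      rw [max_eq_left (by linarith : 0 ≤ w y - r)]
      field_simp; ring
    refine (hG1 _ (normTrunc_nonneg w hr1 y) (normTrunc_le_one w h1 hr1 y)).trans ?_
    rw [e]
    have e2 : C / (r * (1 - r)) * (w y * (1 - w y)) = C * ((w y / r) * ((1 - w y) / (1 - r))) := by
      field_simp
    rw [e2]
    apply mul_le_mul_of_nonneg_left _ hC
    have h3 : 1 ≤ w y / r := by rw [one_le_div hr0]; exact hgt.le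
    have h4 : 0 ≤ (1 - w y) / (1 - r) := div_nonneg (by linarith) hM.le
    nlinarith

/-- The flow functional for `Yfun`. -/
noncomputable def Jfun (ε : ℝ) (g : Cube n → ℝ) (τ : ℝ) : ℝ :=
  avg (fun y => Yfun ε (noiseOp τ g y))

lemma hasDerivAt_Jfun {ε τ : ℝ} (hε0 : 0 < ε) (hε1 : ε < 1) (hρ : 1 - 2 * τ ≠ 0) (g : Cube n → ℝ)
    (h0 : ∀ y, 0 < noiseOp τ g y) (h1 : ∀ y, noiseOp τ g y < 1) :
    HasDerivAt (Jfun ε g)
      (avg (fun y => Yprime ε (noiseOp τ g y) *
        ∑ j, (noiseOp τ g (flip j y) - noiseOp τ g y)) / (1 - 2 * τ)) τ := by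
  have each : ∀ y ∈ (univ : Finset (Cube n)),
      HasDerivAt (fun e => Yfun ε (noiseOp e g y))
        (Yprime ε (noiseOp τ g y) *
          ((∑ j, (noiseOp τ g (flip j y) - noiseOp τ g y)) / (1 - 2 * τ))) τ := by
    intro y _
    exact HasDerivAt.comp τ (hasDerivAt_Yfun hε0 hε1 (h0 y) (h1 y)) (hasDerivAt_noiseOp hρ g y)
  have hs := (HasDerivAt.fun_sum each).div_const ((2 : ℝ) ^ n)
  refine hs.congr_deriv ?_
  unfold avg
  have e : (∑ y, Yprime ε (noiseOp τ g y) *
      ((∑ j, (noiseOp τ g (flip j y) - noiseOp τ g y)) / (1 - 2 * τ))) =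
      (∑ y, Yprime ε (noiseOp τ g y) *
        ∑ j, (noiseOp τ g (flip j y) - noiseOp τ g y)) / (1 - 2 * τ) := by
    rw [Finset.sum_div]
    exact sum_congr rfl (fun y _ => by ring)
  rw [e, div_right_comm]

/-- Lower bound for the derivative of `J`. -/
lemma Jderiv_lower {ε τ : ℝ} (hε0 : 0 < ε) (hε1 : ε < 1) (hτ0 : 0 < τ) (hτ1 : τ < 1 / 2)
    (g : Cube n → ℝ) (h0 : ∀ y, 0 < noiseOp τ g y) (h1 : ∀ y, noiseOp τ g y < 1) :
    (1 - ε) * Theta (noiseOp τ g) ≤
      avg (fun y => Yprime ε (noiseOp τ g y) *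
        ∑ j, (noiseOp τ g (flip j y) - noiseOp τ g y)) / (1 - 2 * τ) := by
  have hρ : 0 < 1 - 2 * τ := by linarith
  have hs := symm_lower (Yprime ε) (κ₀ := 1 - ε) (noiseOp τ g) h0 h1
    (fun p q hq hqp hp => Yprime_edge hε0 hε1 hq hqp hp)
  have hT : 0 ≤ Theta (noiseOp τ g) := Theta_nonneg _ h1
  have h2 : (1 - ε) * Theta (noiseOp τ g) ≤
      (1 - ε) * Theta (noiseOp τ g) / (1 - 2 * τ) := by
    rw [le_div_iff₀ hρ]
    have : 0 ≤ (1 - ε) * Theta (noiseOp τ g) := mul_nonneg (by linarith) hT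
    nlinarith
  exact h2.trans (div_le_div_of_nonneg_right hs hρ.le)

/-- Lower bound on `Yfun`. -/
lemma Yfun_lower {ε s : ℝ} (hε0 : 0 < ε) (hε1 : ε < 1) (hs0 : 0 ≤ s) (hs1 : s ≤ 1)
    (hh : binEntropy ε ≤ 1 / 4) (hε : ε ≤ 1 / 2) :
    s * (1 - s) / 2 ≤ Yfun ε s := by
  have hc := strictConcave_binEntropy.concaveOn
  have mem : ∀ x, 0 ≤ x → x ≤ 1 → x ∈ Set.Icc (0:ℝ) 1 := fun x h h' => ⟨h, h'⟩
  have hεm := mem ε hε0.le hε1.le
  have h0m := mem 0 le_rfl zero_le_one
  have h1m := mem 1 zero_le_one le_rfl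
  have hhalf : (1 + ε) / 2 ∈ Set.Icc (0:ℝ) 1 := mem _ (by linarith) (by linarith)
  -- the second bracket is nonnegative
  have b2 : (1 - s) * binEntropy ε ≤ binEntropy (ε * (1 - s)) := by
    have := hc.2 hεm h0m (by linarith : 0 ≤ 1 - s) hs0 (by ring)
    simp only [smul_eq_mul, binEntropy_zero, mul_zero, add_zero] at this
    rwa [mul_comm (1 - s) ε] at this
  -- value at one half
  have hval : (1 - ε ^ 2) / 2 ≤ binEntropy ((1 + ε) / 2) := by
    have := binEntropy_ge (p := (1 + ε) / 2) (by linarith) (by linarith)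
    nlinarith
  have hval' : 1 / 2 ≤ 2 * binEntropy ((1 + ε) / 2) - binEntropy ε := by nlinarith
  have b1 : min s (1 - s) / 2 ≤ binEntropy (ε + (1 - ε) * s) - (1 - s) * binEntropy ε := by
    rcases le_total s (1 / 2) with h | h
    · have := hc.2 hεm hhalf (by linarith : 0 ≤ 1 - 2 * s) (by linarith : 0 ≤ 2 * s) (by ring)
      simp only [smul_eq_mul] at this
      have e : (1 - 2 * s) * ε + 2 * s * ((1 + ε) / 2) = ε + (1 - ε) * s := by ring
      rw [e] at this
      have hm : min s (1 - s) = s := min_eq_left (by linarith)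
      rw [hm]
      nlinarith
    · have := hc.2 hhalf h1m (by linarith : 0 ≤ 2 - 2 * s) (by linarith : 0 ≤ 2 * s - 1) (by ring)
      simp only [smul_eq_mul, binEntropy_one, mul_zero, add_zero] at this
      have e : (2 - 2 * s) * ((1 + ε) / 2) + (2 * s - 1) * 1 = ε + (1 - ε) * s := by ring
      rw [e] at this
      have hm : min s (1 - s) = 1 - s := min_eq_right (by linarith)
      rw [hm]
      nlinarith
  have hmin : s * (1 - s) ≤ min s (1 - s) := by
    refine le_min ?_ ?_
    · nlinarith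
    · nlinarith
  unfold Yfun
  linarith

end Vale.Agent.Lib.P322
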