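import Vale.Agent.Lib.P322.NearFlow
import Vale.Agent.Lib.P322.Limit

/-!
# The small set estimate for the one-sided function
-/

namespace Vale.Agent.Lib.P322

open Finset Real Filter Topology

variable {n : ℕ}

lemma continuous_Yfun (ε : ℝ) : Continuous (Yfun ε) := by
  unfold Yfun
  have := binEntropy_continuous
  fun_prop

lemma continuous_Jfun (ε : ℝ) (g : Cube n → ℝ) : Continuous (Jfun ε g) := by
  unfold Jfun avg
  refine Continuous.div_const ?_ _
  refine continuous_finsetSum _ (fun y _ => ?_)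
  exact (continuous_Yfun ε).comp (continuous_noiseOp g y)

lemma Jfun_zero (ε : ℝ) {g : Cube n → ℝ} (hg : ∀ x, g x = 0 ∨ g x = 1) : Jfun ε g 0 = 0 := by
  unfold Jfun avg
  simp only [noiseOp_zero]
  rw [sum_eq_zero, zero_div]
  intro y _
  rcases hg y with h | h <;> simp [h, Yfun_zero, Yfun_one]

/-- Lower bound for `Theta` at time `τ` for a set of small density. -/
lemma Theta_small_set {g : Cube n → ℝ} (hg : ∀ x, g x = 0 ∨ g x = 1)
    {u : Cube n → ℝ} (hu : avg u = avg g) (h0 : ∀ y, 0 < u y) (h1 : ∀ y, u y < 1)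
    {r L : ℝ} (hr0 : 0 < r) (hr1 : r < 1) (hL : 0 ≤ L) (hb : avg g ≤ 1 / 80) :
    21 / 10 * L * (1 - r) * avg g -
      (21 / 10 * L + 11 / 5 * L / r + exp L / r) * avg (fun y => u y * (1 - u y)) ≤ Theta u := by
  have hM : 0 < 1 - r := by linarith
  set P := avg (fun y => u y * (1 - u y)) with hP
  have hT := Theta_ge_nest u h0 h1 hr0 hL
  simp_rw [nest_gradP_normTrunc u hr1] at hT
  rw [avg_const_mul] at hT
  have hB := bellman G3_TPI (fun r h h' => G3_nonneg h h') (normTrunc r u)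
    (normTrunc_nonneg u hr1) (normTrunc_le_one u h1 hr1)
  have hE := avg_comp_normTrunc_le u h0 h1 hr0 hr1 (C := 11 / 5) (by norm_num)
    (G := G3) G3_zero (fun x hx hx' => G3_le hx hx')
  set â := avg (normTrunc r u) with hâ
  have hâ0 : 0 ≤ â := avg_nonneg (normTrunc_nonneg u hr1)
  have hbd := fun y => sub_normTrunc_bounds u h0 h1 hr0 hr1 y
  have h2 : avg u - â ≤ P / (1 - r) := by
    have := avg_mono (g := fun y => u y - normTrunc r u y)
      (h := fun y => u y * (1 - u y) / (1 - r)) (fun y => (hbd y).2)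
    rw [avg_sub] at this
    have e : avg (fun y => u y * (1 - u y) / (1 - r)) = P / (1 - r) := by
      simp only [div_eq_mul_inv]
      rw [mul_comm, ← avg_const_mul]
      congr 1; funext y; ring
    rwa [e] at this
  have h3 : â ≤ avg u := by
    have := avg_mono (g := normTrunc r u) (h := u) (fun y => by linarith [(hbd y).1])
    exact this
  have hâ1 : â ≤ 1 / 80 := by rw [hu] at h3; linarith
  have hG := G3_ge hâ0 hâ1
  rw [hu] at h2
  set Q := avg (fun y => nest n (gradP (normTrunc r u) y))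
  have hM1 : L * (1 - r) * (21 / 10 * (avg g - P / (1 - r))) ≤ L * (1 - r) * G3 â := by
    apply mul_le_mul_of_nonneg_left _ (by positivity)
    nlinarith
  have hM2 : L * (1 - r) * (G3 â - 11 / 5 / (r * (1 - r)) * P) ≤ L * (1 - r) * Q := by
    apply mul_le_mul_of_nonneg_left _ (by positivity)
    linarith
  have e1 : L * (1 - r) * (21 / 10 * (avg g - P / (1 - r))) =
      21 / 10 * L * (1 - r) * avg g - 21 / 10 * L * P := by
    field_simp
  have e2 : L * (1 - r) * (G3 â - 11 / 5 / (r * (1 - r)) * P) =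
      L * (1 - r) * G3 â - 11 / 5 * L / r * P := by
    field_simp
  have e3 : L * ((1 - r) * Q) = L * (1 - r) * Q := by ring
  rw [e3] at hT
  nlinarith

/-- The integrated inequality on small sets. -/
theorem near_ineq {g : Cube n → ℝ} (hg : ∀ x, g x = 0 ∨ g x = 1) {x₀ x₁ : Cube n}
    (hx₀ : g x₀ = 0) (hx₁ : g x₁ = 1) {ε r L : ℝ}
    (hε0 : 0 < ε) (hε1 : ε < 1 / 2) (hh : binEntropy ε ≤ 1 / 4) (hr0 : 0 < r) (hr1 : r < 1)
    (hL : 0 ≤ L) (hb : avg g ≤ 1 / 80) :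
    ε * (1 - ε) * (21 / 10 * L * (1 - r) * avg g) ≤
      (1 + 2 * ε * (1 - ε) * (21 / 10 * L + 11 / 5 * L / r + exp L / r)) * Jfun ε g ε := by
  set C := 21 / 10 * L + 11 / 5 * L / r + exp L / r with hCdef
  have hC : 0 ≤ C := by positivity
  have h1ε : 0 < 1 - ε := by linarith
  let D : ℝ → ℝ := fun τ =>
    avg (fun y => Yprime ε (noiseOp τ g y) *
      ∑ j, (noiseOp τ g (flip j y) - noiseOp τ g y)) / (1 - 2 * τ)
  have hbds : ∀ e, 0 < e → e < 1 / 2 → ∀ y, 0 < noiseOp e g y ∧ noiseOp e g y < 1 :=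
    fun e h0 h1 y => noiseOp_bounds hg hx₀ hx₁ h0 (by linarith) y
  have hD : ∀ e ∈ Set.Ioo 0 ε, HasDerivAt (Jfun ε g) (D e) e := by
    intro e he
    have h2 : e < 1 / 2 := by linarith [he.2]
    exact hasDerivAt_Jfun hε0 (by linarith) (by linarith) g (fun y => (hbds e he.1 h2 y).1)
      (fun y => (hbds e he.1 h2 y).2)
  have hDl : ∀ e ∈ Set.Ioo 0 ε, (1 - ε) * Theta (noiseOp e g) ≤ D e := by
    intro e he
    have h2 : e < 1 / 2 := by linarith [he.2]
    exact Jderiv_lower hε0 (by linarith) he.1 h2 g (fun y => (hbds e he.1 h2 y).1)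
      (fun y => (hbds e he.1 h2 y).2)
  have hDnn : ∀ e ∈ Set.Ioo 0 ε, 0 ≤ D e := by
    intro e he
    have h2 : e < 1 / 2 := by linarith [he.2]
    exact le_trans (mul_nonneg h1ε.le (Theta_nonneg _ (fun y => (hbds e he.1 h2 y).2))) (hDl e he)
  obtain ⟨τ, hτ, hslope⟩ := exists_hasDerivAt_eq_slope (Jfun ε g) D hε0
    (continuous_Jfun ε g).continuousOn hD
  rw [Jfun_zero ε hg, sub_zero, sub_zero] at hslope
  have hτ2 : τ < 1 / 2 := by linarith [hτ.2]
  -- monotonicity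
  have hmon : Jfun ε g τ ≤ Jfun ε g ε := by
    obtain ⟨c, hc, hs⟩ := exists_hasDerivAt_eq_slope (Jfun ε g) D hτ.2
      (continuous_Jfun ε g).continuousOn
      (fun e he => hD e ⟨hτ.1.trans he.1, he.2⟩)
    have h1 := hDnn c ⟨hτ.1.trans hc.1, hc.2⟩
    rw [hs] at h1
    have h2 : 0 < ε - τ := by linarith [hτ.2]
    rcases div_nonneg_iff.1 h1 with h3 | h3
    · linarith [h3.1]
    · linarith [h3.2]
  -- bound for the quadratic
  have hP : avg (fun y => noiseOp τ g y * (1 - noiseOp τ g y)) ≤ 2 * Jfun ε g τ := by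
    unfold Jfun
    rw [← avg_const_mul]
    refine avg_mono (fun y => ?_)
    have hy := hbds τ hτ.1 hτ2 y
    have := Yfun_lower hε0 (by linarith) hy.1.le hy.2.le hh (by linarith)
    linarith
  have hTh := Theta_small_set hg (avg_noiseOp τ g) (fun y => (hbds τ hτ.1 hτ2 y).1)
    (fun y => (hbds τ hτ.1 hτ2 y).2) hr0 hr1 hL hb
  rw [← hCdef] at hTh
  have hlow := hDl τ hτ
  rw [hslope] at hlow
  have h5 : C * avg (fun y => noiseOp τ g y * (1 - noiseOp τ g y)) ≤ C * (2 * Jfun ε g ε) :=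
    mul_le_mul_of_nonneg_left (hP.trans (by linarith)) hC
  have h6 : 21 / 10 * L * (1 - r) * avg g - C * (2 * Jfun ε g ε) ≤ Theta (noiseOp τ g) := by
    linarith
  have h7 : (1 - ε) * (21 / 10 * L * (1 - r) * avg g - C * (2 * Jfun ε g ε)) ≤
      Jfun ε g ε / ε :=
    (mul_le_mul_of_nonneg_left h6 h1ε.le).trans hlow
  rw [le_div_iff₀ hε0] at h7
  nlinarith

/-- Numeric comparison used for the small set estimate. -/
lemma small_numeric {ε ℓ c₀ B K : ℝ} (h0 : 0 < ε) (hε : ε < 1 / 10000) (hB : B ≤ ε * (ℓ + 1))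
    (hB0 : 0 ≤ B) (a3 : 20787 / 10000 * c₀ + 20402 / 10000 ≤ ℓ * (385 / 10000))
    (a4 : c₀ ≤ ℓ) (hK2 : K ≤ 10201 / 10000) :
    2 * B * K ≤ ε * (1 - ε) * (21 / 10 * (ℓ - c₀) * (1 - 1 / 100)) := by
  have h1 : 2 * B * K ≤ 2 * (ε * (ℓ + 1)) * (10201 / 10000) := by
    have h2 : 2 * B * K ≤ 2 * B * (10201 / 10000) :=
      mul_le_mul_of_nonneg_left hK2 (by positivity)
    have h3 : 2 * B * (10201 / 10000) ≤ 2 * (ε * (ℓ + 1)) * (10201 / 10000) := by
      apply mul_le_mul_of_nonneg_right _ (by norm_num)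
      linarith
    linarith
  have hL0 : 0 ≤ ℓ - c₀ := by linarith
  have h2 : ε * (20402 / 10000 * (ℓ + 1)) ≤
      ε * ((1 - ε) * (21 / 10 * (ℓ - c₀) * (1 - 1 / 100))) := by
    apply mul_le_mul_of_nonneg_left _ h0.le
    have h3 : (20787 / 10000) * (ℓ - c₀) ≤ (1 - ε) * (21 / 10 * (ℓ - c₀) * (1 - 1 / 100)) := by
      have h5 : (20787 / 10000 : ℝ) ≤ (1 - ε) * (21 / 10 * (1 - 1 / 100)) := by nlinarith
      have h6 := mul_le_mul_of_nonneg_right h5 hL0
      nlinarith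
    have h4 : 20402 / 10000 * (ℓ + 1) ≤ 20787 / 10000 * (ℓ - c₀) := by nlinarith
    linarith
  nlinarith

/-- Main branch of the small set estimate. -/
lemma small_main {ε ℓ c₀ : ℝ} (h0 : 0 < ε) (a1 : ε < 1 / 10000) (a2 : binEntropy ε ≤ 1 / 4)
    (hℓ : ℓ = -log ε) (hc₀ : exp c₀ = 10000)
    (a3 : 20787 / 10000 * c₀ + 20402 / 10000 ≤ ℓ * (385 / 10000))
    (a4 : c₀ ≤ ℓ) (a5 : 445 * (ε * ℓ) ≤ 1 / 10000) (hc₀pos : 0 < c₀)
    {g : Cube n → ℝ} (hg : ∀ x, g x = 0 ∨ g x = 1) (hb : avg g ≤ 1 / 80) {x₀ x₁ : Cube n}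
    (hx₀ : g x₀ = 0) (hx₁ : g x₁ = 1) :
    2 * avg g * binEntropy ε ≤ Jfun ε g ε := by
  have hε12 : ε < 1 / 2 := by linarith
  have hg0 : ∀ x, 0 ≤ g x := fun x => by rcases hg x with h | h <;> simp [h]
  have hb0 : 0 ≤ avg g := avg_nonneg hg0
  obtain ⟨L, hL⟩ : ∃ L, L = ℓ - c₀ := ⟨_, rfl⟩
  have hL0 : 0 ≤ L := by rw [hL]; linarith
  have hLℓ : L ≤ ℓ := by rw [hL]; linarith
  have hi := near_ineq hg hx₀ hx₁ h0 hε12 a2 (r := 1 / 100) (by norm_num) (by norm_num) hL0 hb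
  have hexp : exp L = ε⁻¹ / 10000 := by
    rw [hL, Real.exp_sub, hc₀, hℓ, Real.exp_neg, Real.exp_log h0]
  have h5 : 0 < 1 - ε := by linarith
  have hC : 2 * ε * (1 - ε) * (21 / 10 * L + 11 / 5 * L / (1 / 100) + exp L / (1 / 100)) ≤
      445 * (ε * ℓ) + 1 / 50 := by
    rw [hexp]
    have e1 : ε * (ε⁻¹ / 10000 / (1 / 100)) = 1 / 100 := by
      field_simp; norm_num
    have e2 : 2 * ε * (1 - ε) * (21 / 10 * L + 11 / 5 * L / (1 / 100) + ε⁻¹ / 10000 / (1 / 100))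
        = (1 - ε) * (2 * 2221 / 10 * (ε * L)) + (1 - ε) * (2 * (ε * (ε⁻¹ / 10000 / (1 / 100)))) := by
      ring
    rw [e2, e1]
    have h3 : ε * L ≤ ε * ℓ := mul_le_mul_of_nonneg_left hLℓ h0.le
    have h4 : 0 ≤ ε * L := mul_nonneg h0.le hL0
    have h6 : (1 - ε) * (2 * 2221 / 10 * (ε * L)) ≤ 1 * (2 * 2221 / 10 * (ε * L)) :=
      mul_le_mul_of_nonneg_right (by linarith) (by positivity)
    nlinarith
  obtain ⟨K, hK⟩ : ∃ K, K = 1 + 2 * ε * (1 - ε) *
      (21 / 10 * L + 11 / 5 * L / (1 / 100) + exp L / (1 / 100)) := ⟨_, rfl⟩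
  rw [← hK] at hi
  have hKpos : 0 < K := by
    rw [hK]
    have : 0 ≤ 2 * ε * (1 - ε) * (21 / 10 * L + 11 / 5 * L / (1 / 100) + exp L / (1 / 100)) := by
      positivity
    linarith
  have hK2 : K ≤ 10201 / 10000 := by
    rw [hK]; linarith
  have hbin := binEntropy_le_small h0 (by linarith : ε < 1)
  have hbin0 : 0 ≤ binEntropy ε := binEntropy_nonneg h0.le (by linarith)
  have hbin' : binEntropy ε ≤ ε * (ℓ + 1) := by rw [hℓ]; exact hbin
  have hnum := small_numeric h0 a1 hbin' hbin0 a3 a4 hK2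
  rw [← hL] at hnum
  have hfin : K * (2 * avg g * binEntropy ε) ≤ K * Jfun ε g ε := by
    refine le_trans ?_ hi
    have := mul_le_mul_of_nonneg_left hnum hb0
    nlinarith
  exact le_of_mul_le_mul_left hfin hKpos

/-- The small set estimate: eventually in `ε`, uniform in the dimension. -/
theorem small_set_bound : ∃ ε₁ : ℝ, 0 < ε₁ ∧ ∀ ε, 0 < ε → ε < ε₁ →
    binEntropy ε ≤ 1 / 4 ∧ ε < 1 / 2 ∧ ∀ (n : ℕ) (g : Cube n → ℝ), (∀ x, g x = 0 ∨ g x = 1) →
      avg g ≤ 1 / 80 → 2 * avg g * binEntropy ε ≤ Jfun ε g ε := by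
  obtain ⟨c₀, hc₀⟩ : ∃ c₀, c₀ = log 10000 := ⟨_, rfl⟩
  have hc₀pos : 0 < c₀ := by rw [hc₀]; exact Real.log_pos (by norm_num)
  have hc₀exp : exp c₀ = 10000 := by rw [hc₀]; exact Real.exp_log (by norm_num)
  have hlog : Tendsto (fun ε : ℝ => -log ε) (𝓝[>] 0) atTop :=
    tendsto_neg_atBot_atTop.comp Real.tendsto_log_nhdsGT_zero
  have hE1 : ∀ᶠ ε in 𝓝[>] (0:ℝ), ε < 1 / 10000 :=
    eventually_nhdsWithin_of_eventually_nhds (eventually_lt_nhds (by norm_num))
  have hE2 : ∀ᶠ ε in 𝓝[>] (0:ℝ), binEntropy ε ≤ 1 / 4 := by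
    have hc : Tendsto binEntropy (𝓝 0) (𝓝 (binEntropy 0)) := binEntropy_continuous.tendsto 0
    rw [binEntropy_zero] at hc
    exact eventually_nhdsWithin_of_eventually_nhds
      ((hc.eventually (eventually_lt_nhds (by norm_num : (0:ℝ) < 1 / 4))).mono (fun x h => h.le))
  have hE3 : ∀ᶠ ε in 𝓝[>] (0:ℝ), (20787 / 10000 * c₀ + 20402 / 10000) / (385 / 10000) ≤ -log ε :=
    hlog.eventually_ge_atTop _
  have hE4 : ∀ᶠ ε in 𝓝[>] (0:ℝ), c₀ ≤ -log ε := hlog.eventually_ge_atTop _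
  have hE5 : ∀ᶠ ε in 𝓝[>] (0:ℝ), 445 * (ε * (-log ε)) ≤ 1 / 10000 := by
    have hc : Tendsto (fun x : ℝ => x * log x) (𝓝 0) (𝓝 (0 * log 0)) :=
      Real.continuous_mul_log.tendsto 0
    rw [zero_mul] at hc
    have hc2 : Tendsto (fun x : ℝ => 445 * (x * (-log x))) (𝓝 0) (𝓝 (445 * (-0))) := by
      have := (hc.neg).const_mul 445
      refine this.congr (fun x => ?_)
      ring
    have e : (445 * (-0) : ℝ) < 1 / 10000 := by norm_num
    exact eventually_nhdsWithin_of_eventually_nhds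
      ((hc2.eventually (eventually_lt_nhds e)).mono (fun x h => h.le))
  have hall := hE1.and (hE2.and (hE3.and (hE4.and hE5)))
  obtain ⟨ε₁, hε₁, hsub⟩ := (mem_nhdsGT_iff_exists_Ioo_subset).1 hall
  refine ⟨ε₁, hε₁, fun ε h0 h1 => ?_⟩
  obtain ⟨a1, a2, a3, a4, a5⟩ := hsub ⟨h0, h1⟩
  refine ⟨a2, by linarith, fun n g hg hb => ?_⟩
  rw [div_le_iff₀ (by norm_num)] at a3
  by_cases hconst : ∃ x₁, g x₁ = 1
  · obtain ⟨x₁, hx₁⟩ := hconst
    have hne : ∃ x₀, g x₀ = 0 := by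
      by_contra hcon
      have hall1 : ∀ x, g x = 1 := fun x => by
        rcases hg x with h | h
        · exact absurd ⟨x, h⟩ hcon
        · exact h
      have : avg g = 1 := by
        have e : g = fun _ => 1 := funext hall1
        rw [e, avg_const]
      rw [this] at hb
      norm_num at hb
    obtain ⟨x₀, hx₀⟩ := hne
    exact small_main h0 a1 a2 rfl hc₀exp a3 a4 a5 hc₀pos hg hb hx₀ hx₁
  · have hall0 : ∀ x, g x = 0 := fun x => by
      rcases hg x with h | h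
      · exact h
      · exact absurd ⟨x, h⟩ hconst
    have e : g = fun _ => 0 := funext hall0
    have e1 : avg g = 0 := by rw [e, avg_const]
    have e3 : ∀ y, noiseOp ε g y = 0 := fun y =>
      sum_eq_zero (fun x _ => by rw [hall0 x, zero_mul])
    have e2 : Jfun ε g ε = 0 := by
      unfold Jfun
      simp only [e3, Yfun_zero]
      exact avg_const 0
    rw [e1, e2]
    norm_num

end Vale.Agent.Lib.P322
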