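import Vale.Agent.Lib.P322.CubeBasics

/-!
# The nested Poincare inequality

For `w : Cube n → [0,M]`:  `E nest(grad⁺ w) ≥ (2/M) Var(w)`.
-/

namespace Vale.Agent.Lib.P322

open Finset

variable {n : ℕ}

/-- Variance bound: `Var w ≤ (avg w) (M - avg w)`. -/
lemma var_le (w : Cube n → ℝ) {M : ℝ} (h0 : ∀ y, 0 ≤ w y) (h1 : ∀ y, w y ≤ M) :
    var w ≤ avg w * (M - avg w) := by
  have h : avg (fun y => w y * (M - w y)) ≥ 0 :=
    avg_nonneg (fun y => mul_nonneg (h0 y) (by linarith [h1 y]))
  have e : avg (fun y => w y * (M - w y)) = M * avg w - avg (fun y => w y ^ 2) := by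
    rw [← avg_const_mul, ← avg_sub]
    congr 1; funext y; ring
  unfold var
  nlinarith

/-- Variance decomposition along the first coordinate. -/
lemma var_succ (w : Cube (n + 1) → ℝ) :
    var w = (var (restr true w) + var (restr false w)) / 2 +
      (avg (restr true w) - avg (restr false w)) ^ 2 / 4 := by
  unfold var
  rw [avg_succ (fun y => w y ^ 2), avg_succ w]
  have e1 : restr true (fun y => w y ^ 2) = fun y => restr true w y ^ 2 := rfl
  have e2 : restr false (fun y => w y ^ 2) = fun y => restr false w y ^ 2 := rfl
  rw [e1, e2]
  ring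

lemma avg_max_ge (g h : Cube n → ℝ) : avg g - avg h ≤ avg (fun y => max (g y - h y) 0) := by
  rw [← avg_sub]
  exact avg_mono (fun y => le_max_left _ _)

/-- The algebraic key step. -/
lemma key_step {M V x y : ℝ} (hM : 0 < M) (hV0 : 0 ≤ V) (hV : V ≤ x * (M - x))
    (hy0 : 0 ≤ y) (hxy : y ≤ x) (hxM : x ≤ M) :
    ∃ r : ℝ, 0 ≤ r ∧ r ≤ 1 ∧ 2 / M * V + (x - y) ^ 2 / M ≤
      (1 - r ^ 2 / 2) * (2 / M * V) + r * (x - y) := by
  set s := x - y with hs
  have hs0 : 0 ≤ s := by rw [hs]; linarith
  have hsx : s ≤ x := by rw [hs]; linarith
  set A := 2 / M * V with hA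
  have hApos : 0 ≤ A := by positivity
  have hAM : A ≤ M / 2 := by
    have : V ≤ M ^ 2 / 4 := by nlinarith [sq_nonneg (x - M / 2)]
    rw [hA, div_mul_eq_mul_div, div_le_iff₀ hM]
    nlinarith
  rcases le_or_gt s A with hsA | hsA
  · -- s ≤ A
    rcases hApos.eq_or_lt with h0 | hAp
    · have : s = 0 := le_antisymm (by rw [← h0] at hsA; exact hsA) hs0
      rw [this]
      exact ⟨0, le_refl _, by norm_num, by simp⟩
    · refine ⟨s / A, by positivity, (div_le_one hAp).2 hsA, ?_⟩
      have e : (1 - (s / A) ^ 2 / 2) * A + s / A * s = A + s ^ 2 / (2 * A) := by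
        field_simp; ring
      rw [e]
      have : s ^ 2 / M ≤ s ^ 2 / (2 * A) :=
        div_le_div_of_nonneg_left (sq_nonneg s) (by positivity) (by linarith)
      linarith
  · -- A < s; take r = 1
    refine ⟨1, by norm_num, le_refl _, ?_⟩
    have hVs : V ≤ s * (M - s) := by
      have hsM2 : V < s * (M / 2) := by
        have : 2 / M * V < s := hsA
        rw [div_mul_eq_mul_div, div_lt_iff₀ hM] at this
        linarith
      rcases le_or_gt s (M / 2) with h | h
      · nlinarith
      · nlinarith
    have e : (1 - (1:ℝ) ^ 2 / 2) * A + 1 * s - (A + s ^ 2 / M) = (s * (M - s) - V) / M := by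
      rw [hA]; field_simp; ring
    have : 0 ≤ (s * (M - s) - V) / M := div_nonneg (by linarith) hM.le
    linarith

/-- Variance is nonnegative. -/
lemma var_nonneg (w : Cube n → ℝ) : 0 ≤ var w := by
  induction n with
  | zero =>
      have : var w = 0 := by
        have h : ∀ g : Cube 0 → ℝ, avg g = g (fun _ => false) := by
          intro g
          simp [avg, Finset.univ_unique]
          exact congrArg g (Subsingleton.elim _ _)
        unfold var
        rw [h, h]
        simp
      rw [this]
  | succ n ih =>
      rw [var_succ]
      have h1 := ih (restr true w)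
      have h2 := ih (restr false w)
      positivity

/-- One half of the induction step for the nested Poincare inequality. -/
lemma half_step {w u : Cube n → ℝ} {M : ℝ} (hM : 0 < M) (h0 : ∀ y, 0 ≤ w y) (h1 : ∀ y, w y ≤ M)
    (hu0 : ∀ y, 0 ≤ u y) (huM : avg u ≤ avg w)
    (IH : 2 / M * var w ≤ avg (fun y => nest n (gradP w y))) :
    2 / M * var w + (avg w - avg u) ^ 2 / M ≤
      avg (fun y => Nstar (nest n (gradP w y)) (max (w y - u y) 0)) := by
  have hV0 := var_nonneg w
  have hV := var_le w h0 h1
  have hx0 : avg u ≥ 0 := avg_nonneg hu0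
  have hxM : avg w ≤ M := by
    have := avg_mono h1
    rwa [avg_const] at this
  obtain ⟨r, hr0, hr1, hkey⟩ := key_step hM hV0 hV hx0 huM hxM
  refine hkey.trans ?_
  have hc : 0 ≤ 1 - r ^ 2 / 2 := by nlinarith
  have hA := avg_max_ge w u
  have hN : avg (fun y => (1 - r ^ 2 / 2) * nest n (gradP w y) + r * max (w y - u y) 0) ≤
      avg (fun y => Nstar (nest n (gradP w y)) (max (w y - u y) 0)) :=
    avg_mono (fun y => Nstar_ge_linear (nest_nonneg _ _ (gradP_nonneg w y))
      (le_max_right _ _) hr0 hr1)
  refine le_trans ?_ hN
  rw [avg_add, avg_const_mul, avg_const_mul]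
  have h3 := mul_le_mul_of_nonneg_left IH hc
  have h4 := mul_le_mul_of_nonneg_left hA hr0
  linarith

/-- Other half: without using the extra coordinate. -/
lemma half_step' {w u : Cube n → ℝ} {M : ℝ}
    (IH : 2 / M * var w ≤ avg (fun y => nest n (gradP w y))) :
    2 / M * var w ≤
      avg (fun y => Nstar (nest n (gradP w y)) (max (w y - u y) 0)) := by
  refine IH.trans (avg_mono (fun y => ?_))
  have := Nstar_ge_linear (nest_nonneg _ _ (gradP_nonneg w y))
    (le_max_right (w y - u y) 0) (le_refl 0) (by norm_num : (0:ℝ) ≤ 1)
  simpa using this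

/-- The nested Poincare inequality. -/
theorem nest_poincare {M : ℝ} (hM : 0 < M) : ∀ {n : ℕ} (w : Cube n → ℝ),
    (∀ y, 0 ≤ w y) → (∀ y, w y ≤ M) →
    2 / M * var w ≤ avg (fun y => nest n (gradP w y)) := by
  intro n
  induction n with
  | zero =>
      intro w _ _
      have hv : var w = 0 := by
        have h : ∀ g : Cube 0 → ℝ, avg g = g (fun _ => false) := by
          intro g
          simp [avg, Finset.univ_unique]
          exact congrArg g (Subsingleton.elim _ _)
        unfold var
        rw [h, h]
        simp
      rw [hv]
      simp [nest, avg]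
  | succ n ih =>
      intro w h0 h1
      have ht0 : ∀ y, 0 ≤ restr true w y := fun y => h0 _
      have ht1 : ∀ y, restr true w y ≤ M := fun y => h1 _
      have hf0 : ∀ y, 0 ≤ restr false w y := fun y => h0 _
      have hf1 : ∀ y, restr false w y ≤ M := fun y => h1 _
      have IHt := ih _ ht0 ht1
      have IHf := ih _ hf0 hf1
      rw [avg_succ, var_succ]
      have et : restr true (fun y => nest (n + 1) (gradP w y)) =
          fun y => Nstar (nest n (gradP (restr true w) y))
            (max (restr true w y - restr false w y) 0) := by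
        funext y
        simp only [restr]
        rw [nest_gradP_cons]
        simp [restr]
      have ef : restr false (fun y => nest (n + 1) (gradP w y)) =
          fun y => Nstar (nest n (gradP (restr false w) y))
            (max (restr false w y - restr true w y) 0) := by
        funext y
        simp only [restr]
        rw [nest_gradP_cons]
        simp [restr]
      rw [et, ef]
      rcases le_total (avg (restr false w)) (avg (restr true w)) with hle | hle
      · have a1 := half_step hM ht0 ht1 hf0 hle IHt
        have a2 := half_step' (u := restr true w) IHf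
        have e : 2 / M * ((var (restr true w) + var (restr false w)) / 2 +
            (avg (restr true w) - avg (restr false w)) ^ 2 / 4) =
            (2 / M * var (restr true w) + (avg (restr true w) - avg (restr false w)) ^ 2 / M +
              2 / M * var (restr false w)) / 2 := by
          field_simp; ring
        rw [e]
        linarith
      · have a1 := half_step hM hf0 hf1 ht0 hle IHf
        have a2 := half_step' (u := restr false w) IHt
        have e : 2 / M * ((var (restr true w) + var (restr false w)) / 2 +
            (avg (restr true w) - avg (restr false w)) ^ 2 / 4) =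
            (2 / M * var (restr true w) +
              (2 / M * var (restr false w) +
                (avg (restr false w) - avg (restr true w)) ^ 2 / M)) / 2 := by
          field_simp; ring
        rw [e]
        linarith

end Vale.Agent.Lib.P322
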