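import Vale.Agent.Lib.P322.NearFinal

/-!
# Spectral inequalities for the noise operator, without Fourier expansions
-/

namespace Vale.Agent.Lib.P322

open Finset Real

variable {n : ℕ}

lemma noiseOp_add (ε : ℝ) (g h : Cube n → ℝ) (y : Cube n) :
    noiseOp ε (fun x => g x + h x) y = noiseOp ε g y + noiseOp ε h y := by
  unfold noiseOp
  simp only [add_mul, sum_add_distrib]

lemma noiseOp_sub (ε : ℝ) (g h : Cube n → ℝ) (y : Cube n) :
    noiseOp ε (fun x => g x - h x) y = noiseOp ε g y - noiseOp ε h y := by
  unfold noiseOp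
  simp only [sub_mul, sum_sub_distrib]

lemma noiseOp_const_mul (ε c : ℝ) (g : Cube n → ℝ) (y : Cube n) :
    noiseOp ε (fun x => c * g x) y = c * noiseOp ε g y := by
  unfold noiseOp
  rw [mul_sum]
  exact sum_congr rfl (fun x _ => by ring)

lemma noiseOp_const (ε c : ℝ) (y : Cube n) : noiseOp ε (fun _ => c) y = c := by
  unfold noiseOp
  rw [← mul_sum, sum_noisePr_left, mul_one]

lemma noiseOp_cons (ε : ℝ) (g : Cube (n + 1) → ℝ) (b : Bool) (y : Cube n) :
    noiseOp ε g (Fin.cons b y) =
      (if true = b then 1 - ε else ε) * noiseOp ε (restr true g) y +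
      (if false = b then 1 - ε else ε) * noiseOp ε (restr false g) y := by
  unfold noiseOp restr
  rw [sum_cube_succ]
  simp only [noisePr_cons, mul_sum]
  congr 1 <;> exact sum_congr rfl (fun x _ => by ring)

lemma avg_add_half (f g : Cube n → ℝ) : (avg f + avg g) / 2 = avg (fun y => (f y + g y) / 2) := by
  have e : (fun y => (f y + g y) / 2) = fun y => (1 / 2 : ℝ) * (f y + g y) := by
    funext y; ring
  rw [e, avg_const_mul, avg_add]
  ring

/-- The bilinear form of the noise operator. -/
noncomputable def bil (ε : ℝ) (G H : Cube n → ℝ) : ℝ := avg (fun y => G y * noiseOp ε H y)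

lemma bil_symm (ε : ℝ) (G H : Cube n → ℝ) : bil ε G H = bil ε H G := by
  unfold bil avg noiseOp
  congr 1
  simp only [mul_sum]
  rw [sum_comm]
  refine sum_congr rfl (fun x _ => sum_congr rfl (fun y _ => ?_))
  rw [noisePr_comm]
  ring

/-- Half sum of the restrictions. -/
noncomputable def halfSum (G : Cube (n + 1) → ℝ) (y : Cube n) : ℝ :=
  (restr true G y + restr false G y) / 2

/-- Half difference of the restrictions. -/
noncomputable def halfDiff (G : Cube (n + 1) → ℝ) (y : Cube n) : ℝ :=
  (restr true G y - restr false G y) / 2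

lemma bil_succ (ε : ℝ) (G : Cube (n + 1) → ℝ) :
    bil ε G G = bil ε (halfSum G) (halfSum G) + (1 - 2 * ε) * bil ε (halfDiff G) (halfDiff G) := by
  have hA : ∀ y, noiseOp ε (halfSum G) y =
      (noiseOp ε (restr true G) y + noiseOp ε (restr false G) y) / 2 := by
    intro y
    have e : halfSum G = fun x => (1 / 2 : ℝ) * (restr true G x + restr false G x) := by
      funext x; unfold halfSum; ring
    rw [e, noiseOp_const_mul, noiseOp_add]
    ring
  have hB : ∀ y, noiseOp ε (halfDiff G) y =
      (noiseOp ε (restr true G) y - noiseOp ε (restr false G) y) / 2 := by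
    intro y
    have e : halfDiff G = fun x => (1 / 2 : ℝ) * (restr true G x - restr false G x) := by
      funext x; unfold halfDiff; ring
    rw [e, noiseOp_const_mul, noiseOp_sub]
    ring
  unfold bil
  rw [avg_succ (fun y => G y * noiseOp ε G y), avg_add_half, ← avg_const_mul, ← avg_add]
  congr 1
  funext y
  simp only [restr, noiseOp_cons, hA, hB, halfSum, halfDiff]
  norm_num
  ring

lemma avg_sq_succ (G : Cube (n + 1) → ℝ) :
    avg (fun y => G y ^ 2) = avg (fun y => halfSum G y ^ 2) + avg (fun y => halfDiff G y ^ 2) := by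
  rw [avg_succ (fun y => G y ^ 2), avg_add_half, ← avg_add]
  congr 1
  funext y
  simp only [restr, halfSum, halfDiff]
  ring

lemma avg_halfSum (G : Cube (n + 1) → ℝ) : avg (halfSum G) = avg G := by
  rw [avg_succ G]
  have e : halfSum G = fun x => (1 / 2 : ℝ) * (restr true G x + restr false G x) := by
    funext x; unfold halfSum; ring
  rw [e, avg_const_mul, avg_add]
  ring

lemma avg_halfDiff (G : Cube (n + 1) → ℝ) :
    avg (halfDiff G) = (avg (restr true G) - avg (restr false G)) / 2 := by
  have e : halfDiff G = fun x => (1 / 2 : ℝ) * (restr true G x - restr false G x) := by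
    funext x; unfold halfDiff; ring
  rw [e, avg_const_mul, avg_sub]
  ring

lemma var_eq_succ (G : Cube (n + 1) → ℝ) :
    var G = var (halfSum G) + avg (fun y => halfDiff G y ^ 2) := by
  unfold var
  rw [avg_sq_succ, avg_halfSum]
  ring

lemma cube_zero_unique (x y : Cube 0) : x = y := Subsingleton.elim _ _

lemma noiseOp_zero_dim (ε : ℝ) (g : Cube 0 → ℝ) (y : Cube 0) : noiseOp ε g y = g y := by
  unfold noiseOp
  rw [Fintype.sum_eq_single y]
  · simp [noisePr]
  · intro x hx
    exact absurd (cube_zero_unique x y) hx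

lemma avg_zero_dim (g : Cube 0 → ℝ) : avg g = g (fun _ => false) := by
  simp [avg, Finset.univ_unique]
  exact congrArg g (Subsingleton.elim _ _)

/-- Spectral gap for the noise operator. -/
theorem spectral_gap {ε : ℝ} (h0 : 0 ≤ ε) (h1 : ε ≤ 1 / 2) : ∀ {n : ℕ} (G : Cube n → ℝ),
    2 * ε * var G ≤ avg (fun y => G y ^ 2) - bil ε G G := by
  intro n
  induction n with
  | zero =>
      intro G
      have hv : var G = 0 := by
        unfold var
        rw [avg_zero_dim, avg_zero_dim]
        simp
      rw [hv]
      unfold bil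
      simp only [noiseOp_zero_dim]
      rw [avg_zero_dim, avg_zero_dim]
      simp [sq]
  | succ n ih =>
      intro G
      rw [bil_succ, avg_sq_succ, var_eq_succ]
      have ihA := ih (halfSum G)
      have ihB := ih (halfDiff G)
      have hV := var_nonneg (halfDiff G)
      have hρ : 0 ≤ 1 - 2 * ε := by linarith
      have hB : 0 ≤ avg (fun y => halfDiff G y ^ 2) - bil ε (halfDiff G) (halfDiff G) := by
        have : 0 ≤ 2 * ε * var (halfDiff G) := by positivity
        linarith
      have := mul_nonneg hρ hB
      nlinarith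

/-- The sign character of a coordinate. -/
noncomputable def chi (i : Fin n) (y : Cube n) : ℝ := if y i = true then 1 else -1

/-- The level-one coefficient. -/
noncomputable def coef (G : Cube n → ℝ) (i : Fin n) : ℝ := avg (fun y => G y * chi i y)

/-- The weight at level one. -/
noncomputable def lev1 (G : Cube n → ℝ) : ℝ := ∑ i, coef G i ^ 2

lemma chi_cons_zero (b : Bool) (y : Cube n) :
    chi (0 : Fin (n + 1)) (Fin.cons b y : Cube (n + 1)) = if b = true then 1 else -1 := by
  simp [chi]

lemma chi_cons_succ (i : Fin n) (b : Bool) (y : Cube n) :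
    chi i.succ (Fin.cons b y : Cube (n + 1)) = chi i y := by
  simp [chi]

lemma coef_zero_eq (G : Cube (n + 1) → ℝ) : coef G 0 = avg (halfDiff G) := by
  unfold coef
  rw [avg_succ, avg_add_half]
  congr 1
  funext y
  simp only [restr, chi_cons_zero, halfDiff]
  norm_num
  ring

lemma coef_succ_eq (G : Cube (n + 1) → ℝ) (i : Fin n) : coef G i.succ = coef (halfSum G) i := by
  unfold coef
  rw [avg_succ, avg_add_half]
  congr 1
  funext y
  simp only [restr, chi_cons_succ, halfSum]
  ring

lemma lev1_succ (G : Cube (n + 1) → ℝ) : lev1 G = avg (halfDiff G) ^ 2 + lev1 (halfSum G) := by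
  unfold lev1
  rw [Fin.sum_univ_succ, coef_zero_eq]
  congr 1
  exact sum_congr rfl (fun i _ => by rw [coef_succ_eq])

/-- Spectral inequality separating the level one. -/
theorem spectral_level {ε : ℝ} (h0 : 0 ≤ ε) (h1 : ε ≤ 1 / 2) : ∀ {n : ℕ} (G : Cube n → ℝ),
    2 * ε * (var G + (1 - 2 * ε) * (var G - lev1 G)) ≤ avg (fun y => G y ^ 2) - bil ε G G := by
  intro n
  induction n with
  | zero =>
      intro G
      have hv : var G = 0 := by
        unfold var
        rw [avg_zero_dim, avg_zero_dim]
        simp
      have hl : lev1 G = 0 := by simp [lev1]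
      rw [hv, hl]
      unfold bil
      simp only [noiseOp_zero_dim]
      rw [avg_zero_dim, avg_zero_dim]
      simp [sq]
  | succ n ih =>
      intro G
      rw [bil_succ, avg_sq_succ, var_eq_succ, lev1_succ]
      have ihA := ih (halfSum G)
      have hB := spectral_gap h0 h1 (halfDiff G)
      have hρ : 0 ≤ 1 - 2 * ε := by linarith
      have hB' := mul_le_mul_of_nonneg_left hB hρ
      have hvB : var (halfDiff G) = avg (fun y => halfDiff G y ^ 2) - avg (halfDiff G) ^ 2 := rfl
      rw [hvB] at hB'
      linarith

/-- `chi` is an eigenfunction of the noise operator. -/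
lemma noiseOp_chi (ε : ℝ) : ∀ {n : ℕ} (i : Fin n) (y : Cube n),
    noiseOp ε (chi i) y = (1 - 2 * ε) * chi i y := by
  intro n
  cases n with
  | zero => intro i; exact i.elim0
  | succ m =>
      intro i y
      have hy : y = ins i (y i) (Fin.removeNth i y) := by
        unfold ins
        exact (Fin.insertNth_self_removeNth i y).symm
      rw [hy, noiseOp_ins]
      have e1 : (fun x => chi i (ins i true x)) = fun _ => (1 : ℝ) := by
        funext x; simp [chi]
      have e2 : (fun x => chi i (ins i false x)) = fun _ => (-1 : ℝ) := by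
        funext x; simp [chi]
      rw [e1, e2, noiseOp_const, noiseOp_const]
      cases y i <;> simp [chi] <;> ring

/-- The level-one coefficients of a noisy function. -/
lemma coef_noiseOp (ε : ℝ) (g : Cube n → ℝ) (i : Fin n) :
    coef (noiseOp ε g) i = (1 - 2 * ε) * coef g i := by
  unfold coef
  have e := bil_symm ε (chi i) g
  unfold bil at e
  have e1 : avg (fun y => noiseOp ε g y * chi i y) = avg (fun y => chi i y * noiseOp ε g y) := by
    congr 1; funext y; ring
  rw [e1, e]
  simp only [noiseOp_chi]
  rw [← avg_const_mul]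
  congr 1; funext y; ring

lemma lev1_noiseOp_le {ε : ℝ} (h0 : 0 ≤ ε) (h1 : ε ≤ 1 / 2) (g : Cube n → ℝ) :
    lev1 (noiseOp ε g) ≤ lev1 g := by
  unfold lev1
  refine sum_le_sum (fun i _ => ?_)
  rw [coef_noiseOp, mul_pow]
  have : (1 - 2 * ε) ^ 2 ≤ 1 := by nlinarith
  nlinarith [sq_nonneg (coef g i)]

end Vale.Agent.Lib.P322
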