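import Vale.Agent.Lib.P322.Flow

/-!
# Theorem A: sharp entropy lower bound at low noise, uniformly in the dimension
-/

namespace Vale.Agent.Lib.P322

open Finset Real

variable {n : ℕ}

/-- Truncation at level `r`. -/
noncomputable def trunc (r : ℝ) (w : Cube n → ℝ) (y : Cube n) : ℝ := max (w y - r) 0

lemma trunc_nonneg (r : ℝ) (w : Cube n → ℝ) (y : Cube n) : 0 ≤ trunc r w y := le_max_right _ _

/-- Pointwise bound combining truncation and domination. -/
lemma pointwise_trunc (w : Cube n → ℝ) (h1 : ∀ y, w y < 1) {r L : ℝ} (hr0 : 0 < r)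
    (hL : 0 ≤ L) (y : Cube n) (hy0 : 0 < w y) :
    L * nest n (gradP (trunc r w) y) - exp L / r * (w y * (1 - w y)) ≤
      ∑ j, Fent (gradP w y j) (1 - w y) := by
  have hv : 0 < 1 - w y := by linarith [h1 y]
  have hsum0 : 0 ≤ ∑ j, Fent (gradP w y j) (1 - w y) :=
    sum_nonneg (fun j _ => Fent_nonneg (gradP_nonneg w y j) hv)
  have hexp : 0 < exp L / r := by positivity
  rcases le_or_gt (w y) r with hle | hgt
  · have hz : gradP (trunc r w) y = fun _ => 0 := by
      funext j
      unfold gradP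
      have : trunc r w y = 0 := max_eq_right (by linarith)
      rw [this]
      exact max_eq_right (by linarith [trunc_nonneg r w (flip j y)])
    rw [hz, nest_zero, mul_zero]
    have : 0 ≤ exp L / r * (w y * (1 - w y)) := by positivity
    linarith
  · have hmono : nest n (gradP (trunc r w) y) ≤ nest n (gradP w y) := by
      refine nest_mono n _ _ (gradP_nonneg _ y) (fun j => ?_)
      unfold gradP
      refine max_le ?_ (le_max_right _ _)
      refine le_trans ?_ (le_max_left _ _)
      have e : trunc r w y = w y - r := max_eq_left (by linarith)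
      have e' : w (flip j y) - r ≤ trunc r w (flip j y) := le_max_left _ _
      rw [e]
      linarith
    have hb := sum_Fent_ge (1 - w y) hv n (gradP w y) (gradP_nonneg w y) L
    have h3 : L * nest n (gradP (trunc r w) y) ≤ L * nest n (gradP w y) :=
      mul_le_mul_of_nonneg_left hmono hL
    have h4 : exp L * (1 - w y) ≤ exp L / r * (w y * (1 - w y)) := by
      rw [div_mul_eq_mul_div, le_div_iff₀ hr0]
      have : r * (1 - w y) ≤ w y * (1 - w y) := mul_le_mul_of_nonneg_right hgt.le hv.le
      have he := Real.exp_pos L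
      nlinarith
    linarith

/-- Truncated variance: lower bound. -/
lemma var_trunc_ge (w : Cube n → ℝ) (h0 : ∀ y, 0 < w y) (h1 : ∀ y, w y < 1) {r : ℝ}
    (hr0 : 0 < r) (hr1 : r < 1) :
    (1 - r) ^ 2 * (avg w * (1 - avg w)) - 9 / 4 * avg (fun y => w y * (1 - w y)) ≤
      var (trunc r w) := by
  set M := 1 - r with hM
  have hMpos : 0 < M := by rw [hM]; linarith
  have hM1 : M ≤ 1 := by rw [hM]; linarith
  set P := avg (fun y => w y * (1 - w y)) with hP
  set a := avg w with ha
  set c := avg (trunc r w) with hc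
  have p1 : ∀ y, trunc r w y * (M - trunc r w y) ≤ w y * (1 - w y) := by
    intro y
    have hy0 := h0 y
    have hy1 := h1 y
    rcases le_or_gt (w y) r with hle | hgt
    · have : trunc r w y = 0 := max_eq_right (by linarith)
      rw [this]
      simp only [zero_mul]
      nlinarith
    · have : trunc r w y = w y - r := max_eq_left (by linarith)
      rw [this, hM]
      have e : 1 - r - (w y - r) = 1 - w y := by ring
      rw [e]
      exact mul_le_mul_of_nonneg_right (by linarith) (by linarith)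
  have p2 : ∀ y, trunc r w y ≤ M * w y := by
    intro y
    have hy0 := h0 y
    have hy1 := h1 y
    rcases le_or_gt (w y) r with hle | hgt
    · have : trunc r w y = 0 := max_eq_right (by linarith)
      rw [this]; positivity
    · have : trunc r w y = w y - r := max_eq_left (by linarith)
      rw [this, hM]; nlinarith
  have p3 : ∀ y, M * w y - trunc r w y ≤ w y * (1 - w y) := by
    intro y
    have hy0 := h0 y
    have hy1 := h1 y
    rcases le_or_gt (w y) r with hle | hgt
    · have : trunc r w y = 0 := max_eq_right (by linarith)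
      rw [this, hM]; nlinarith
    · have : trunc r w y = w y - r := max_eq_left (by linarith)
      rw [this, hM]; nlinarith
  have hPq : P ≤ 1 / 4 := by
    have := avg_mono (g := fun y => w y * (1 - w y)) (h := fun _ => (1 / 4 : ℝ))
      (fun y => by nlinarith [sq_nonneg (w y - 1 / 2)])
    rwa [avg_const] at this
  have hP0 : 0 ≤ P := avg_nonneg (fun y => mul_nonneg (h0 y).le (by linarith [h1 y]))
  have ha0 : 0 ≤ a := avg_nonneg (fun y => (h0 y).le)
  have ha1 : a ≤ 1 := by
    have := avg_mono (g := w) (h := fun _ => (1 : ℝ)) (fun y => (h1 y).le)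
    rwa [avg_const] at this
  have q1 : M * c - avg (fun y => trunc r w y ^ 2) ≤ P := by
    have := avg_mono p1
    have e : avg (fun y => trunc r w y * (M - trunc r w y)) =
        M * c - avg (fun y => trunc r w y ^ 2) := by
      rw [hc, ← avg_const_mul, ← avg_sub]
      congr 1; funext y; ring
    rwa [e] at this
  have q2 : c ≤ M * a := by
    have := avg_mono p2
    rwa [avg_const_mul] at this
  have q3 : M * a - c ≤ P := by
    have := avg_mono p3
    rwa [avg_sub, avg_const_mul] at this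
  unfold var
  set η := M * a - c with hη
  have hη0 : 0 ≤ η := by rw [hη]; linarith
  have hcη : c = M * a - η := by rw [hη]; ring
  rw [← hc, hcη] at *
  have hE : (M * a - η) * (M - (M * a - η)) = M ^ 2 * (a * (1 - a)) + η * M * (2 * a - 1) - η ^ 2 := by
    ring
  have h5 : -η ≤ η * M * (2 * a - 1) := by
    have : -1 ≤ M * (2 * a - 1) := by nlinarith
    nlinarith
  have h6 : η ^ 2 ≤ P / 4 := by nlinarith
  nlinarith

/-- `binEntropy p ≥ 2 p (1-p)`. -/
lemma binEntropy_ge {p : ℝ} (h0 : 0 < p) (h1 : p < 1) : 2 * (p * (1 - p)) ≤ binEntropy p := by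
  unfold binEntropy
  have a1 : 1 - p ≤ log p⁻¹ := by
    rw [Real.log_inv]; linarith [Real.log_le_sub_one_of_pos h0]
  have a2 : p ≤ log (1 - p)⁻¹ := by
    rw [Real.log_inv]; linarith [Real.log_le_sub_one_of_pos (show 0 < 1 - p by linarith)]
  have a3 := mul_le_mul_of_nonneg_left a1 h0.le
  have a4 := mul_le_mul_of_nonneg_left a2 (show 0 ≤ 1 - p by linarith)
  nlinarith

/-- Lower bound for the edge functional. -/
lemma Theta_ge (w : Cube n → ℝ) (h0 : ∀ y, 0 < w y) (h1 : ∀ y, w y < 1) {r L : ℝ}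
    (hr0 : 0 < r) (hr1 : r < 1) (hL : 0 ≤ L) :
    2 * L * (1 - r) * (avg w * (1 - avg w)) -
      (9 * L / (2 * (1 - r)) + exp L / r) * avg (fun y => w y * (1 - w y)) ≤ Theta w := by
  have hM : 0 < 1 - r := by linarith
  have hpw := avg_mono (fun y => pointwise_trunc w h1 hr0 hL y (h0 y))
  rw [avg_sub, avg_const_mul, avg_const_mul] at hpw
  have hP := nest_poincare hM (trunc r w) (trunc_nonneg r w) (by
    intro y
    refine max_le ?_ hM.le
    linarith [h1 y])
  have hV := var_trunc_ge w h0 h1 hr0 hr1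
  set P := avg (fun y => w y * (1 - w y))
  set a := avg w
  have h3 : L * (2 / (1 - r) * var (trunc r w)) ≤ L * avg (fun y => nest n (gradP (trunc r w) y)) :=
    mul_le_mul_of_nonneg_left hP hL
  have h4 : L * (2 / (1 - r)) * ((1 - r) ^ 2 * (a * (1 - a)) - 9 / 4 * P) ≤
      L * (2 / (1 - r)) * var (trunc r w) :=
    mul_le_mul_of_nonneg_left hV (by positivity)
  have e1 : L * (2 / (1 - r)) * ((1 - r) ^ 2 * (a * (1 - a)) - 9 / 4 * P) =
      2 * L * (1 - r) * (a * (1 - a)) - 9 * L / (2 * (1 - r)) * P := by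
    field_simp; ring
  have e2 : L * (2 / (1 - r)) * var (trunc r w) = L * (2 / (1 - r) * var (trunc r w)) := by ring
  have e3 : (9 * L / (2 * (1 - r)) + exp L / r) * P =
      9 * L / (2 * (1 - r)) * P + exp L / r * P := by ring
  unfold Theta
  linarith

/-- Derivative lower bound. -/
lemma deriv_lower (u : Cube n → ℝ) (h0 : ∀ y, 0 < u y) (h1 : ∀ y, u y < 1) {ε r L : ℝ}
    (hε0 : 0 < ε) (hε1 : ε < 1 / 2) (hr0 : 0 < r) (hr1 : r < 1) (hL : 0 ≤ L) :
    4 * L * (1 - r) * (avg u * (1 - avg u)) -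
      (9 * L / (2 * (1 - r)) + exp L / r) * avg (fun y => binEntropy (u y)) ≤
      (Theta u + Theta (fun z => 1 - u z)) / (1 - 2 * ε) := by
  have hρ : 0 < 1 - 2 * ε := by linarith
  have hρ1 : 1 - 2 * ε ≤ 1 := by linarith
  have t1 := Theta_ge u h0 h1 hr0 hr1 hL
  have t2 := Theta_ge (fun z => 1 - u z) (fun y => by linarith [h1 y])
    (fun y => by linarith [h0 y]) hr0 hr1 hL
  have e1 : avg (fun z => 1 - u z) = 1 - avg u := by
    rw [avg_sub, avg_const]
  have e2 : avg (fun y => (1 - u y) * (1 - (1 - u y))) = avg (fun y => u y * (1 - u y)) := by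
    congr 1; funext y; ring
  rw [e1, e2] at t2
  have hPH : 2 * avg (fun y => u y * (1 - u y)) ≤ avg (fun y => binEntropy (u y)) := by
    rw [← avg_const_mul]
    exact avg_mono (fun y => binEntropy_ge (h0 y) (h1 y))
  have hT1 : 0 ≤ Theta u := Theta_nonneg u h1
  have hT2 : 0 ≤ Theta (fun z => 1 - u z) :=
    Theta_nonneg _ (fun y => by linarith [h0 y])
  have hdiv : Theta u + Theta (fun z => 1 - u z) ≤
      (Theta u + Theta (fun z => 1 - u z)) / (1 - 2 * ε) := by
    rw [le_div_iff₀ hρ]
    nlinarith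
  refine le_trans ?_ hdiv
  have hC : 0 ≤ 9 * L / (2 * (1 - r)) + exp L / r := by
    have : 0 < 1 - r := by linarith
    positivity
  have h5 := mul_le_mul_of_nonneg_left hPH hC
  have e3 : (1 - avg u) * (1 - (1 - avg u)) = avg u * (1 - avg u) := by ring
  rw [e3] at t2
  nlinarith

/-- Boolean valued inputs have noisy values strictly between 0 and 1. -/
lemma noiseOp_bounds {g : Cube n → ℝ} (hg : ∀ x, g x = 0 ∨ g x = 1) {x₀ x₁ : Cube n}
    (hx₀ : g x₀ = 0) (hx₁ : g x₁ = 1) {ε : ℝ} (h0 : 0 < ε) (h1 : ε < 1) (y : Cube n) :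
    0 < noiseOp ε g y ∧ noiseOp ε g y < 1 := by
  constructor
  · refine sum_pos' (fun x _ => ?_) ⟨x₁, mem_univ _, ?_⟩
    · rcases hg x with h | h <;> rw [h] <;> simp [(noisePr_pos h0 h1 x y).le]
    · rw [hx₁, one_mul]; exact noisePr_pos h0 h1 _ y
  · have e := noiseOp_one_sub ε g y
    have : 0 < noiseOp ε (fun x => 1 - g x) y := by
      refine sum_pos' (fun x _ => ?_) ⟨x₀, mem_univ _, ?_⟩
      · beta_reduce
        rcases hg x with h | h <;> rw [h] <;> simp [(noisePr_pos h0 h1 x y).le]
      · beta_reduce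
        rw [hx₀, sub_zero, one_mul]; exact noisePr_pos h0 h1 _ y
    linarith

lemma continuous_noiseOp (g : Cube n → ℝ) (y : Cube n) : Continuous (fun e => noiseOp e g y) := by
  unfold noiseOp noisePr
  refine continuous_finsetSum _ (fun x _ => continuous_const.mul ?_)
  refine continuous_finsetProd _ (fun i _ => ?_)
  split_ifs <;> fun_prop

lemma continuous_Hent (g : Cube n → ℝ) : Continuous (Hent g) := by
  unfold Hent avg
  refine Continuous.div_const ?_ _
  refine continuous_finsetSum _ (fun y _ => ?_)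
  exact binEntropy_continuous.comp (continuous_noiseOp g y)

lemma Hent_zero {g : Cube n → ℝ} (hg : ∀ x, g x = 0 ∨ g x = 1) : Hent g 0 = 0 := by
  unfold Hent avg
  simp only [noiseOp_zero]
  rw [sum_eq_zero, zero_div]
  intro y _
  rcases hg y with h | h <;> simp [h]

/-- The integrated inequality. -/
theorem main_ineq {g : Cube n → ℝ} (hg : ∀ x, g x = 0 ∨ g x = 1) {x₀ x₁ : Cube n}
    (hx₀ : g x₀ = 0) (hx₁ : g x₁ = 1) {ε r L : ℝ}
    (hε0 : 0 < ε) (hε1 : ε < 1 / 2) (hr0 : 0 < r) (hr1 : r < 1) (hL : 0 ≤ L) :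
    4 * ε * L * (1 - r) * (avg g * (1 - avg g)) ≤
      (1 + ε * (9 * L / (2 * (1 - r)) + exp L / r)) * Hent g ε := by
  set C := 9 * L / (2 * (1 - r)) + exp L / r with hCdef
  have hC : 0 ≤ C := by
    have : 0 < 1 - r := by linarith
    positivity
  -- the derivative function
  let D : ℝ → ℝ := fun e =>
    (Theta (noiseOp e g) + Theta (fun z => 1 - noiseOp e g z)) / (1 - 2 * e)
  have hbds : ∀ e, 0 < e → e < 1 / 2 → ∀ y, 0 < noiseOp e g y ∧ noiseOp e g y < 1 :=
    fun e h0 h1 y => noiseOp_bounds hg hx₀ hx₁ h0 (by linarith) y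
  have hD : ∀ e ∈ Set.Ioo 0 ε, HasDerivAt (Hent g) (D e) e := by
    intro e he
    have h2 : e < 1 / 2 := by linarith [he.2]
    exact hasDerivAt_Hent' (by linarith) g (fun y => (hbds e he.1 h2 y).1)
      (fun y => (hbds e he.1 h2 y).2)
  have hDnn : ∀ e ∈ Set.Ioo 0 ε, 0 ≤ D e := by
    intro e he
    have h2 : e < 1 / 2 := by linarith [he.2]
    refine div_nonneg (add_nonneg ?_ ?_) (by linarith)
    · exact Theta_nonneg _ (fun y => (hbds e he.1 h2 y).2)
    · exact Theta_nonneg _ (fun y => by linarith [(hbds e he.1 h2 y).1])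
  obtain ⟨τ, hτ, hslope⟩ := exists_hasDerivAt_eq_slope (Hent g) D hε0
    (continuous_Hent g).continuousOn hD
  rw [Hent_zero hg, sub_zero, sub_zero] at hslope
  have hτ2 : τ < 1 / 2 := by linarith [hτ.2]
  -- monotonicity
  have hmon : Hent g τ ≤ Hent g ε := by
    obtain ⟨c, hc, hs⟩ := exists_hasDerivAt_eq_slope (Hent g) D hτ.2
      (continuous_Hent g).continuousOn
      (fun e he => hD e ⟨hτ.1.trans he.1, he.2⟩)
    have h1 := hDnn c ⟨hτ.1.trans hc.1, hc.2⟩
    rw [hs] at h1
    have h2 : 0 < ε - τ := by linarith [hτ.2]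
    have h3 := (div_nonneg_iff.1 h1)
    rcases h3 with h3 | h3
    · linarith [h3.1]
    · linarith [h3.2]
  have hlow := deriv_lower (noiseOp τ g) (fun y => (hbds τ hτ.1 hτ2 y).1)
    (fun y => (hbds τ hτ.1 hτ2 y).2) hτ.1 hτ2 hr0 hr1 hL
  rw [avg_noiseOp] at hlow
  have hlow' : 4 * L * (1 - r) * (avg g * (1 - avg g)) - C * Hent g τ ≤ D τ := hlow
  rw [hslope] at hlow'
  have h5 : C * Hent g τ ≤ C * Hent g ε := mul_le_mul_of_nonneg_left hmon hC
  have h6 : 4 * L * (1 - r) * (avg g * (1 - avg g)) - C * Hent g ε ≤ Hent g ε / ε := by linarith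
  rw [le_div_iff₀ hε0] at h6
  nlinarith

end Vale.Agent.Lib.P322
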